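import Vale.Agent.P229.Calc

/-!
# P229 seat E: similarities of the plane and the Darboux equation
-/

namespace Vale.Agent.P229.Island

open Filter
open scoped ContDiff Topology

/-- The linear rotation-dilation `x ↦ (α x₁ - β x₂, β x₁ + α x₂)`. -/
noncomputable def rotL (α β : ℝ) : P2 →L[ℝ] P2 :=
  (α • ContinuousLinearMap.fst ℝ ℝ ℝ - β • ContinuousLinearMap.snd ℝ ℝ ℝ).prod
    (β • ContinuousLinearMap.fst ℝ ℝ ℝ + α • ContinuousLinearMap.snd ℝ ℝ ℝ)

lemma rotL_apply (α β : ℝ) (x : P2) :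
    rotL α β x = (α * x.1 - β * x.2, β * x.1 + α * x.2) := by simp [rotL]

/-- The similarity `x ↦ z₀ + w • rotL α β x`. -/
noncomputable def sim (z₀ : P2) (w α β : ℝ) (x : P2) : P2 := z₀ + w • rotL α β x

lemma sim_apply (z₀ : P2) (w α β : ℝ) (x : P2) :
    sim z₀ w α β x = (z₀.1 + w * (α * x.1 - β * x.2), z₀.2 + w * (β * x.1 + α * x.2)) := by
  simp [sim, rotL_apply, Prod.smul_def, smul_eq_mul]
  rfl

lemma sim_zero (z₀ : P2) (w α β : ℝ) : sim z₀ w α β 0 = z₀ := by simp [sim]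

lemma contDiff_sim (z₀ : P2) (w α β : ℝ) {n : ℕ∞ω} : ContDiff ℝ n (sim z₀ w α β) :=
  contDiff_const.add ((rotL α β).contDiff.const_smul w)

lemma rsq_rotL {α β : ℝ} (h : α ^ 2 + β ^ 2 = 1) (x : P2) : rsq (rotL α β x) = rsq x := by
  simp only [rsq, rotL_apply]
  linear_combination (x.1 ^ 2 + x.2 ^ 2) * h

lemma norm_le_of_rsq {x : P2} {r : ℝ} (hr : 0 ≤ r) (h : rsq x ≤ r ^ 2) : ‖x‖ ≤ r := by
  unfold rsq at h
  simp only [Prod.norm_def, Real.norm_eq_abs, max_le_iff]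
  constructor <;> rw [abs_le] <;> constructor <;> nlinarith [sq_nonneg x.1, sq_nonneg x.2]

lemma norm_rotL_le {α β : ℝ} (h : α ^ 2 + β ^ 2 = 1) : ‖rotL α β‖ ≤ 2 := by
  refine ContinuousLinearMap.opNorm_le_bound _ zero_le_two fun x => ?_
  refine norm_le_of_rsq (mul_nonneg zero_le_two (norm_nonneg _)) ?_
  rw [rsq_rotL h]
  have h1 : |x.1| ≤ ‖x‖ := le_max_left _ _
  have h2 : |x.2| ≤ ‖x‖ := le_max_right _ _
  unfold rsq
  nlinarith [pow_le_pow_left₀ (abs_nonneg x.1) h1 2, pow_le_pow_left₀ (abs_nonneg x.2) h2 2,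
    sq_abs x.1, sq_abs x.2, sq_nonneg ‖x‖]

lemma dist_sim_le {α β : ℝ} (h : α ^ 2 + β ^ 2 = 1) (z₀ : P2) {w : ℝ} (hw : 0 ≤ w) {x : P2}
    {r : ℝ} (hr : 0 ≤ r) (hx : rsq x ≤ r ^ 2) : dist (sim z₀ w α β x) z₀ ≤ w * r := by
  rw [dist_eq_norm, sim, add_sub_cancel_left, norm_smul, Real.norm_eq_abs, abs_of_nonneg hw]
  exact mul_le_mul_of_nonneg_left (norm_le_of_rsq hr (by rw [rsq_rotL h]; exact hx)) hw

variable {F : P2 → ℝ} {z₀ x : P2} {w α β : ℝ}

lemma d1_sim (hF : DifferentiableAt ℝ F (sim z₀ w α β x)) :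
    d1 (fun y => F (sim z₀ w α β y)) x =
      w * (α * d1 F (sim z₀ w α β x) + β * d2 F (sim z₀ w α β x)) := by
  have h : HasFDerivAt (sim z₀ w α β) (w • rotL α β) x :=
    ((rotL α β).hasFDerivAt.const_smul w).const_add z₀
  simp only [d1]
  rw [show fderiv ℝ (fun y => F (sim z₀ w α β y)) x = _ from (hF.hasFDerivAt.comp x h).fderiv]
  have e : rotL α β ((1, 0) : P2) = α • ((1, 0) : P2) + β • ((0, 1) : P2) := by simp [rotL_apply]
  rw [ContinuousLinearMap.comp_apply, smul_apply, e, map_smul, map_add, map_smul, map_smul]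
  simp [d2]

lemma d2_sim (hF : DifferentiableAt ℝ F (sim z₀ w α β x)) :
    d2 (fun y => F (sim z₀ w α β y)) x =
      w * (-β * d1 F (sim z₀ w α β x) + α * d2 F (sim z₀ w α β x)) := by
  have h : HasFDerivAt (sim z₀ w α β) (w • rotL α β) x :=
    ((rotL α β).hasFDerivAt.const_smul w).const_add z₀
  simp only [d2]
  rw [show fderiv ℝ (fun y => F (sim z₀ w α β y)) x = _ from (hF.hasFDerivAt.comp x h).fderiv]
  have e : rotL α β ((0, 1) : P2) = (-β) • ((1, 0) : P2) + α • ((0, 1) : P2) := by simp [rotL_apply]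
  rw [ContinuousLinearMap.comp_apply, smul_apply, e, map_smul, map_add, map_smul, map_smul]
  simp [d1]

lemma differentiableAt_d1 (hF : ContDiffAt ℝ 2 F x) :
    DifferentiableAt ℝ (d1 F) x ∧ DifferentiableAt ℝ (d2 F) x :=
  have h := (hF.fderiv_right (m := 1) (by norm_num)).differentiableAt one_ne_zero
  ⟨h.clm_apply (differentiableAt_const _), h.clm_apply (differentiableAt_const _)⟩

lemma d1_d2_at (hF : ContDiffAt ℝ 2 F x) : d1 (d2 F) x = d2 (d1 F) x := by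
  have hd : DifferentiableAt ℝ (fderiv ℝ F) x :=
    (hF.fderiv_right (m := 1) (by norm_num)).differentiableAt one_ne_zero
  have hs := hF.isSymmSndFDerivAt (by simp)
  simp only [d1, d2]
  unfold d2 d1
  rw [fderiv_clm_apply hd (differentiableAt_const _),
    fderiv_clm_apply hd (differentiableAt_const _)]
  simpa using hs (1, 0) (0, 1)

/-- Second partials of a composition with a similarity. -/
lemma dd_sim (hF : ContDiffAt ℝ 2 F (sim z₀ w α β x)) :
    let S := sim z₀ w α β x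
    d1 (d1 fun y => F (sim z₀ w α β y)) x =
        w ^ 2 * (α ^ 2 * d1 (d1 F) S + 2 * α * β * d1 (d2 F) S + β ^ 2 * d2 (d2 F) S) ∧
    d1 (d2 fun y => F (sim z₀ w α β y)) x =
        w ^ 2 * (-(α * β) * d1 (d1 F) S + (α ^ 2 - β ^ 2) * d1 (d2 F) S + α * β * d2 (d2 F) S) ∧
    d2 (d2 fun y => F (sim z₀ w α β y)) x =
        w ^ 2 * (β ^ 2 * d1 (d1 F) S - 2 * α * β * d1 (d2 F) S + α ^ 2 * d2 (d2 F) S) := by
  intro S
  have hev : ∀ᶠ y in 𝓝 x, DifferentiableAt ℝ F (sim z₀ w α β y) := by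
    have : ∀ᶠ z in 𝓝 S, DifferentiableAt ℝ F z :=
      (hF.eventually (by simp)).mono fun z hz => hz.differentiableAt (by simp)
    exact (contDiff_sim z₀ w α β (n := 0)).continuous.continuousAt.eventually this
  have e1 : d1 (fun y => F (sim z₀ w α β y)) =ᶠ[𝓝 x]
      fun y => w * (α * d1 F (sim z₀ w α β y) + β * d2 F (sim z₀ w α β y)) :=
    hev.mono fun y hy => d1_sim hy
  have e2 : d2 (fun y => F (sim z₀ w α β y)) =ᶠ[𝓝 x]
      fun y => w * (-β * d1 F (sim z₀ w α β y) + α * d2 F (sim z₀ w α β y)) :=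
    hev.mono fun y hy => d2_sim hy
  obtain ⟨h1, h2⟩ := differentiableAt_d1 hF
  have hs : DifferentiableAt ℝ (sim z₀ w α β) x :=
    (contDiff_sim z₀ w α β (n := 1)).differentiable one_ne_zero x
  have c1 : DifferentiableAt ℝ (fun y => d1 F (sim z₀ w α β y)) x := h1.comp x hs
  have c2 : DifferentiableAt ℝ (fun y => d2 F (sim z₀ w α β y)) x := h2.comp x hs
  have sym := d1_d2_at hF
  have lin : ∀ p q : ℝ, ∀ G₁ G₂ : P2 → ℝ, DifferentiableAt ℝ G₁ x → DifferentiableAt ℝ G₂ x →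
      d1 (fun y => w * (p * G₁ y + q * G₂ y)) x = w * (p * d1 G₁ x + q * d1 G₂ x) ∧
      d2 (fun y => w * (p * G₁ y + q * G₂ y)) x = w * (p * d2 G₁ x + q * d2 G₂ x) := by
    intro p q G₁ G₂ g₁ g₂
    rw [d1_const_mul _ ((g₁.const_mul p).fun_add (g₂.const_mul q)),
      d2_const_mul _ ((g₁.const_mul p).fun_add (g₂.const_mul q)),
      d1_add (g₁.const_mul p) (g₂.const_mul q), d2_add (g₁.const_mul p) (g₂.const_mul q),
      d1_const_mul _ g₁, d1_const_mul _ g₂, d2_const_mul _ g₁, d2_const_mul _ g₂]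
    exact ⟨rfl, rfl⟩
  refine ⟨?_, ?_, ?_⟩
  · rw [d1, e1.fderiv_eq, ← d1.eq_def, (lin _ _ _ _ c1 c2).1, d1_sim h1, d1_sim h2, ← sym]; ring
  · rw [d1, e2.fderiv_eq, ← d1.eq_def, (lin _ _ _ _ c1 c2).1, d1_sim h1, d1_sim h2, ← sym]; ring
  · rw [d2, e2.fderiv_eq, ← d2.eq_def, (lin _ _ _ _ c1 c2).2, d2_sim h1, d2_sim h2, ← sym]; ring

/-- A similarity turns Darboux with `κ = 1` into Darboux with `κ = k² w²`. -/
lemma darboux_sim {ψ ζ : P2 → ℝ} {k c : ℝ} (h : α ^ 2 + β ^ 2 = 1)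
    (hψ : ContDiffAt ℝ 2 ψ (sim z₀ w α β x)) (hζ : ContDiffAt ℝ 2 ζ (sim z₀ w α β x))
    (hD : Darboux 1 ψ ζ (sim z₀ w α β x)) :
    Darboux (k ^ 2 * w ^ 2) (fun y => ψ (sim z₀ w α β y))
      (fun y => k * (ζ (sim z₀ w α β y) - c)) x := by
  set S := sim z₀ w α β x
  set φ := fun y => ψ (sim z₀ w α β y)
  set G := fun y => ζ (sim z₀ w α β y)
  have hG : ContDiffAt ℝ 2 G x := hζ.comp x (contDiff_sim z₀ w α β).contDiffAt
  obtain ⟨g1, g2⟩ := differentiableAt_d1 hG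
  have e1 : ∀ᶠ y in 𝓝 x, d1 (fun y => k * (G y - c)) y = k * d1 G y ∧
      d2 (fun y => k * (G y - c)) y = k * d2 G y := by
    filter_upwards [hG.eventually (by simp)] with y hy
    have hd := hy.differentiableAt (by simp)
    simp [d1, d2, fderiv_const_mul (hd.sub_const c), fderiv_sub_const]
  have E11 : d1 (d1 fun y => k * (G y - c)) x = k * d1 (d1 G) x := by
    have ev : d1 (fun y => k * (G y - c)) =ᶠ[𝓝 x] fun y => k * d1 G y := e1.mono fun y hy => hy.1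
    rw [d1, ev.fderiv_eq, ← d1.eq_def, d1_const_mul _ g1]
  have E12 : d1 (d2 fun y => k * (G y - c)) x = k * d1 (d2 G) x := by
    have ev : d2 (fun y => k * (G y - c)) =ᶠ[𝓝 x] fun y => k * d2 G y := e1.mono fun y hy => hy.2
    rw [d1, ev.fderiv_eq, ← d1.eq_def, d1_const_mul _ g2]
  have E22 : d2 (d2 fun y => k * (G y - c)) x = k * d2 (d2 G) x := by
    have ev : d2 (fun y => k * (G y - c)) =ᶠ[𝓝 x] fun y => k * d2 G y := e1.mono fun y hy => hy.2
    rw [d2, ev.fderiv_eq, ← d2.eq_def, d2_const_mul _ g2]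
  obtain ⟨E1, E2⟩ := e1.self_of_nhds
  obtain ⟨Z11, Z12, Z22⟩ := dd_sim hζ
  obtain ⟨P11, -, P22⟩ := dd_sim hψ
  have hψ1 := hψ.differentiableAt (by simp)
  have hζ1 := hζ.differentiableAt (by simp)
  have F11 : H11 φ (fun y => k * (G y - c)) x = k * w ^ 2 *
      (α ^ 2 * H11 ψ ζ S + 2 * α * β * H12 ψ ζ S + β ^ 2 * H22 ψ ζ S) := by
    simp only [H11, H12, H22, E11, E1, E2, φ, G, Z11, d1_sim hψ1, d2_sim hψ1, d1_sim hζ1,
      d2_sim hζ1, S]
    ring
  have F12 : H12 φ (fun y => k * (G y - c)) x = k * w ^ 2 *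
      (-(α * β) * H11 ψ ζ S + (α ^ 2 - β ^ 2) * H12 ψ ζ S + α * β * H22 ψ ζ S) := by
    simp only [H11, H12, H22, E12, E1, E2, φ, G, Z12, d1_sim hψ1, d2_sim hψ1, d1_sim hζ1,
      d2_sim hζ1, S]
    ring
  have F22 : H22 φ (fun y => k * (G y - c)) x = k * w ^ 2 *
      (β ^ 2 * H11 ψ ζ S - 2 * α * β * H12 ψ ζ S + α ^ 2 * H22 ψ ζ S) := by
    simp only [H11, H12, H22, E22, E1, E2, φ, G, Z22, d1_sim hψ1, d2_sim hψ1, d1_sim hζ1,
      d2_sim hζ1, S]
    ring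
  have FL : lap φ x = w ^ 2 * lap ψ S := by
    simp only [lap, φ, P11, P22, S]
    linear_combination (w ^ 2 * (d1 (d1 ψ) (sim z₀ w α β x) + d2 (d2 ψ) (sim z₀ w α β x))) * h
  have FG : gradSq (fun y => k * (G y - c)) x = k ^ 2 * w ^ 2 * gradSq ζ S := by
    simp only [gradSq, E1, E2, G, d1_sim hζ1, d2_sim hζ1, S]
    linear_combination (k ^ 2 * w ^ 2 * (d1 ζ (sim z₀ w α β x) ^ 2 +
      d2 ζ (sim z₀ w α β x) ^ 2)) * h
  simp only [Darboux] at hD ⊢
  rw [F11, F12, F22, FL, FG]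
  have e : φ x = ψ S := rfl
  rw [e]
  linear_combination (k ^ 2 * w ^ 4) * hD +
    (k ^ 2 * w ^ 4 * (α ^ 2 + β ^ 2 + 1) *
      (H11 ψ ζ S * H22 ψ ζ S - H12 ψ ζ S ^ 2)) * h

/-- Derivative bounds under a similarity. -/
lemma norm_iteratedFDeriv_sim_le {U : Set P2} (hU : IsOpen U) {n k : ℕ}
    (hF : ContDiffOn ℝ n F U) (hk : k ≤ n) (h : α ^ 2 + β ^ 2 = 1) (hw : 0 ≤ w)
    (hx : sim z₀ w α β x ∈ U) :
    ‖iteratedFDeriv ℝ k (fun y => F (sim z₀ w α β y)) x‖ ≤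
      (2 * w) ^ k * ‖iteratedFDeriv ℝ k F (sim z₀ w α β x)‖ := by
  set g : P2 →L[ℝ] P2 := w • rotL α β
  set V : Set P2 := (fun y => z₀ + y) ⁻¹' U
  have hV : IsOpen V := hU.preimage (continuous_const.add continuous_id)
  have hF' : ContDiffOn ℝ n (fun y => F (z₀ + y)) V :=
    hF.comp (contDiffOn_const.add contDiffOn_id) fun y hy => hy
  have hgx : g x ∈ V := by
    show z₀ + g x ∈ U
    simpa [g, sim] using hx
  have hW : IsOpen (g ⁻¹' V) := hV.preimage g.continuous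
  have e : (fun y => F (sim z₀ w α β y)) = (fun y => F (z₀ + y)) ∘ g := by
    funext y; simp [g, sim]
  rw [e, ← iteratedFDerivWithin_of_isOpen k hW (show x ∈ g ⁻¹' V from hgx),
    g.iteratedFDerivWithin_comp_right hF' hV.uniqueDiffOn hW.uniqueDiffOn hgx
      (by exact_mod_cast hk),
    iteratedFDerivWithin_of_isOpen k hV hgx]
  refine (ContinuousMultilinearMap.norm_compContinuousLinearMap_le _ _).trans ?_
  rw [iteratedFDeriv_comp_add_left, show z₀ + g x = sim z₀ w α β x by simp [g, sim], mul_comm,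
    Finset.prod_const, Finset.card_univ, Fintype.card_fin]
  refine mul_le_mul_of_nonneg_right (pow_le_pow_left₀ (norm_nonneg _) ?_ k) (norm_nonneg _)
  rw [norm_smul, Real.norm_eq_abs, abs_of_nonneg hw, mul_comm 2 w]
  exact mul_le_mul_of_nonneg_left (norm_rotL_le h) hw

end Vale.Agent.P229.Island
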