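import Vale.Agent.P229.Keys.Main

/-!
# P229 seat E: buckets and the pigeonhole

A coarse bucket fixes the frame; inside it, cell integrals and few keys on the annulus give a pair
whose difference has small data.
-/

namespace Vale.Agent.P229.Island

open MeasureTheory

/-- Node of the grid of mesh `2 / m`: it stays in the closed ball of radius two. -/
lemma node_mem {η : ℝ} {m : ℕ} (hη : 0 < η) (hm : m * η = 2)
    (a : Fin (2 * m + 1) × Fin (2 * m + 1)) :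
    Keys.node η m a ∈ Metric.closedBall (0 : P2) 2 := by
  have key : ∀ b : Fin (2 * m + 1), |η * ((b : ℕ) - (m : ℝ))| ≤ 2 := by
    intro b
    rw [abs_mul, abs_of_pos hη, ← hm, mul_comm (m : ℝ)]
    refine mul_le_mul_of_nonneg_left (abs_le.2 ⟨?_, ?_⟩) hη.le
    · have : (0 : ℝ) ≤ (b : ℕ) := Nat.cast_nonneg _
      linarith
    · have : ((b : ℕ) : ℝ) ≤ ((2 * m : ℕ) : ℝ) := by exact_mod_cast Nat.lt_succ_iff.1 b.2
      push_cast at this
      linarith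
  rw [Metric.mem_closedBall, dist_zero_right]
  exact max_le (key a.1) (key a.2)

/-- Finitely many `C^3` buckets for a family bounded in `C^4`. -/
theorem exists_bucket (M ρ : ℝ) (hρ : 0 < ρ) :
    ∃ B : ℕ, 0 < B ∧ ∀ (ι : Type) [Fintype ι] (f : ι → P2 → ℝ),
      (∀ i, ∀ x ∈ Metric.closedBall (0 : P2) 3, ContDiffAt ℝ (⊤ : ℕ∞) (f i) x) →
      (∀ i, ∀ x ∈ Metric.closedBall (0 : P2) 3, ∀ l ≤ 4, ‖iteratedFDeriv ℝ l (f i) x‖ ≤ M) →
      ∀ K : ℕ, B * K < Fintype.card ι → ∃ S : Finset ι, K < S.card ∧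
        ∀ i ∈ S, ∀ k ∈ S, ∀ x ∈ Metric.closedBall (0 : P2) 2, ∀ l ≤ 3,
          ‖iteratedFDeriv ℝ l (f i) x - iteratedFDeriv ℝ l (f k) x‖ ≤ ρ := by
  set C : ℝ := max M 0 + 1 with hCd
  have hC : 0 < C := by linarith [le_max_right M (0 : ℝ)]
  set m : ℕ := ⌈8 * C / ρ⌉₊ + 2 with hmd
  set η : ℝ := 2 / m with hηd
  have hm2 : (2 : ℝ) ≤ m := by exact_mod_cast (by omega : 2 ≤ m)
  have hη : 0 < η := by positivity
  have hmη : (m : ℝ) * η = 2 := by rw [hηd]; field_simp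
  have hη1 : η ≤ 1 := by rw [hηd, div_le_one (by linarith)]; linarith
  have hηC : η * (2 * C) ≤ ρ / 2 := by
    have h1 : 8 * C / ρ ≤ m :=
      (Nat.le_ceil _).trans (by exact_mod_cast (by omega : ⌈8 * C / ρ⌉₊ ≤ m))
    rw [div_le_iff₀ hρ] at h1
    rw [hηd, div_mul_eq_mul_div, div_le_iff₀ (by linarith)]
    linarith
  set ε : ℝ := ρ / 128 with hεd
  have hε : 0 < ε := by positivity
  set L : ℕ := ⌈C / ε⌉₊ with hLd
  have hL : C ≤ L * ε := (div_le_iff₀ hε).1 (Nat.le_ceil _)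
  let Key := (Fin (2 * m + 1) × Fin (2 * m + 1)) →
    ((j : Fin 4) × (Fin (j : ℕ) → Bool)) → Fin (2 * L + 1)
  refine ⟨Fintype.card Key, Fintype.card_pos, fun ι _ f hf hb K hK => ?_⟩
  classical
  let key : ι → Key := fun i a t => Keys.code ε L
    (iteratedFDeriv ℝ (t.1 : ℕ) (f i) (Keys.node η m a) fun n => Keys.vec (t.2 n))
  obtain ⟨y, hy⟩ := Fintype.exists_lt_card_fiber_of_mul_lt_card key hK
  refine ⟨Finset.univ.filter fun i => key i = y, hy, fun i hi k hk x hx l hl => ?_⟩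
  have heq : key i = key k := by rw [(Finset.mem_filter.1 hi).2, (Finset.mem_filter.1 hk).2]
  rw [Metric.mem_closedBall, dist_zero_right] at hx
  have hx1 : |x.1| ≤ m * η := (norm_fst_le x).trans (hx.trans_eq hmη.symm)
  have hx2 : |x.2| ≤ m * η := (norm_snd_le x).trans (hx.trans_eq hmη.symm)
  obtain ⟨a₁, ha₁⟩ := Keys.exists_idx hη hx1
  obtain ⟨a₂, ha₂⟩ := Keys.exists_idx hη hx2
  set z := Keys.node η m (a₁, a₂) with hzd
  have hz2 := node_mem hη hmη (a₁, a₂)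
  have hxz : x ∈ Metric.closedBall z η := by
    rw [Metric.mem_closedBall, Prod.dist_eq, max_le_iff]
    exact ⟨ha₁, ha₂⟩
  have hsub : Metric.closedBall z η ⊆ Metric.closedBall (0 : P2) 3 :=
    Metric.closedBall_subset_closedBall' (by rw [Metric.mem_closedBall] at hz2; linarith)
  have hd : ∀ (n : ℕ) (y : P2), y ∈ Metric.closedBall z η →
      iteratedFDeriv ℝ n (f i - f k) y = iteratedFDeriv ℝ n (f i) y - iteratedFDeriv ℝ n (f k) y :=
    fun n y hy => iteratedFDeriv_sub_apply ((hf i y (hsub hy)).of_le (by exact_mod_cast le_top))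
      ((hf k y (hsub hy)).of_le (by exact_mod_cast le_top))
  have hB : ∀ y ∈ Metric.closedBall z η, ‖iteratedFDeriv ℝ 4 (f i - f k) y‖ ≤ 2 * C :=
    fun y hy => by
      rw [hd 4 y hy]
      refine (norm_sub_le _ _).trans ?_
      linarith [hb i y (hsub hy) 4 le_rfl, hb k y (hsub hy) 4 le_rfl, le_max_left M (0 : ℝ)]
  have hzz : z ∈ Metric.closedBall z η := Metric.mem_closedBall_self hη.le
  have h0 : ∀ n < 4, ‖iteratedFDeriv ℝ n (f i - f k) z‖ ≤ 16 * ε := by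
    intro n hn
    refine (Keys.norm_le_coord _ hε.le fun b => ?_).trans (mul_le_mul_of_nonneg_right ?_ hε.le)
    · rw [hd n z hzz, sub_apply]
      have hbd : ∀ p, |iteratedFDeriv ℝ n (f p) z fun q => Keys.vec (b q)| ≤ L * ε := fun p => by
        have h1 := (iteratedFDeriv ℝ n (f p) z).le_opNorm fun q => Keys.vec (b q)
        have h2 : ∏ q, ‖Keys.vec (b q)‖ = 1 := Finset.prod_eq_one fun q _ => by
          cases b q <;> simp [Keys.vec, Prod.norm_def]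
        rw [h2, mul_one, Real.norm_eq_abs] at h1
        linarith [hb p z (hsub hzz) n hn.le, le_max_left M (0 : ℝ)]
      exact Keys.code_close hε (hbd i) (hbd k) (congrFun (congrFun heq (a₁, a₂)) ⟨⟨n, hn⟩, b⟩)
    · calc (2 : ℝ) ^ n ≤ 2 ^ 4 := pow_le_pow_right₀ one_le_two hn.le
        _ = 16 := by norm_num
  have h := Keys.iter_le (g := f i - f k) hη hη1 (by positivity)
    (fun y hy => (hf i y (hsub hy)).sub (hf k y (hsub hy))) hB h0 (4 - l) l (by omega) x hxz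
  rw [hd l x hxz] at h
  refine h.trans ?_
  have e1 : ((4 - l : ℕ) : ℝ) ≤ 4 := by exact_mod_cast (by omega : 4 - l ≤ 4)
  have e2 : η ^ (4 - l) ≤ η := pow_le_of_le_one hη.le hη1 (by omega)
  calc ((4 - l : ℕ) : ℝ) * (16 * ε) + η ^ (4 - l) * (2 * C)
      ≤ 4 * (16 * ε) + η * (2 * C) := by gcongr
    _ ≤ ρ := by rw [hεd]; linarith

/-- A cell integral of a bounded function. -/
lemma abs_cell_le {g : P2 → ℝ} {h C : ℝ} {q : ℤ × ℤ} (hh : 0 < h)
    (hg : ∀ x ∈ cell h q, |g x| ≤ C) : |∫ x in cell h q, g x| ≤ C * h ^ 2 := by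
  have hv : volume.real (cell h q) = h ^ 2 := by
    rw [cell, Measure.volume_eq_prod, measureReal_prod_prod, Real.volume_real_Icc_of_le
      (by nlinarith), Real.volume_real_Icc_of_le (by nlinarith)]
    ring
  have := norm_setIntegral_le_of_norm_le_const (f := g) (μ := volume) (s := cell h q)
    (isCompact_Icc.prod isCompact_Icc).measure_lt_top (C := C) hg
  rwa [hv, Real.norm_eq_abs] at this

/-- An index for each cell inside the disc. -/
lemma cell_idx {h : ℝ} (hh : 0 < h) {q : ℤ × ℤ} (hq : cell h q ⊆ Dsk (3/2)) :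
    |q.1| ≤ (⌈2 / h⌉₊ : ℕ) ∧ |q.2| ≤ (⌈2 / h⌉₊ : ℕ) := by
  have hp : ((h * q.1, h * q.2) : P2) ∈ cell h q :=
    ⟨⟨le_rfl, by nlinarith⟩, ⟨le_rfl, by nlinarith⟩⟩
  have h2 : (h * q.1) ^ 2 + (h * q.2) ^ 2 ≤ 3 / 2 := hq hp
  have key : ∀ u : ℤ, (h * u) ^ 2 ≤ 3 / 2 → |u| ≤ (⌈2 / h⌉₊ : ℕ) := by
    intro u hu
    have h3 : |h * (u : ℝ)| ≤ 2 := abs_le.2 ⟨by nlinarith, by nlinarith⟩
    rw [abs_mul, abs_of_pos hh, mul_comm, ← le_div_iff₀ hh] at h3
    have h4 : ((|u| : ℤ) : ℝ) ≤ ((⌈2 / h⌉₊ : ℕ) : ℝ) := by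
      rw [Int.cast_abs]; exact h3.trans (Nat.le_ceil _)
    exact_mod_cast h4
  exact ⟨key _ (by nlinarith [sq_nonneg (h * (q.2 : ℝ))]),
    key _ (by nlinarith [sq_nonneg (h * (q.1 : ℝ))])⟩

/-- The keys grow slower than the number of sign choices. -/
lemma eventually_lt (A c D : ℝ) (E : ℕ) (hc : 0 < c) (hD : 1 ≤ D) (hA : 0 ≤ A) :
    ∃ Λ₀ : ℝ, 1 < Λ₀ ∧ ∀ Λ, Λ₀ ≤ Λ → ∀ n : ℕ, c * Λ ≤ n →
      D * Λ ^ E * Real.exp (A * √Λ) < 2 ^ n := by
  have h2 : 0 < Real.log 2 := Real.log_pos one_lt_two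
  set F : ℝ := A + 2 * E + Real.log D with hFd
  have hF : 0 ≤ F := by
    have := Real.log_nonneg hD
    positivity
  refine ⟨(F / (c * Real.log 2)) ^ 2 + 2, by nlinarith [sq_nonneg (F / (c * Real.log 2))],
    fun Λ hΛ n hn => ?_⟩
  have hΛ1 : 1 < Λ := by nlinarith [sq_nonneg (F / (c * Real.log 2))]
  have hΛ0 : 0 < Λ := by linarith
  have hs : F / (c * Real.log 2) < √Λ :=
    (Real.lt_sqrt (by positivity)).2 (by linarith)
  have hs1 : 1 ≤ √Λ := Real.one_le_sqrt.2 hΛ1.le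
  rw [div_lt_iff₀ (by positivity)] at hs
  have hlog : Real.log Λ ≤ 2 * √Λ := by
    have := Real.log_le_self (Real.sqrt_nonneg Λ)
    rw [Real.log_sqrt hΛ0.le] at this
    linarith
  have key : Real.log D + E * Real.log Λ + A * √Λ < n * Real.log 2 := by
    have e1 : Real.log D ≤ Real.log D * √Λ := le_mul_of_one_le_right (Real.log_nonneg hD) hs1
    have e2 : (E : ℝ) * Real.log Λ ≤ E * (2 * √Λ) :=
      mul_le_mul_of_nonneg_left hlog (Nat.cast_nonneg E)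
    have e3 : F * √Λ < c * Real.log 2 * √Λ * √Λ := by
      calc F * √Λ < (√Λ * (c * Real.log 2)) * √Λ := mul_lt_mul_of_pos_right hs (by linarith)
        _ = _ := by ring
    rw [mul_assoc _ (√Λ) (√Λ), Real.mul_self_sqrt hΛ0.le] at e3
    have e4 : c * Λ * Real.log 2 ≤ n * Real.log 2 := mul_le_mul_of_nonneg_right hn h2.le
    rw [hFd] at e3
    linarith
  have := Real.exp_lt_exp.2 key
  rwa [Real.exp_add, Real.exp_add, Real.exp_log (by linarith), Real.exp_nat_mul,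
    Real.exp_log hΛ0, Real.exp_nat_mul, Real.exp_log two_pos] at this

/-- Two-stage pigeonhole: a coarse bucket, then in any frame a pair with small data. -/
theorem buckets (r s s' r' h M C ρ c : ℝ) (N a : ℕ) (hr : 0 < r) (hrs : r < s) (hss : s < s')
    (hsr : s' < r') (hh : 0 < h) (hρ : 0 < ρ) (hc : 0 < c) (hN : 8 ≤ N) (ha : 8 * a ≤ N)
    (ha1 : 1 ≤ a) :
    ∃ Λ₀ : ℝ, 1 ≤ Λ₀ ∧ ∀ Λ, Λ₀ ≤ Λ → ∀ n : ℕ, c * Λ ≤ n →
      ∀ (ι : Type) [Fintype ι], 2 ^ n ≤ Fintype.card ι → ∀ f : ι → P2 → ℝ,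
      (∀ i, ∀ x ∈ Metric.closedBall (0 : P2) 3, ContDiffAt ℝ (⊤ : ℕ∞) (f i) x) →
      (∀ i, ∀ x ∈ Metric.closedBall (0 : P2) 3, ∀ l ≤ 4, ‖iteratedFDeriv ℝ l (f i) x‖ ≤ M) →
      ∃ S : Finset ι, S.Nonempty ∧
        (∀ i ∈ S, ∀ k ∈ S, ∀ x ∈ Metric.closedBall (0 : P2) 2, ∀ l ≤ 3,
          ‖iteratedFDeriv ℝ l (f i) x - iteratedFDeriv ℝ l (f k) x‖ ≤ ρ) ∧
        ∀ g : ι → P2 → ℝ,
          (∀ i ∈ S, ContDiffOn ℝ (⊤ : ℕ∞) (g i) (interior (Ann r r'))) →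
          (∀ i ∈ S, ∀ x ∈ interior (Ann r r'), ∀ l ≤ N, ‖iteratedFDeriv ℝ l (g i) x‖ ≤ C) →
          (∀ i ∈ S, ContinuousOn (g i) (Dsk (3/2))) →
          (∀ i ∈ S, ∀ x ∈ Dsk (3/2), |g i x| ≤ C) →
          ∃ i ∈ S, ∃ k ∈ S, i ≠ k ∧
            (∀ x ∈ Ann s s', |g i x - g k x| ≤ (Λ ^ a)⁻¹ ∧
              |d1 (g i) x - d1 (g k) x| ≤ (Λ ^ a)⁻¹ ∧ |d2 (g i) x - d2 (g k) x| ≤ (Λ ^ a)⁻¹) ∧
            ∀ q : ℤ × ℤ, cell h q ⊆ Dsk (3/2) →
              |∫ x in cell h q, (g i x - g k x)| ≤ (Λ ^ a)⁻¹ := by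
  classical
  obtain ⟨B, hB, hbucket⟩ := exists_bucket M ρ hρ
  obtain ⟨A, hA⟩ := Keys.fewKeys r s s' r' C N hr hrs hss hsr hN
  set C' : ℝ := (|C| + 1) * h ^ 2 with hC'd
  have hC' : 0 < C' := by positivity
  set Q : ℕ := ⌈2 / h⌉₊ with hQd
  set T : ℕ := (2 * Q + 1) * (2 * Q + 1) with hTd
  have hB1 : (1 : ℝ) ≤ B := by exact_mod_cast hB
  obtain ⟨Λ₀, hΛ₀, hgrowth⟩ := eventually_lt (max A 0) c (B * (2 * C' + 3) ^ T * 2) (a * T) hc
    (by
      have : (1 : ℝ) ≤ (2 * C' + 3) ^ T := one_le_pow₀ (by linarith)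
      nlinarith)
    (le_max_right _ _)
  refine ⟨Λ₀, hΛ₀.le, fun Λ hΛ n hn ι _ hcard f hf hfb => ?_⟩
  have hΛ1 : 1 < Λ := hΛ₀.trans_le hΛ
  have hΛ0 : 0 < Λ := by linarith
  set δ : ℝ := (Λ ^ a)⁻¹ with hδd
  have hΛa : 1 < Λ ^ a := one_lt_pow₀ hΛ1 (by omega)
  have hδ : 0 < δ := by positivity
  have hδ1 : δ < 1 := inv_lt_one_of_one_lt₀ hΛa
  set L : ℕ := ⌈C' / δ⌉₊ with hLd
  have hL : C' ≤ L * δ := (div_le_iff₀ hδ).1 (Nat.le_ceil _)
  set K₂ : ℕ := ⌈Real.exp (max A 0 * √Λ)⌉₊ with hK₂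
  have hkeys : B * ((2 * L + 1) ^ T * K₂) < Fintype.card ι := by
    refine lt_of_lt_of_le ?_ hcard
    suffices ((B * ((2 * L + 1) ^ T * K₂) : ℕ) : ℝ) < ((2 ^ n : ℕ) : ℝ) by exact_mod_cast this
    have e1 : ((2 * L + 1 : ℕ) : ℝ) ≤ (2 * C' + 3) * Λ ^ a := by
      have := Nat.ceil_lt_add_one (a := C' / δ) (by positivity)
      have e : C' / δ = C' * Λ ^ a := by rw [hδd, div_inv_eq_mul]
      push_cast
      nlinarith
    have e2 : (K₂ : ℝ) ≤ 2 * Real.exp (max A 0 * √Λ) := by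
      have := Nat.ceil_lt_add_one (Real.exp_pos (max A 0 * √Λ)).le
      have := Real.one_le_exp (mul_nonneg (le_max_right A 0) (Real.sqrt_nonneg Λ))
      linarith
    push_cast at e1 ⊢
    calc (B : ℝ) * ((2 * (L : ℝ) + 1) ^ T * K₂)
        ≤ B * (((2 * C' + 3) * Λ ^ a) ^ T * (2 * Real.exp (max A 0 * √Λ))) := by gcongr
      _ = B * (2 * C' + 3) ^ T * 2 * Λ ^ (a * T) * Real.exp (max A 0 * √Λ) := by
          rw [mul_pow, ← pow_mul]; ring
      _ < 2 ^ n := hgrowth Λ hΛ n hn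
  obtain ⟨S, hS, hclose⟩ := hbucket ι f hf hfb _ hkeys
  refine ⟨S, Finset.card_pos.1 (by omega), hclose, fun g hg hgb hgc hgd => ?_⟩
  let cq : Fin (2 * Q + 1) × Fin (2 * Q + 1) → ℤ × ℤ := fun b =>
    (((b.1 : ℕ) : ℤ) - Q, ((b.2 : ℕ) : ℤ) - Q)
  let key : ι → (Fin (2 * Q + 1) × Fin (2 * Q + 1) → Fin (2 * L + 1)) := fun i b =>
    Keys.code δ L (∫ x in cell h (cq b), g i x)
  obtain ⟨y, -, hy⟩ := Finset.exists_lt_card_fiber_of_mul_lt_card_of_maps_to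
    (s := S) (t := Finset.univ) (f := key) (n := K₂) (fun _ _ => Finset.mem_univ _)
    (by
      rwa [Finset.card_univ, Fintype.card_fun, Fintype.card_fin, Fintype.card_prod,
        Fintype.card_fin])
  set t := S.filter fun i => key i = y with htd
  have hexp : Real.exp (A * δ ^ (-(4 : ℝ) / N)) ≤ (K₂ : ℝ) := by
    refine le_trans (Real.exp_le_exp.2 ?_) (Nat.le_ceil _)
    have e : δ ^ (-(4 : ℝ) / N) ≤ √Λ := by
      have hN0 : (0 : ℝ) < N := by exact_mod_cast (by omega : 0 < N)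
      rw [hδd, Real.inv_rpow (by positivity), neg_div, Real.rpow_neg (by positivity), inv_inv,
        ← Real.rpow_natCast Λ a, ← Real.rpow_mul hΛ0.le, Real.sqrt_eq_rpow]
      refine Real.rpow_le_rpow_of_exponent_le hΛ1.le ?_
      rw [mul_div_assoc', div_le_iff₀ hN0]
      have : (8 : ℝ) * a ≤ N := by exact_mod_cast ha
      linarith
    calc A * δ ^ (-(4 : ℝ) / N) ≤ max A 0 * δ ^ (-(4 : ℝ) / N) :=
          mul_le_mul_of_nonneg_right (le_max_left _ _) (Real.rpow_nonneg hδ.le _)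
      _ ≤ max A 0 * √Λ := mul_le_mul_of_nonneg_left e (le_max_right _ _)
  obtain ⟨i, k, hne, hik⟩ := hA δ hδ hδ1 t (fun i => g i)
    (fun i => hg i (Finset.mem_filter.1 i.2).1)
    (fun i x hx l hl => hgb i (Finset.mem_filter.1 i.2).1 x hx l hl)
    (hexp.trans_lt (by rw [Fintype.card_coe]; exact_mod_cast hy))
  obtain ⟨hiS, hiy⟩ := Finset.mem_filter.1 i.2
  obtain ⟨hkS, hky⟩ := Finset.mem_filter.1 k.2
  refine ⟨i, hiS, k, hkS, fun e => hne (Subtype.ext e), hik, fun q hq => ?_⟩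
  obtain ⟨hq1, hq2⟩ := cell_idx hh hq
  rw [abs_le] at hq1 hq2
  have hb : cq (⟨(q.1 + Q).toNat, by omega⟩, ⟨(q.2 + Q).toNat, by omega⟩) = q := by
    simp only [cq]
    apply Prod.ext <;> simp <;> omega
  have hcell : ∀ p ∈ S, |∫ x in cell h q, g p x| ≤ L * δ := fun p hp =>
    (abs_cell_le hh fun x hx => hgd p hp x (hq hx)).trans <| le_trans (by
      rw [hC'd]
      exact mul_le_mul_of_nonneg_right (by linarith [le_abs_self C]) (sq_nonneg h)) hL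
  have hint : ∀ p ∈ S, IntegrableOn (g p) (cell h q) volume := fun p hp =>
    ((hgc p hp).mono hq).integrableOn_compact (isCompact_Icc.prod isCompact_Icc)
  rw [integral_sub (hint i hiS) (hint k hkS)]
  have hc' := congrFun (hiy.trans hky.symm)
    (⟨(q.1 + Q).toNat, by omega⟩, ⟨(q.2 + Q).toNat, by omega⟩)
  simp only [key, hb] at hc'
  exact Keys.code_close hδ (hcell i hiS) (hcell k hkS) hc'

end Vale.Agent.P229.Island
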