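import Vale.Agent.P229.Island.Cutoffs
import Vale.Agent.P229.Island.Affine

/-!
# P229 seat E: rows of separated bumps
-/

namespace Vale.Agent.P229.Island

open Filter
open scoped ContDiff Topology

lemma contDiff_bump (n : ℕ) : ContDiff ℝ n bump := by
  unfold bump
  exact Real.smoothTransition.contDiff.comp (contDiff_const.sub contDiff_rsq)

lemma bump_eq_zero {z : P2} (h : 1 ≤ rsq z) : bump z = 0 :=
  Real.smoothTransition.zero_of_nonpos (by linarith)

lemma exists_bump_bound (n : ℕ) :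
    ∃ B : ℝ, 0 ≤ B ∧ ∀ x, ∀ k ≤ n, ‖iteratedFDeriv ℝ k bump x‖ ≤ B :=
  exists_bound_of_compactSupport contDiff_bump
    (HasCompactSupport.intro (isCompact_rsq_le 1) fun _ hx => bump_eq_zero (le_of_not_ge hx)) n

lemma zoom_eq_sim (Λ : ℝ) (p y : P2) :
    ((Λ * (y.1 - p.1), Λ * (y.2 - p.2)) : P2) = sim (-(Λ • p)) Λ 1 0 y := by
  simp [sim_apply, Prod.smul_def, smul_eq_mul]
  constructor <;> ring

lemma zoom_far {Λ : ℝ} (hΛ : 0 < Λ) {p y : P2} (h : 1 / Λ ≤ ‖y - p‖) :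
    1 ≤ rsq (Λ * (y.1 - p.1), Λ * (y.2 - p.2)) := by
  have h1 : 1 ≤ Λ * ‖y - p‖ := by
    rwa [div_le_iff₀ hΛ, mul_comm] at h
  rw [Prod.norm_def, mul_max_of_nonneg _ _ hΛ.le] at h1
  unfold rsq
  rcases le_max_iff.1 h1 with h2 | h2 <;> simp only [Prod.fst_sub, Prod.snd_sub, Real.norm_eq_abs] at h2
  · have := pow_le_pow_left₀ zero_le_one h2 2
    rw [one_pow, mul_pow, sq_abs, ← mul_pow] at this
    simp only
    nlinarith [sq_nonneg (Λ * (y.2 - p.2))]
  · have := pow_le_pow_left₀ zero_le_one h2 2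
    rw [one_pow, mul_pow, sq_abs, ← mul_pow] at this
    simp only
    nlinarith [sq_nonneg (Λ * (y.1 - p.1))]

variable {n : ℕ} {μ Λ : ℝ} {p : Fin n → P2} {d : Fin n → ℝ}

lemma contDiff_combB (μ Λ : ℝ) (p : Fin n → P2) (d : Fin n → ℝ) (m : ℕ) :
    ContDiff ℝ m (combB μ Λ p d) := by
  unfold combB
  refine contDiff_const.mul (ContDiff.sum fun i _ => contDiff_const.mul ((contDiff_bump m).comp ?_))
  exact (contDiff_const.mul (contDiff_fst.sub contDiff_const)).prodMk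
    (contDiff_const.mul (contDiff_snd.sub contDiff_const))

/-- Near any point at most one bump is active. -/
lemma combB_local (hΛ : 0 < Λ) (hsep : ∀ i k, i ≠ k → 4 / Λ ≤ ‖p i - p k‖) (x : P2) :
    combB μ Λ p d =ᶠ[𝓝 x] (fun _ => 0) ∨ ∃ i, combB μ Λ p d =ᶠ[𝓝 x]
      fun y => μ * (d i * bump (Λ * (y.1 - (p i).1), Λ * (y.2 - (p i).2))) := by
  classical
  have hr : 0 < 1 / Λ := by positivity
  have near : ∀ y ∈ Metric.ball x (1 / Λ), ∀ k, 2 / Λ ≤ ‖x - p k‖ →
      bump (Λ * (y.1 - (p k).1), Λ * (y.2 - (p k).2)) = 0 := by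
    intro y hy k hk
    refine bump_eq_zero (zoom_far hΛ ?_)
    rw [Metric.mem_ball, dist_eq_norm, norm_sub_rev] at hy
    have h1 := norm_sub_le_norm_sub_add_norm_sub x y (p k)
    have : 2 / Λ = 1 / Λ + 1 / Λ := by ring
    linarith
  by_cases h : ∃ i, ‖x - p i‖ < 2 / Λ
  · obtain ⟨i, hi⟩ := h
    refine Or.inr ⟨i, eventually_of_mem (Metric.ball_mem_nhds x hr) fun y hy => ?_⟩
    show μ * _ = _
    rw [Finset.sum_eq_single i]
    · intro k _ hki
      rw [near y hy k ?_, mul_zero]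
      by_contra hk
      have h1 := norm_sub_le_norm_sub_add_norm_sub (p k) x (p i)
      rw [norm_sub_rev (p k) x] at h1
      have h2 := hsep k i hki
      have : 4 / Λ = 2 / Λ + 2 / Λ := by ring
      linarith [not_le.1 hk]
    · simp
  · refine Or.inl (eventually_of_mem (Metric.ball_mem_nhds x hr) fun y hy => ?_)
    show μ * _ = _
    rw [Finset.sum_eq_zero, mul_zero]
    intro k _
    rw [near y hy k (not_lt.1 fun h' => h ⟨k, h'⟩), mul_zero]

/-- Separated bumps have the bounds of one bump. -/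
lemma combB_bound (m : ℕ) : ∃ B : ℝ, 0 ≤ B ∧ ∀ (n : ℕ) (μ Λ : ℝ) (p : Fin n → P2) (d : Fin n → ℝ),
    0 ≤ μ → 0 < Λ → (∀ i k, i ≠ k → 4 / Λ ≤ ‖p i - p k‖) → (∀ i, |d i| ≤ 1) →
    ∀ x, ∀ k ≤ m, ‖iteratedFDeriv ℝ k (combB μ Λ p d) x‖ ≤ B * μ * Λ ^ k := by
  obtain ⟨B, hB0, hB⟩ := exists_bump_bound m
  refine ⟨2 ^ m * B, by positivity, fun n μ Λ p d hμ hΛ hsep hd x k hk => ?_⟩
  rcases combB_local (μ := μ) (d := d) hΛ hsep x with h | ⟨i, h⟩
  · rw [(h.iteratedFDeriv ℝ k).eq_of_nhds]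
    rcases Nat.eq_zero_or_pos k with rfl | hk'
    · simp; positivity
    · rw [iteratedFDeriv_const_of_ne hk'.ne']; simp; positivity
  · rw [(h.iteratedFDeriv ℝ k).eq_of_nhds]
    simp only [zoom_eq_sim, ← mul_assoc]
    have e : (fun y => μ * d i * bump (sim (-(Λ • p i)) Λ 1 0 y)) =
        (μ * d i) • fun y => bump (sim (-(Λ • p i)) Λ 1 0 y) := by funext y; simp
    have hb : ContDiffAt ℝ (k : ℕ∞ω) (fun y => bump (sim (-(Λ • p i)) Λ 1 0 y)) x :=
      ((contDiff_bump k).comp (contDiff_sim _ _ _ _)).contDiffAt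
    rw [e, iteratedFDeriv_const_smul_apply (a := μ * d i) hb]
    rw [norm_smul, Real.norm_eq_abs, abs_mul, abs_of_nonneg hμ]
    have h1 := norm_iteratedFDeriv_sim_le (F := bump) (z₀ := -(Λ • p i)) (w := Λ) (α := 1) (β := 0)
      (x := x) isOpen_univ (contDiff_bump k).contDiffOn le_rfl (by norm_num) hΛ.le (Set.mem_univ _)
    calc μ * |d i| * ‖iteratedFDeriv ℝ k (fun y => bump (sim (-(Λ • p i)) Λ 1 0 y)) x‖
        ≤ μ * 1 * ((2 * Λ) ^ k * B) := by
          gcongr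
          · exact hd i
          · exact h1.trans (mul_le_mul_of_nonneg_left (hB _ k hk) (by positivity))
      _ = 2 ^ k * B * μ * Λ ^ k := by rw [mul_pow]; ring
      _ ≤ 2 ^ m * B * μ * Λ ^ k := by gcongr; norm_num

/-- Away from the active bumps the row vanishes identically. -/
lemma combB_eventually_zero {x : P2}
    (h : ∀ i, d i = 0 ∨ 1 < rsq (Λ * (x.1 - (p i).1), Λ * (x.2 - (p i).2))) :
    combB μ Λ p d =ᶠ[𝓝 x] fun _ => 0 := by
  have : ∀ᶠ y in 𝓝 x, ∀ i, d i = 0 ∨ 1 < rsq (Λ * (y.1 - (p i).1), Λ * (y.2 - (p i).2)) := by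
    rw [eventually_all]
    intro i
    rcases h i with hi | hi
    · exact Eventually.of_forall fun _ => Or.inl hi
    · have hc : Continuous fun y : P2 => rsq (Λ * (y.1 - (p i).1), Λ * (y.2 - (p i).2)) :=
        continuous_rsq.comp (by fun_prop)
      have hev : ∀ᶠ y in 𝓝 x, 1 < rsq (Λ * (y.1 - (p i).1), Λ * (y.2 - (p i).2)) :=
        (isOpen_lt continuous_const hc).mem_nhds hi
      exact hev.mono fun y hy => Or.inr hy
  filter_upwards [this] with y hy
  show μ * _ = _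
  rw [Finset.sum_eq_zero, mul_zero]
  intro i _
  rcases hy i with hi | hi
  · rw [hi, zero_mul]
  · rw [bump_eq_zero hi.le, mul_zero]

lemma combB_rot {α β : ℝ} (h : α ^ 2 + β ^ 2 = 1) (q : Fin n → P2) (x : P2) :
    combB μ Λ (fun i => rotL α β (q i)) d (rotL α β x) = combB μ Λ q d x := by
  simp only [combB]
  congr 1
  refine Finset.sum_congr rfl fun i _ => ?_
  congr 1
  have e : ((Λ * ((rotL α β x).1 - (rotL α β (q i)).1),
      Λ * ((rotL α β x).2 - (rotL α β (q i)).2)) : P2) =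
      rotL α β (Λ * (x.1 - (q i).1), Λ * (x.2 - (q i).2)) := by
    simp only [rotL_apply, Prod.mk.injEq]
    constructor <;> ring
  simp only [bump, e, rsq_rotL h]

lemma combB_sub (d' : Fin n → ℝ) (x : P2) :
    combB μ Λ p d' x - combB μ Λ p d x = combB μ Λ p (fun i => d' i - d i) x := by
  simp only [combB, ← mul_sub, ← Finset.sum_sub_distrib, sub_mul]

end Vale.Agent.P229.Island
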