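import Vale.Agent.P229.Island.CoefId

/-!
# P229 seat E: a pair of height functions gives admissible coefficients
-/

namespace Vale.Agent.P229.Island

open Filter
open scoped ContDiff Topology

variable {C₀ : ℝ}

lemma sc_cutI (n : ℕ) : Sc n (fun _ : Fam C₀ => (1 : ℝ)) fun _ => cutI :=
  let ⟨_, _, hB⟩ := exists_radCut_bound (a := 31/20) (b := 17/10) (by norm_num) n
  Sc.fixed (contDiff_radCut _ _ n) hB

lemma Sc.one_mul' {ι : Type} {n : ℕ} {s : ι → ℝ} {f g : ι → P2 → ℝ}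
    (h : Sc n (fun _ : ι => (1 : ℝ)) f) (h' : Sc n s g) : Sc n s fun i x => f i x * g i x :=
  (h.mul h').mono_scale (D := 1) h'.2.1 fun i => by simp

lemma Sc.mul_one' {ι : Type} {n : ℕ} {s : ι → ℝ} {f g : ι → P2 → ℝ}
    (h : Sc n s f) (h' : Sc n (fun _ : ι => (1 : ℝ)) g) : Sc n s fun i x => f i x * g i x :=
  (h'.one_mul' h).congr fun _ _ => mul_comm _ _

lemma sc_bb : Sc 5 (fun p : Fam C₀ => p.1.w) (fun p => p.1.bb) :=
  ((sc_cutI 5).one_mul' ((sc_T (C₀ := C₀)).2.1.mul_one' sc_I.1)).congr fun _ _ => rfl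

lemma sc_FO : Sc 4 (fun p : Fam C₀ => p.1.η) (fun p => p.1.FO1) ∧
    Sc 4 (fun p : Fam C₀ => p.1.η) (fun p => p.1.FO2) := by
  have hm := (sc_phi (C₀ := C₀)).2.2.1
  have hz := (sc_Zm (C₀ := C₀)).2.1
  have hI := (sc_I (C₀ := C₀)).1.mono_order (m := 4) (by norm_num)
  have hT := sc_one_of_w ((sc_T (C₀ := C₀)).2.2.mono_order (m := 4) (by norm_num))
  have hb := sc_one_of_w ((sc_bb (C₀ := C₀)).mono_order (m := 4) (by norm_num))
  have p1 : Sc 4 _ (fun p : Fam C₀ => d1 p.1.φm) := hm.d1'.mono_order (by norm_num)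
  have p2 : Sc 4 _ (fun p : Fam C₀ => d2 p.1.φm) := hm.d2'.mono_order (by norm_num)
  have pl : Sc 4 _ (fun p : Fam C₀ => lap p.1.φm) := hm.laplace.mono_order (by norm_num)
  have z1 : Sc 4 _ (fun p : Fam C₀ => d1 p.1.Zm) := hz.d1'.mono_order (by norm_num)
  have z2 : Sc 4 _ (fun p : Fam C₀ => d2 p.1.Zm) := hz.d2'.mono_order (by norm_num)
  have k : Sc 4 (fun _ : Fam C₀ => (1 : ℝ)) fun p x => 1 - p.1.T22 x * p.1.I x :=
    ((Sc.const fun _ : Fam C₀ => (1 : ℝ)).mono_scale (D := 1) (fun _ => zero_le_one)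
      fun _ => by simp).sub (hT.one_mul' hI)
  have b2 := hb.const_mul_le (fun _ => 2) (D := 2) (t := fun _ : Fam C₀ => (1 : ℝ))
    (fun _ => zero_le_one) fun _ => by simp
  have l2 := pl.const_mul_le (fun _ => 2) (D := 2) (t := fun p : Fam C₀ => p.1.η)
    (fun p => p.2.η_pos.le) fun p => by simp
  exact ⟨(((p1.mul_one' k).add (b2.one_mul' p2)).sub ((l2.mul_one' z1).mul_one' hI)).congr
      fun p x => by simp only [Pair.FO1, Pair.bb],
    (((p2.neg.mul_one' k).add (b2.one_mul' p1)).sub ((l2.mul_one' z2).mul_one' hI)).congr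
      fun p x => by simp only [Pair.FO2, Pair.bb]⟩

lemma sc_coef : Sc 5 (fun _ : Fam C₀ => (1 : ℝ)) (fun p => p.1.coef.a) ∧
    Sc 4 (fun _ : Fam C₀ => (1 : ℝ)) (fun p => p.1.coef.β) ∧
    Sc 4 (fun p : Fam C₀ => p.1.η) (fun p => p.1.coef.c) := by
  have hI := (sc_I (C₀ := C₀)).1
  have h2 := sc_one_of_w (sc_T (C₀ := C₀)).2.1
  have h3 := sc_one_of_w (sc_T (C₀ := C₀)).2.2
  have hb := sc_one_of_w (sc_bb (C₀ := C₀))
  have hF : Sc 4 (fun _ : Fam C₀ => (1 : ℝ)) (fun p => p.1.FO1) :=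
    (sc_FO (C₀ := C₀)).1.mono_scale (D := 1) (fun _ => zero_le_one)
      fun p => by simpa using p.2.η_le_one
  refine ⟨?_, ?_, ?_⟩
  · exact ((sc_cutI 5).one_mul' (((h2.one_mul' hI).one_mul' (h2.one_mul' hI)).sub
      (h3.one_mul' hI))).congr fun p x => rfl
  · exact ((sc_cutI 4).one_mul' ((hb.d2'.sub ((hb.mono_order (m := 4) (by norm_num)).one_mul'
      hb.d1')).add hF)).congr fun p x => rfl
  · exact ((sc_cutI 4).one_mul' (sc_FO (C₀ := C₀)).2).congr fun p x => rfl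

lemma abs_exp_sub_le {a b M : ℝ} (ha : a ≤ M) (hb : b ≤ M) :
    |Real.exp a - Real.exp b| ≤ Real.exp M * |a - b| := by
  have key : ∀ a b : ℝ, a ≤ M → Real.exp a - Real.exp b ≤ Real.exp M * |a - b| := fun a b ha => by
    have h := mul_le_mul_of_nonneg_left (Real.add_one_le_exp (b - a)) (Real.exp_pos a).le
    rw [← Real.exp_add, add_sub_cancel] at h
    calc Real.exp a - Real.exp b ≤ Real.exp a * (a - b) := by linarith
      _ ≤ Real.exp a * |a - b| := mul_le_mul_of_nonneg_left (le_abs_self _) (Real.exp_pos a).le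
      _ ≤ Real.exp M * |a - b| :=
          mul_le_mul_of_nonneg_right (Real.exp_le_exp.2 ha) (abs_nonneg _)
  refine abs_sub_le_iff.2 ⟨key a b ha, ?_⟩
  rw [abs_sub_comm a b]
  exact key b a hb

lemma abs_mul_le' {a b A B : ℝ} (ha : |a| ≤ A) (hb : |b| ≤ B) : |a * b| ≤ A * B := by
  rw [abs_mul]
  exact mul_le_mul ha hb (abs_nonneg _) ((abs_nonneg _).trans ha)

/-- The forcing term is small where the difference of the perturbations is. -/
lemma exists_g_bound (C₀ : ℝ) : ∃ C : ℝ, ∀ (p : Fam C₀) (x : P2),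
    |p.1.g x| ≤ C * p.1.κ * (|p.1.δ x| + |d1 p.1.δ x| + |d2 p.1.δ x|) := by
  obtain ⟨A, hA, hIb⟩ := (sc_I (C₀ := C₀)).1.exists_abs
  obtain ⟨L, hL, hLb⟩ := (sc_phi (C₀ := C₀)).2.2.1.laplace.exists_abs
  obtain ⟨F, hF, hFb⟩ := (sc_phi (C₀ := C₀)).1.exists_abs
  obtain ⟨F', hF', hFb'⟩ := (sc_phi (C₀ := C₀)).2.1.exists_abs
  obtain ⟨t1, ht1, hT1⟩ := (sc_T (C₀ := C₀)).1.exists_abs
  obtain ⟨t2, ht2, hT2⟩ := (sc_T (C₀ := C₀)).2.1.exists_abs
  obtain ⟨t3, ht3, hT3⟩ := (sc_T (C₀ := C₀)).2.2.exists_abs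
  obtain ⟨z1, hz1, hZ1⟩ := (sc_Zm (C₀ := C₀)).2.1.exists_abs_one
  refine ⟨A * (L * (Real.exp (2 * (F + F')) * 2) + C₀ * ((t3 + 1 + t1 + 2 * t2) * z1)),
    fun p x => ?_⟩
  have hκ := p.2.κ_pos
  have hη1 := p.2.η_le_one
  have hw1 := p.2.w_le
  have e1 : |p.1.I x| ≤ A := by simpa using hIb p x
  have e2 : |lap p.1.φm x| ≤ L := (hLb p x).trans (mul_le_of_le_one_right hL hη1)
  have e3 : |Real.exp (2 * p.1.φ x) - Real.exp (2 * p.1.φ' x)| ≤
      Real.exp (2 * (F + F')) * (2 * |p.1.δ x|) := by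
    have a := (le_abs_self _).trans ((hFb p x).trans (mul_le_of_le_one_right hF hη1))
    have b := (le_abs_self _).trans ((hFb' p x).trans (mul_le_of_le_one_right hF' hη1))
    refine (abs_exp_sub_le (M := 2 * (F + F')) (by linarith) (by linarith)).trans_eq ?_
    rw [← mul_sub, abs_mul, abs_two,
      show p.1.φ x - p.1.φ' x = p.1.δ x by simp only [Pair.φ, Pair.φ', Pair.δ]; ring]
  have e4 : |p.1.T22 x - 1 - p.1.T11 x| ≤ t3 + 1 + t1 := by
    have a := (hT3 p x).trans (mul_le_of_le_one_right ht3 hw1)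
    have b := (hT1 p x).trans (mul_le_of_le_one_right ht1 hw1)
    rw [abs_le] at a b ⊢
    constructor <;> linarith
  have e5 : |p.1.T12 x| ≤ t2 := (hT2 p x).trans (mul_le_of_le_one_right ht2 hw1)
  have za : |d1 p.1.Zm x| ≤ z1 := by simpa using (hZ1 p x).2.1
  have zb : |d2 p.1.Zm x| ≤ z1 := by simpa using (hZ1 p x).2.2
  have e6 : |gam11 p.1.δ p.1.Zm x| ≤ (|d1 p.1.δ x| + |d2 p.1.δ x|) * z1 := by
    refine (abs_add_le _ _).trans ?_
    rw [add_mul, neg_mul, abs_neg]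
    exact add_le_add (abs_mul_le' le_rfl za) (abs_mul_le' le_rfl zb)
  have e7 : |gam12 p.1.δ p.1.Zm x| ≤ (|d1 p.1.δ x| + |d2 p.1.δ x|) * z1 := by
    refine (abs_sub _ _).trans ?_
    rw [add_mul, neg_mul, abs_neg, add_comm]
    exact add_le_add (abs_mul_le' le_rfl zb) (abs_mul_le' le_rfl za)
  set N := |d1 p.1.δ x| + |d2 p.1.δ x| with hN
  have hN0 : 0 ≤ N := by positivity
  calc |p.1.g x| ≤ A * (p.1.κ * L * (Real.exp (2 * (F + F')) * (2 * |p.1.δ x|)) +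
        (t3 + 1 + t1) * (N * z1) + 2 * t2 * (N * z1)) := by
        rw [Pair.g, neg_mul, abs_neg]
        refine abs_mul_le' e1 ((abs_sub _ _).trans (add_le_add ((abs_add_le _ _).trans
          (add_le_add ?_ (abs_mul_le' e4 e6))) ?_))
        · refine abs_mul_le' ?_ e3
          rw [abs_mul, abs_of_pos hκ]
          exact mul_le_mul_of_nonneg_left e2 hκ.le
        · refine abs_mul_le' ?_ e7
          rw [abs_mul, abs_two]
          linarith
    _ = A * (L * (Real.exp (2 * (F + F')) * 2) * (p.1.κ * |p.1.δ x|) +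
        1 * ((t3 + 1 + t1 + 2 * t2) * z1 * N)) := by ring
    _ ≤ A * (L * (Real.exp (2 * (F + F')) * 2) * (p.1.κ * |p.1.δ x|) +
        C₀ * p.1.κ * ((t3 + 1 + t1 + 2 * t2) * z1 * N)) :=
        mul_le_mul_of_nonneg_left (add_le_add le_rfl
          (mul_le_mul_of_nonneg_right p.2.one_le_κ (by positivity))) hA
    _ ≤ _ := by
        rw [show |p.1.δ x| + |d1 p.1.δ x| + |d2 p.1.δ x| = |p.1.δ x| + N by rw [hN]; ring,
          ← sub_nonneg]
        have h0 : 0 ≤ A * L * (Real.exp (2 * (F + F')) * 2) * p.1.κ * N := by positivity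
        have h1 : 0 ≤ A * (C₀ * ((t3 + 1 + t1 + 2 * t2) * z1)) * p.1.κ * |p.1.δ x| := by
          have := p.2.one_le
          positivity
        nlinarith [h0, h1]

/-- On the inner disc the reciprocal is exact. -/
lemma exists_I_exact (C₀ : ℝ) : ∃ w₁ : ℝ, 0 < w₁ ∧ ∀ p : Fam C₀, p.1.w ≤ w₁ → ∀ x,
    p.1.I x * (1 + p.1.T11 x) = 1 := by
  obtain ⟨C, hC, h⟩ := (sc_T (C₀ := C₀)).1.exists_abs
  refine ⟨1 / (2 * (C + 1)), by positivity, fun p hp x => ?_⟩
  have hT : |p.1.T11 x| ≤ 1/2 := by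
    refine (h p x).trans ((mul_le_mul_of_nonneg_left hp hC).trans ?_)
    rw [← mul_div_assoc, mul_one, div_le_div_iff₀ (by positivity) two_pos]
    linarith
  rw [Pair.I, invOne_eq (by simpa using hT)]
  rw [abs_le] at hT
  exact inv_mul_cancel₀ (by linarith)

lemma mem_inner {x : P2} (hx : x ∈ Dsk (3/2)) :
    rsq x < 31/20 ∧ |1 - rsq x| ≤ 1 ∧ |x.1| ≤ 2 ∧ |x.2| ≤ 2 := by
  have h : x.1 ^ 2 + x.2 ^ 2 ≤ 3/2 := hx
  have a := sq_nonneg x.1
  have b := sq_nonneg x.2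
  refine ⟨?_, ?_, ?_, ?_⟩
  · show x.1 ^ 2 + x.2 ^ 2 < 31/20
    linarith
  · simp only [rsq]
    rw [abs_le]; constructor <;> linarith
  · rw [abs_le]; constructor <;> nlinarith
  · rw [abs_le]; constructor <;> nlinarith

/-- The pointwise estimates on the disc. -/
lemma exists_disc_bound (C₀ : ℝ) : ∃ C w₁ : ℝ, 0 < w₁ ∧ ∀ p : Fam C₀, p.1.w ≤ w₁ →
    ∀ x ∈ Dsk (3/2),
    (|p.1.coef.a x - p.1.κ * p.1.η * (1 - rsq x)| ≤ C * p.1.w * (p.1.κ * p.1.η) ∧
    |d1 p.1.coef.a x + 2 * (p.1.κ * p.1.η) * x.1| ≤ C * p.1.w * (p.1.κ * p.1.η) ∧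
    |d2 p.1.coef.a x + 2 * (p.1.κ * p.1.η) * x.2| ≤ C * p.1.w * (p.1.κ * p.1.η) ∧
    |p.1.coef.β x + d1 p.1.coef.a x| ≤ C * p.1.w * (p.1.κ * p.1.η) ∧
    |p.1.coef.c x| ≤ C * p.1.w * (p.1.κ * p.1.η)) ∧
    ∀ σ, 0 ≤ σ → σ ≤ 1/10 → p.1.s ≤ σ * p.1.η * p.1.w → rsq x ≤ 1 + σ →
      -(3 * σ * (p.1.κ * p.1.η)) ≤ p.1.coef.a x := by
  obtain ⟨w₁, hw₁, hI⟩ := exists_I_exact C₀
  obtain ⟨A, hA, hR⟩ := (sc_R0 (C₀ := C₀)).exists_abs_one
  obtain ⟨E, hE, hEb⟩ := (sc_E (C₀ := C₀)).exists_abs_one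
  obtain ⟨Cb, hCb, hbb⟩ := (sc_bb (C₀ := C₀)).exists_abs
  obtain ⟨Ci, hCi, hib⟩ := (sc_I (C₀ := C₀)).1.exists_abs
  obtain ⟨C1, hC1, hR1⟩ := (sc_R (C₀ := C₀)).1.exists_abs_one
  obtain ⟨C2, hC2, hR2⟩ := (sc_R (C₀ := C₀)).2.exists_abs_one
  obtain ⟨Ct, hCt, hTb⟩ := (sc_T (C₀ := C₀)).1.exists_abs_one
  obtain ⟨Cf, hCf, hFb⟩ := (sc_FO (C₀ := C₀)).1.exists_abs
  obtain ⟨Cc, hCc, hcb⟩ := (sc_coef (C₀ := C₀)).2.2.exists_abs
  refine ⟨5 * A + E + ((C2 + C1) * Ci + Cb * Ci * (C2 + C1) + Cf + Cc) * C₀ +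
    (1 + A + E) * Ci * Ct, min w₁ (1 / (A + E + 1)), by positivity, fun p hp x hx => ?_⟩
  have hx' := mem_inner hx
  have hκ := p.2.κ_pos
  have hw := p.2.w_pos
  set e := p.1.κ * p.1.η with he
  have he0 : 0 < e := mul_pos hκ p.2.η_pos
  have hew : 0 ≤ e * p.1.w := mul_nonneg he0.le hw.le
  have hIe := hI p (hp.trans (min_le_left _ _))
  have hsm := hp.trans (min_le_right _ _)
  rw [le_div_iff₀ (by positivity)] at hsm
  have hs : p.1.κ * p.1.s ≤ e * p.1.w := by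
    rw [he, mul_assoc]
    exact mul_le_mul_of_nonneg_left p.2.s_le hκ.le
  have hη : p.1.η ≤ C₀ * (e * p.1.w) := p.2.η_le_ew
  have sR : ContDiff ℝ 5 fun y => p.1.R0 y - 1 := sc_R0.smooth p
  have sE : ContDiff ℝ 1 p.1.E := sc_E.smooth p
  have dR : DifferentiableAt ℝ (fun y => p.1.R0 y - 1) x := sR.differentiable (by norm_num) x
  have dR0 : DifferentiableAt ℝ p.1.R0 x := by simpa using dR.add_const 1
  have dE : DifferentiableAt ℝ p.1.E x := sE.differentiable one_ne_zero x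
  have hsmall : |p.1.R0 x - 1| ≤ A * p.1.w := (hR p x).1
  have eR1 : |d1 p.1.R0 x| ≤ A * p.1.w := by
    have := (hR p x).2.1
    rwa [d1_sub dR0 (differentiableAt_const _), d1_const, sub_zero] at this
  have eR2 : |d2 p.1.R0 x| ≤ A * p.1.w := by
    have := (hR p x).2.2
    rwa [d2_sub dR0 (differentiableAt_const _), d2_const, sub_zero] at this
  have hEw : ∀ {u : ℝ}, |u| ≤ E * (p.1.κ * p.1.s) → |u| ≤ E * (e * p.1.w) := fun h =>
    h.trans (mul_le_mul_of_nonneg_left hs hE)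
  have ea : p.1.coef.a =ᶠ[𝓝 x] fun y => e * (1 - rsq y) * p.1.R0 y + p.1.E y := by
    filter_upwards [(isOpen_lt continuous_rsq continuous_const).mem_nhds hx'.1] with y hy
    exact Pair.a_eq p.2 hy (hIe y)
  have dr : DifferentiableAt ℝ rsq x := (contDiff_rsq (n := 1)).differentiable (by norm_num) x
  have dr1 : DifferentiableAt ℝ (fun y => 1 - rsq y) x := dr.const_sub 1
  have dr2 : DifferentiableAt ℝ (fun y => e * (1 - rsq y)) x := dr1.const_mul e
  have ax : p.1.coef.a x = e * (1 - rsq x) * p.1.R0 x + p.1.E x := ea.self_of_nhds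
  have ax1 : d1 p.1.coef.a x =
      e * (-(2 * x.1)) * p.1.R0 x + e * (1 - rsq x) * d1 p.1.R0 x + d1 p.1.E x := by
    rw [(dd_congr ea).1, d1_add (dr2.fun_mul dR0) dE, d1_mul dr2 dR0, d1_const_mul e dr1,
      d1_sub (differentiableAt_const _) dr, d1_const, (d_rsq x).1, zero_sub]
  have ax2 : d2 p.1.coef.a x =
      e * (-(2 * x.2)) * p.1.R0 x + e * (1 - rsq x) * d2 p.1.R0 x + d2 p.1.E x := by
    rw [(dd_congr ea).2.1, d2_add (dr2.fun_mul dR0) dE, d2_mul dr2 dR0, d2_const_mul e dr1,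
      d2_sub (differentiableAt_const _) dr, d2_const, (d_rsq x).2, zero_sub]
  have k1 : |e * (1 - rsq x)| ≤ e := by
    rw [abs_mul, abs_of_pos he0]
    exact mul_le_of_le_one_right he0.le hx'.2.1
  have k2 : ∀ {u : ℝ}, |u| ≤ 2 → |e * (-(2 * u))| ≤ e * 4 := fun {u} hu => by
    rw [abs_mul, abs_of_pos he0, abs_neg, abs_mul, abs_two]
    exact mul_le_mul_of_nonneg_left (by linarith) he0.le
  have fa : |p.1.coef.a x - e * (1 - rsq x)| ≤ (A + E) * (e * p.1.w) := by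
    rw [ax, show e * (1 - rsq x) * p.1.R0 x + p.1.E x - e * (1 - rsq x) =
      e * (1 - rsq x) * (p.1.R0 x - 1) + p.1.E x by ring]
    refine (abs_add_le _ _).trans ((add_le_add (abs_mul_le' k1 hsmall) (hEw (hEb p x).1)).trans_eq ?_)
    ring
  have fd : ∀ {u v w' : ℝ}, |u| ≤ 2 → |v| ≤ A * p.1.w → |w'| ≤ E * (e * p.1.w) →
      |e * (-(2 * u)) * p.1.R0 x + e * (1 - rsq x) * v + w' + 2 * e * u| ≤
        (5 * A + E) * (e * p.1.w) := fun {u v w'} hu hv hw' => by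
    rw [show e * (-(2 * u)) * p.1.R0 x + e * (1 - rsq x) * v + w' + 2 * e * u =
      e * (-(2 * u)) * (p.1.R0 x - 1) + e * (1 - rsq x) * v + w' by ring]
    refine ((abs_add_le _ _).trans (add_le_add ((abs_add_le _ _).trans (add_le_add
      (abs_mul_le' (k2 hu) hsmall) (abs_mul_le' k1 hv))) hw')).trans_eq ?_
    ring
  have fabs : |p.1.coef.a x| ≤ (1 + A + E) * e := by
    have hm : (A + E) * (e * p.1.w) ≤ (A + E) * e := by
      refine mul_le_mul_of_nonneg_left (mul_le_of_le_one_right he0.le p.2.w_le) ?_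
      positivity
    rw [abs_le] at fa k1 ⊢
    constructor <;> linarith
  have fβ : |p.1.coef.β x + d1 p.1.coef.a x| ≤
      (C2 + C1) * Ci * p.1.η + Cb * Ci * (C2 + C1) * p.1.η +
        (1 + A + E) * Ci * Ct * (e * p.1.w) + Cf * p.1.η := by
    rw [Pair.β_eq p.2 hx'.1 fun y hy => hIe y]
    have iI : |p.1.I x| ≤ Ci := by simpa using hib p x
    have ib : |p.1.coef.b x| ≤ Cb := (hbb p x).trans (mul_le_of_le_one_right hCb p.2.w_le)
    refine (abs_add_le _ _).trans (add_le_add ((abs_sub _ _).trans (add_le_add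
      ((abs_add_le _ _).trans (add_le_add ?_ ?_)) ?_)) (hFb p x))
    · refine (abs_mul_le' ((abs_add_le _ _).trans (add_le_add (hR2 p x).2.2 (hR1 p x).2.1))
        iI).trans_eq ?_
      ring
    · refine (abs_mul_le' (abs_mul_le' ib iI) ((abs_sub _ _).trans
        (add_le_add (hR2 p x).2.1 (hR1 p x).2.2))).trans_eq ?_
      ring
    · refine (abs_mul_le' (abs_mul_le' fabs iI) (hTb p x).2.1).trans_eq ?_
      ring
  have hC0 : 0 ≤ C₀ := by linarith [p.2.one_le]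
  set C := 5 * A + E + ((C2 + C1) * Ci + Cb * Ci * (C2 + C1) + Cf + Cc) * C₀ +
    (1 + A + E) * Ci * Ct with hC
  have up : ∀ {u v : ℝ}, |u| ≤ v * (e * p.1.w) → v ≤ C → |u| ≤ C * p.1.w * e := fun h1 h2 =>
    h1.trans ((mul_le_mul_of_nonneg_right h2 hew).trans_eq (by ring))
  have q1 : 0 ≤ ((C2 + C1) * Ci + Cb * Ci * (C2 + C1) + Cf + Cc) * C₀ := by positivity
  have q2 : 0 ≤ (1 + A + E) * Ci * Ct := by positivity
  refine ⟨⟨up fa (by linarith), ?_, ?_, ?_, ?_⟩, fun σ hσ0 hσ hsσ hxσ => ?_⟩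
  · rw [ax1]
    exact up (fd hx'.2.2.1 eR1 (hEw (hEb p x).2.1)) (by linarith)
  · rw [ax2]
    exact up (fd hx'.2.2.2 eR2 (hEw (hEb p x).2.2)) (by linarith)
  · refine up (fβ.trans (le_of_le_of_eq
      (b := ((C2 + C1) * Ci + Cb * Ci * (C2 + C1) + Cf) * (C₀ * (e * p.1.w)) +
        (1 + A + E) * Ci * Ct * (e * p.1.w)) ?_
      (by ring : _ = (((C2 + C1) * Ci + Cb * Ci * (C2 + C1) + Cf) * C₀ +
        (1 + A + E) * Ci * Ct) * (e * p.1.w)))) ?_
    · have := mul_le_mul_of_nonneg_left hη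
        (show 0 ≤ (C2 + C1) * Ci + Cb * Ci * (C2 + C1) + Cf by positivity)
      linarith
    · have : 0 ≤ Cc * C₀ := by positivity
      linarith
  · refine up ((hcb p x).trans ((mul_le_mul_of_nonneg_left hη hCc).trans_eq
      (mul_assoc _ _ _).symm)) ?_
    have : 0 ≤ ((C2 + C1) * Ci + Cb * Ci * (C2 + C1) + Cf) * C₀ := by positivity
    linarith
  · rw [ax]
    have hks : p.1.κ * p.1.s ≤ σ * e * p.1.w := by
      rw [he, show σ * (p.1.κ * p.1.η) * p.1.w = p.1.κ * (σ * p.1.η * p.1.w) by ring]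
      exact mul_le_mul_of_nonneg_left hsσ hκ.le
    have hAw : A * p.1.w ≤ 1 :=
      le_trans (by linarith [mul_nonneg hE hw.le]) hsm
    have hEw' : E * p.1.w ≤ 1 :=
      le_trans (by linarith [mul_nonneg hA hw.le]) hsm
    have hR0 : 0 ≤ p.1.R0 x ∧ p.1.R0 x ≤ 2 := by
      have := abs_le.1 hsmall
      constructor <;> linarith
    have h1 : -(2 * σ * e) ≤ e * (1 - rsq x) * p.1.R0 x := by
      have h2 : -σ * p.1.R0 x ≤ (1 - rsq x) * p.1.R0 x :=
        mul_le_mul_of_nonneg_right (by linarith) hR0.1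
      have h3 : σ * p.1.R0 x ≤ σ * 2 := mul_le_mul_of_nonneg_left hR0.2 hσ0
      have h4 := mul_le_mul_of_nonneg_left (show -(2 * σ) ≤ (1 - rsq x) * p.1.R0 x by linarith) he0.le
      linarith
    have h5 : |p.1.E x| ≤ σ * e :=
      calc |p.1.E x| ≤ E * (σ * e * p.1.w) :=
            ((hEb p x).1).trans (mul_le_mul_of_nonneg_left hks hE)
        _ = (E * p.1.w) * (σ * e) := by ring
        _ ≤ 1 * (σ * e) := mul_le_mul_of_nonneg_right hEw' (mul_nonneg hσ0 he0.le)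
        _ = σ * e := one_mul _
    have := abs_le.1 h5
    linarith

/-- A pair gives good coefficients and satisfies the linear equation with them. -/
theorem exists_coef (C₀ : ℝ) : ∃ C w₁ : ℝ, 1 ≤ C ∧ 0 < w₁ ∧
    ∀ p : Pair, p.Ok C₀ → p.w ≤ w₁ → ∀ σ, 0 ≤ σ → σ ≤ 1/10 → p.s ≤ σ * p.η * p.w →
      ∃ (P : Coef) (q g W : P2 → ℝ), P.Good (p.κ * p.η) (C * p.w) C σ ∧ ContDiff ℝ 1 q ∧
        (∀ x ∈ Dsk (3/2), p.κ / 4 ≤ q x ∧ q x ≤ 4 * p.κ ∧ |d1 q x| ≤ C * p.κ ∧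
          |d2 q x| ≤ C * p.κ) ∧
        Continuous g ∧
        (∀ x, |g x| ≤ C * p.κ * (|p.B' x - p.B x| + |d1 (fun y => p.B' y - p.B y) x| +
          |d2 (fun y => p.B' y - p.B y) x|)) ∧
        (∀ x, (fun y => p.B' y - p.B y) =ᶠ[𝓝 x] (fun _ => 0) → g x = 0) ∧
        ContDiff ℝ 3 W ∧ (∀ x, rsq x < 9/5 → W x = p.Z x - p.Z' x) ∧
        ∀ x ∈ Dsk (3/2), P.op W x = q x * lap (fun y => p.B' y - p.B y) x + g x := by
  obtain ⟨wI, hwI, hI⟩ := exists_I_exact C₀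
  obtain ⟨Cd, wd, hwd, hd⟩ := exists_disc_bound C₀
  obtain ⟨Cg, hg⟩ := exists_g_bound C₀
  obtain ⟨Cb, hCb, hb⟩ := (sc_bb (C₀ := C₀)).exists_abs_one
  obtain ⟨Cb', hCb', hb'⟩ := (sc_bb (C₀ := C₀)).d1'.exists_abs_one
  obtain ⟨-, -, Kb, hKb, kb⟩ := sc_bb (C₀ := C₀)
  obtain ⟨-, -, Ka, hKa, ka⟩ := (sc_coef (C₀ := C₀)).1
  obtain ⟨-, -, Kβ, hKβ, kβ⟩ := (sc_coef (C₀ := C₀)).2.1
  obtain ⟨-, -, Kc, hKc, kc⟩ := (sc_coef (C₀ := C₀)).2.2
  have hYI : Sc 5 (fun p : Fam C₀ => p.1.w) fun p x => p.1.Y x * p.1.I x - 1 :=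
    (((sc_Y (C₀ := C₀)).2.2.mul_one' (sc_I (C₀ := C₀)).1).add sc_I.2).congr fun p x => by ring
  obtain ⟨Cq, hCq, hq⟩ := hYI.exists_abs_one
  refine ⟨1 + |Cd| + |Cg| + Cb + Cb' + Kb + Ka + Kβ + Kc + Cq,
    min (min wI wd) (1 / (2 * (Cq + 1))), by linarith [abs_nonneg Cd, abs_nonneg Cg],
    by positivity, fun p0 hp hpw σ hσ0 hσ hs => ?_⟩
  set p : Fam C₀ := ⟨p0, hp⟩ with hpd
  set C := 1 + |Cd| + |Cg| + Cb + Cb' + Kb + Ka + Kβ + Kc + Cq with hC
  have hcd := abs_nonneg Cd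
  have hcg := abs_nonneg Cg
  have hIe := hI p ((hpw.trans (min_le_left _ _)).trans (min_le_left _ _))
  have hd' := hd p ((hpw.trans (min_le_left _ _)).trans (min_le_right _ _))
  have hqw : Cq * p0.w ≤ 1/2 := by
    refine (mul_le_mul_of_nonneg_left (hpw.trans (min_le_right _ _)) hCq).trans ?_
    rw [← mul_div_assoc, mul_one, div_le_div_iff₀ (by positivity) two_pos]
    linarith
  have hw0 := hp.w_pos
  have hκ := hp.κ_pos
  have he : 0 ≤ p0.κ * p0.η := mul_nonneg hκ.le hp.η_pos.le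
  have up : ∀ {u : ℝ}, |u| ≤ Cd * p0.w * (p0.κ * p0.η) → |u| ≤ C * p0.w * (p0.κ * p0.η) :=
    fun h => h.trans (by gcongr; linarith [le_abs_self Cd])
  have upw : ∀ {u K : ℝ}, |u| ≤ K * p0.w → K ≤ C → |u| ≤ C * p0.w := fun h h' =>
    h.trans (mul_le_mul_of_nonneg_right h' hw0.le)
  have upK : ∀ {u K t : ℝ}, u ≤ K * t → 0 ≤ K → t ≤ 1 → K ≤ C → u ≤ C := fun h h0 h1 h2 =>
    h.trans ((mul_le_of_le_one_right h0 h1).trans h2)
  have eδ : (fun y => p0.B' y - p0.B y) = fun y => -p0.δ y := by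
    funext y; simp only [Pair.δ]; ring
  have sδ : ContDiff ℝ 7 p0.δ := sc_phi.2.2.2.smooth p
  refine ⟨p0.coef, p0.q, p0.g, p0.W, ?_, ?_, fun x hx => ?_, ?_, fun x => ?_, fun x hx => ?_,
    (sc_W.1.smooth p).of_le (by norm_num), fun x hx => ?_, fun x hx => ?_⟩
  · exact
    { hb := (sc_bb.smooth p).of_le (by norm_num)
      ha := (sc_coef.1.smooth p).of_le (by norm_num)
      hβ := (sc_coef.2.1.smooth p).of_le (by norm_num)
      hc := (sc_coef.2.2.smooth p).of_le (by norm_num)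
      b0 := fun x => upw (hb p x).1 (by linarith)
      b1 := fun x => upw (hb p x).2.1 (by linarith)
      b2 := fun x => upw (hb p x).2.2 (by linarith)
      b11 := fun x => upw (hb' p x).2.1 (by linarith)
      a0 := fun x hx => up (hd' x hx).1.1
      a1 := fun x hx => up (hd' x hx).1.2.1
      a2 := fun x hx => up (hd' x hx).1.2.2.1
      β0 := fun x hx => up (hd' x hx).1.2.2.2.1
      c0 := fun x hx => up (hd' x hx).1.2.2.2.2
      sea := fun x hx => by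
        have h : rsq x ≤ 1 + σ := hx
        exact (hd' x (show rsq x ≤ 3/2 by linarith)).2 σ hσ0 hσ hs h
      kb := fun x i hi => upK (kb p x i (by omega)) hKb hp.w_le (by linarith)
      ka := fun x i hi => upK (ka p x i (by omega)) hKa le_rfl (by linarith)
      kβ := fun x i hi => upK (kβ p x i (by omega)) hKβ le_rfl (by linarith)
      kc := fun x i hi => upK (kc p x i (by omega)) hKc hp.η_le_one (by linarith) }
  · exact contDiff_const.mul (((sc_one_add sc_Y.2.2).smooth p |>.of_le (by norm_num)).mul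
      ((sc_I.1.smooth p).of_le (by norm_num)))
  · have sYI : ContDiff ℝ 1 fun y => p0.Y y * p0.I y :=
      ((sc_one_add sc_Y.2.2).smooth p |>.of_le (by norm_num)).mul
        ((sc_I.1.smooth p).of_le (by norm_num))
    have dYI : DifferentiableAt ℝ (fun y => p0.Y y * p0.I y) x :=
      sYI.differentiable one_ne_zero x
    obtain ⟨v0, v1, v2⟩ := hq p x
    rw [d1_sub dYI (differentiableAt_const _), d1_const, sub_zero] at v1
    rw [d2_sub dYI (differentiableAt_const _), d2_const, sub_zero] at v2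
    have hv := abs_le.1 (v0.trans hqw)
    have hCw : Cq * p0.w ≤ C := (mul_le_of_le_one_right hCq hp.w_le).trans (by linarith)
    refine ⟨?_, ?_, ?_, ?_⟩
    · show p0.κ / 4 ≤ p0.κ * (p0.Y x * p0.I x)
      rw [div_eq_mul_inv]
      exact mul_le_mul_of_nonneg_left (by linarith) hκ.le
    · show p0.κ * (p0.Y x * p0.I x) ≤ 4 * p0.κ
      rw [mul_comm 4]
      exact mul_le_mul_of_nonneg_left (by linarith) hκ.le
    · show |d1 (fun y => p0.κ * (p0.Y y * p0.I y)) x| ≤ _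
      rw [d1_const_mul _ dYI, abs_mul, abs_of_pos hκ, mul_comm C]
      exact mul_le_mul_of_nonneg_left (v1.trans hCw) hκ.le
    · show |d2 (fun y => p0.κ * (p0.Y y * p0.I y)) x| ≤ _
      rw [d2_const_mul _ dYI, abs_mul, abs_of_pos hκ, mul_comm C]
      exact mul_le_mul_of_nonneg_left (v2.trans hCw) hκ.le
  · have k1 : Continuous p0.I := (sc_I.1.smooth p).continuous
    have k2 : Continuous p0.T11 := (sc_T.1.smooth p).continuous
    have k3 : Continuous p0.T12 := (sc_T.2.1.smooth p).continuous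
    have k4 : Continuous p0.T22 := (sc_T.2.2.smooth p).continuous
    have k5 : Continuous (lap p0.φm) := (sc_phi.2.2.1.laplace.smooth p).continuous
    have k6 : Continuous p0.φ := (sc_phi.1.smooth p).continuous
    have k7 : Continuous p0.φ' := (sc_phi.2.1.smooth p).continuous
    have k8 : Continuous (gam11 p0.δ p0.Zm) :=
      ((sc_phi.2.2.2.gam11 sc_Zm.2.1).smooth p).continuous
    have k9 : Continuous (gam12 p0.δ p0.Zm) :=
      ((sc_phi.2.2.2.gam12 sc_Zm.2.1).smooth p).continuous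
    unfold Pair.g
    fun_prop
  · rw [eδ, show d1 (fun y => -p0.δ y) x = -d1 p0.δ x from d1_neg,
      show d2 (fun y => -p0.δ y) x = -d2 p0.δ x from d2_neg, abs_neg, abs_neg,
      show p0.B' x - p0.B x = -p0.δ x from congrFun eδ x, abs_neg]
    refine (hg p x).trans ?_
    gcongr
    linarith [le_abs_self Cg]
  · obtain ⟨z1, z2, -⟩ := dd_congr hx
    have z0 : p0.B' x - p0.B x = 0 := hx.self_of_nhds
    rw [eδ, d1_neg, d1_const, neg_eq_zero] at z1
    rw [eδ, d2_neg, d2_const, neg_eq_zero] at z2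
    have hφ : p0.φ x = p0.φ' x := by simp only [Pair.φ, Pair.φ']; linarith
    simp only [Pair.g, gam11, gam12, z1, z2, hφ]
    ring
  · simp only [Pair.W, Pair.Ne, cutO_one hx.le]
    ring
  · exact Pair.equation hp (mem_inner hx).1 (hIe x)

end Vale.Agent.P229.Island
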