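import Vale.Agent.P229.Island.Pair

/-!
# P229 seat E: the linearised equation of a pair, pointwise identities
-/

namespace Vale.Agent.P229.Island

open Filter
open scoped ContDiff Topology

/-- All partials up to order two of functions agreeing near a point. -/
lemma dd_congr {f g : P2 → ℝ} {x : P2} (h : f =ᶠ[𝓝 x] g) :
    d1 f x = d1 g x ∧ d2 f x = d2 g x ∧ d1 (d1 f) x = d1 (d1 g) x ∧
      d1 (d2 f) x = d1 (d2 g) x ∧ d2 (d2 f) x = d2 (d2 g) x := by
  have e : ∀ᶠ y in 𝓝 x, d1 f y = d1 g y ∧ d2 f y = d2 g y := by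
    filter_upwards [h.fderiv (𝕜 := ℝ)] with y hy
    simp [d1, d2, hy]
  have e1 : d1 f =ᶠ[𝓝 x] d1 g := e.mono fun y hy => hy.1
  have e2 : d2 f =ᶠ[𝓝 x] d2 g := e.mono fun y hy => hy.2
  exact ⟨e.self_of_nhds.1, e.self_of_nhds.2, by simp only [d1] at e1 ⊢; rw [e1.fderiv_eq],
    by simp only [d1] at e2 ⊢; rw [e2.fderiv_eq],
    by simp only [d2] at e2 ⊢; rw [e2.fderiv_eq]⟩

/-- All partials up to order two of a linear combination. -/
lemma dd_lin {f g : P2 → ℝ} (hf : ContDiff ℝ 2 f) (hg : ContDiff ℝ 2 g) (c : ℝ) (x : P2) :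
    d1 (fun y => f y + c * g y) x = d1 f x + c * d1 g x ∧
    d2 (fun y => f y + c * g y) x = d2 f x + c * d2 g x ∧
    d1 (d1 fun y => f y + c * g y) x = d1 (d1 f) x + c * d1 (d1 g) x ∧
    d1 (d2 fun y => f y + c * g y) x = d1 (d2 f) x + c * d1 (d2 g) x ∧
    d2 (d2 fun y => f y + c * g y) x = d2 (d2 f) x + c * d2 (d2 g) x := by
  have df : Differentiable ℝ f := hf.differentiable (by norm_num)
  have dg : Differentiable ℝ g := hg.differentiable (by norm_num)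
  have a : d1 (fun y => f y + c * g y) = fun y => d1 f y + c * d1 g y := by
    funext y; rw [d1_add (df y) ((dg y).const_mul c), d1_const_mul c (dg y)]
  have b : d2 (fun y => f y + c * g y) = fun y => d2 f y + c * d2 g y := by
    funext y; rw [d2_add (df y) ((dg y).const_mul c), d2_const_mul c (dg y)]
  obtain ⟨f1, f2⟩ := differentiableAt_d1 (hf.contDiffAt (x := x))
  obtain ⟨g1, g2⟩ := differentiableAt_d1 (hg.contDiffAt (x := x))
  refine ⟨by rw [a], by rw [b], ?_, ?_, ?_⟩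
  · rw [a, d1_add f1 (g1.const_mul c), d1_const_mul c g1]
  · rw [b, d1_add f2 (g2.const_mul c), d1_const_mul c g2]
  · rw [b, d2_add f2 (g2.const_mul c), d2_const_mul c g2]

lemma dd_sq1 (x : P2) : d1 sq1 x = x.1 ∧ d2 sq1 x = 0 ∧ d1 (d1 sq1) x = 1 ∧
    d1 (d2 sq1) x = 0 ∧ d2 (d2 sq1) x = 0 := by
  have h : ∀ y : P2, d1 sq1 y = y.1 ∧ d2 sq1 y = 0 := fun y => by
    have a : DifferentiableAt ℝ (fun y : P2 => y.1) y := differentiableAt_fst
    have e : sq1 = fun y : P2 => (1/2 : ℝ) * (y.1 * y.1) := by funext z; simp only [sq1]; ring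
    rw [e, d1_const_mul _ (a.fun_mul a), d2_const_mul _ (a.fun_mul a), d1_mul a a, d2_mul a a,
      d1_fst, d2_fst]
    constructor <;> ring
  have a : d1 sq1 = fun y => y.1 := funext fun y => (h y).1
  have b : d2 sq1 = fun _ => 0 := funext fun y => (h y).2
  exact ⟨(h x).1, (h x).2, by rw [a]; exact d1_fst, by rw [b]; exact d1_const 0,
    by rw [b]; exact d2_const 0⟩

/-- The second order part of `Coef.op`. -/
lemma V_V {P : Coef} {w : P2 → ℝ} {x : P2} (hb : DifferentiableAt ℝ P.b x)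
    (hw : ContDiff ℝ 2 w) :
    P.V (P.V w) x = d2 (d2 w) x - 2 * P.b x * d1 (d2 w) x + P.b x ^ 2 * d1 (d1 w) x +
      (P.b x * d1 P.b x - d2 P.b x) * d1 w x := by
  obtain ⟨h1, h2⟩ := differentiableAt_d1 (hw.contDiffAt (x := x))
  have e : P.V w = fun y => d2 w y - P.b y * d1 w y := rfl
  rw [e]
  simp only [Coef.V]
  rw [d1_sub h2 (hb.fun_mul h1), d2_sub h2 (hb.fun_mul h1), d1_mul hb h1, d2_mul hb h1,
    ← d1_d2 hw]
  ring

namespace Pair

variable (p : Pair)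

/-- The coefficient of the first partial, apart from the terms from `b`. -/
noncomputable def FO1 (x : P2) : ℝ :=
  d1 p.φm x * (1 - p.T22 x * p.I x) + 2 * (cutI x * (p.T12 x * p.I x)) * d2 p.φm x -
    2 * lap p.φm x * d1 p.Zm x * p.I x

noncomputable def FO2 (x : P2) : ℝ :=
  -d2 p.φm x * (1 - p.T22 x * p.I x) + 2 * (cutI x * (p.T12 x * p.I x)) * d1 p.φm x -
    2 * lap p.φm x * d2 p.Zm x * p.I x

noncomputable def bb (x : P2) : ℝ := cutI x * (p.T12 x * p.I x)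

/-- The coefficients. -/
noncomputable def coef : Coef where
  b := p.bb
  a := fun x => cutI x * (p.T12 x * p.I x * (p.T12 x * p.I x) - p.T22 x * p.I x)
  β := fun x => cutI x * (d2 p.bb x - p.bb x * d1 p.bb x + p.FO1 x)
  c := fun x => cutI x * p.FO2 x

noncomputable def q (x : P2) : ℝ := p.κ * (p.Y x * p.I x)

noncomputable def g (x : P2) : ℝ :=
  -p.I x * (p.κ * lap p.φm x * (Real.exp (2 * p.φ x) - Real.exp (2 * p.φ' x)) +
    (p.T22 x - 1 - p.T11 x) * gam11 p.δ p.Zm x - 2 * p.T12 x * gam12 p.δ p.Zm x)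

variable {p : Pair} {C₀ : ℝ}

lemma smooth (h : p.Ok C₀) : ContDiff ℝ 7 p.Nm ∧ ContDiff ℝ 7 p.Zm ∧ ContDiff ℝ 7 p.W ∧
    ContDiff ℝ 7 p.φm ∧ ContDiff ℝ 7 p.δ ∧ ContDiff ℝ 5 p.T11 ∧ ContDiff ℝ 5 p.T12 ∧
    ContDiff ℝ 5 p.T22 ∧ ContDiff ℝ 5 p.I ∧ ContDiff ℝ 5 p.R11 ∧ ContDiff ℝ 5 p.R12 :=
  let i : Fam C₀ := ⟨p, h⟩
  ⟨sc_Zm.1.smooth i, sc_Zm.2.1.smooth i, sc_W.1.smooth i, sc_phi.2.2.1.smooth i,
    sc_phi.2.2.2.smooth i, sc_T.1.smooth i, sc_T.2.1.smooth i, sc_T.2.2.smooth i,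
    sc_I.1.smooth i, sc_R.1.smooth i, sc_R.2.smooth i⟩

/-- Where the outer cut-off is one, the covariant Hessians are average and half difference. -/
lemma hessians (h : p.Ok C₀) {x : P2} (hx : rsq x < 9/5) :
    H11 p.φ p.Z x = 1 + p.T11 x + p.G11 x / 2 ∧ H12 p.φ p.Z x = p.T12 x + p.G12 x / 2 ∧
    H22 p.φ p.Z x = p.T22 x + p.G22 x / 2 ∧ gradSq p.Z x = gradSq p.Z₁ x ∧
    H11 p.φ' p.Z' x = 1 + p.T11 x - p.G11 x / 2 ∧ H12 p.φ' p.Z' x = p.T12 x - p.G12 x / 2 ∧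
    H22 p.φ' p.Z' x = p.T22 x - p.G22 x / 2 ∧ gradSq p.Z' x = gradSq p.Z₂ x := by
  obtain ⟨sN, sZ, sW, sm, sd, -⟩ := smooth h
  have hU : ∀ᶠ y in 𝓝 x, rsq y < 9/5 := (isOpen_lt continuous_rsq continuous_const).mem_nhds hx
  have eW : ∀ᶠ y in 𝓝 x, p.Z y = p.Zm y + 1/2 * p.W y ∧ p.Z' y = p.Zm y + (-1/2) * p.W y ∧
      p.Zm y = sq1 y + 1 * p.Nm y := hU.mono fun y hy => by
    simp only [Pair.Zm, Pair.W, Pair.Nm, Pair.Ne, cutO_one hy.le]
    refine ⟨?_, ?_, ?_⟩ <;> ring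
  obtain ⟨a1, a2, a11, a12, a22⟩ := dd_congr (eW.mono fun y hy => hy.1 :
    p.Z =ᶠ[𝓝 x] fun y => p.Zm y + 1/2 * p.W y)
  obtain ⟨b1, b2, b11, b12, b22⟩ := dd_congr (eW.mono fun y hy => hy.2.1 :
    p.Z' =ᶠ[𝓝 x] fun y => p.Zm y + (-1/2) * p.W y)
  obtain ⟨c1, c2, c11, c12, c22⟩ := dd_congr (eW.mono fun y hy => hy.2.2 :
    p.Zm =ᶠ[𝓝 x] fun y => sq1 y + 1 * p.Nm y)
  obtain ⟨-, -, n11, n12, n22⟩ := dd_lin (contDiff_sq1 2) (sN.of_le (by norm_num)) 1 x
  obtain ⟨u1, u2, u11, u12, u22⟩ := dd_lin (sZ.of_le (by norm_num)) (sW.of_le (by norm_num)) (1/2) x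
  obtain ⟨v1, v2, v11, v12, v22⟩ :=
    dd_lin (sZ.of_le (by norm_num)) (sW.of_le (by norm_num)) (-1/2) x
  obtain ⟨-, -, q11, q12, q22⟩ := dd_sq1 x
  have ef : p.φ = fun y => p.φm y + 1/2 * p.δ y := by
    funext y; simp only [Pair.φ, Pair.φm, Pair.δ]; ring
  have ef' : p.φ' = fun y => p.φm y + (-1/2) * p.δ y := by
    funext y; simp only [Pair.φ', Pair.φm, Pair.δ]; ring
  obtain ⟨f1, f2, -⟩ := dd_lin (sm.of_le (by norm_num)) (sd.of_le (by norm_num)) (1/2) x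
  obtain ⟨g1, g2, -⟩ := dd_lin (sm.of_le (by norm_num)) (sd.of_le (by norm_num)) (-1/2) x
  rw [← ef] at f1 f2
  rw [← ef'] at g1 g2
  have ez : p.Z₁ = fun y => p.Zm y + 1/2 * p.W y := by funext y; simp only [Pair.Z₁]; ring
  have ez' : p.Z₂ = fun y => p.Zm y + (-1/2) * p.W y := by funext y; simp only [Pair.Z₂]; ring
  rw [c11] at u11 v11
  rw [c12] at u12 v12
  rw [c22] at u22 v22
  rw [n11, q11] at u11 v11
  rw [n12, q12] at u12 v12
  rw [n22, q22] at u22 v22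
  refine ⟨?_, ?_, ?_, ?_, ?_, ?_, ?_, ?_⟩
  · simp only [H11, a11, a1, a2, u11, u1, u2, f1, f2, Pair.T11, Pair.R11, Pair.G11, gam11]; ring
  · simp only [H12, a12, a1, a2, u12, u1, u2, f1, f2, Pair.T12, Pair.R12, Pair.G12, gam12]; ring
  · simp only [H22, a22, a1, a2, u22, u1, u2, f1, f2, Pair.T22, Pair.R11, Pair.G22, gam11]; ring
  · simp only [gradSq, a1, a2, ez]
  · simp only [H11, b11, b1, b2, v11, v1, v2, g1, g2, Pair.T11, Pair.R11, Pair.G11, gam11]; ring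
  · simp only [H12, b12, b1, b2, v12, v1, v2, g1, g2, Pair.T12, Pair.R12, Pair.G12, gam12]; ring
  · simp only [H22, b22, b1, b2, v22, v1, v2, g1, g2, Pair.T22, Pair.R11, Pair.G22, gam11]; ring
  · simp only [gradSq, b1, b2, ez']

lemma laps (h : p.Ok C₀) {x : P2} (hx : rsq x < 2) :
    lap p.φ x = p.η * (1 - rsq x) + lap p.B x ∧ lap p.φ' x = p.η * (1 - rsq x) + lap p.B' x ∧
    lap p.φm x = (lap p.φ x + lap p.φ' x) / 2 ∧
    lap (fun y => p.B' y - p.B y) x = lap p.φ' x - lap p.φ x := by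
  have hp : ContDiff ℝ 2 pocket := contDiff_pocket 2
  have hB := h.hB.of_le (show (2 : ℕ∞ω) ≤ 7 by norm_num)
  have hB' := h.hB'.of_le (show (2 : ℕ∞ω) ≤ 7 by norm_num)
  have key : ∀ {F : P2 → ℝ}, ContDiff ℝ 2 F →
      lap (fun y => F y + p.η * pocket y) x = lap F x + p.η * (1 - rsq x) := fun {F} hF => by
    obtain ⟨-, -, a, -, b⟩ := dd_lin hF hp p.η x
    rw [← lap_pocket hx]
    simp only [lap, a, b]
    ring
  have e : lap p.φ x = lap p.B x + p.η * (1 - rsq x) := by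
    rw [← key hB]; congr 1; funext y; simp only [Pair.φ]; ring
  have e' : lap p.φ' x = lap p.B' x + p.η * (1 - rsq x) := by
    rw [← key hB']; congr 1; funext y; simp only [Pair.φ']; ring
  obtain ⟨-, -, s11, -, s22⟩ := dd_lin hB hB' 1 x
  obtain ⟨-, -, t11, -, t22⟩ := dd_lin hB' hB (-1) x
  refine ⟨by rw [e]; ring, by rw [e']; ring, ?_, ?_⟩
  · have hs : ContDiff ℝ 2 fun y => p.B y + 1 * p.B' y := hB.add (contDiff_const.mul hB')
    have hz : ContDiff ℝ 2 fun y => p.η * pocket y := contDiff_const.mul hp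
    obtain ⟨-, -, r11, -, r22⟩ := dd_lin hz hs (1/2) x
    obtain ⟨-, -, z11, -, z22⟩ := dd_lin (contDiff_const (c := (0:ℝ))) hp p.η x
    have hm : p.φm = fun y => p.η * pocket y + 1/2 * (p.B y + 1 * p.B' y) := by
      funext y; simp only [Pair.φm]; ring
    have z0 : (fun y => (0:ℝ) + p.η * pocket y) = fun y => p.η * pocket y := by funext y; ring
    rw [z0] at z11 z22
    have c0 : d1 (fun _ : P2 => (0:ℝ)) = fun _ => 0 := funext fun y => d1_const 0
    have c0' : d2 (fun _ : P2 => (0:ℝ)) = fun _ => 0 := funext fun y => d2_const 0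
    rw [c0, d1_const] at z11
    rw [c0', d2_const] at z22
    rw [e, e', ← lap_pocket hx, hm]
    simp only [lap, r11, r22, z11, z22, s11, s22]
    ring
  · have hn : (fun y => p.B' y - p.B y) = fun y => p.B' y + (-1) * p.B y := by funext y; ring
    rw [e, e', hn]
    simp only [lap, t11, t22]
    ring

/-- The two Darboux equations in the averaged variables. -/
lemma darboux_pair (h : p.Ok C₀) {x : P2} (hx : rsq x < 9/5) :
    (1 + p.T11 x + p.G11 x / 2) * (p.T22 x + p.G22 x / 2) - (p.T12 x + p.G12 x / 2) ^ 2 =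
        -lap p.φ x * (p.κ * Real.exp (2 * p.φ x) - gradSq p.Z₁ x) ∧
    (1 + p.T11 x - p.G11 x / 2) * (p.T22 x - p.G22 x / 2) - (p.T12 x - p.G12 x / 2) ^ 2 =
        -lap p.φ' x * (p.κ * Real.exp (2 * p.φ' x) - gradSq p.Z₂ x) ∧
    p.κ * p.Y1 x = p.κ * Real.exp (2 * p.φ x) - gradSq p.Z₁ x ∧
    p.κ * p.Y2 x = p.κ * Real.exp (2 * p.φ' x) - gradSq p.Z₂ x := by
  obtain ⟨a1, a2, a3, a4, b1, b2, b3, b4⟩ := hessians h hx
  have hx2 : x ∈ O2 := show rsq x < 2 by linarith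
  have D := h.hD x hx2
  have D' := h.hD' x hx2
  simp only [Darboux, a1, a2, a3, a4] at D
  simp only [Darboux, b1, b2, b3, b4] at D'
  refine ⟨D, D', ?_, ?_⟩ <;>
    simp only [Pair.Y1, Pair.Y2, mul_sub, ← mul_assoc, mul_inv_cancel₀ h.κ_pos.ne', one_mul]

/-- On `rsq < 31/20`, where the reciprocal is exact, the pair satisfies the linear equation. -/
lemma equation (h : p.Ok C₀) {x : P2} (hx : rsq x < 31/20)
    (hI : p.I x * (1 + p.T11 x) = 1) :
    p.coef.op p.W x = p.q x * lap (fun y => p.B' y - p.B y) x + p.g x := by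
  obtain ⟨sN, sZ, sW, sm, sd, sT11, sT12, sT22, sI, -, -⟩ := smooth h
  obtain ⟨D, D', hY, hY'⟩ := darboux_pair h (show rsq x < 9/5 by linarith)
  obtain ⟨L1, L2, L3, L4⟩ := laps h (show rsq x < 2 by linarith)
  have hc : cutI x = 1 := cutI_one hx.le
  have hb : DifferentiableAt ℝ p.coef.b x :=
    (((contDiff_radCut _ _ 1).mul ((sT12.of_le (by norm_num)).mul (sI.of_le (by norm_num))))
      ).differentiable one_ne_zero x
  rw [Coef.op, V_V hb (sW.of_le (by norm_num))]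
  obtain ⟨u1, u2, -⟩ := dd_lin (sZ.of_le (by norm_num)) (sW.of_le (by norm_num)) (1/2) x
  obtain ⟨v1, v2, -⟩ := dd_lin (sZ.of_le (by norm_num)) (sW.of_le (by norm_num)) (-1/2) x
  have ez : p.Z₁ = fun y => p.Zm y + 1/2 * p.W y := by funext y; simp only [Pair.Z₁]; ring
  have ez' : p.Z₂ = fun y => p.Zm y + (-1/2) * p.W y := by funext y; simp only [Pair.Z₂]; ring
  simp only [gradSq, ez, ez', u1, u2, v1, v2] at D D' hY hY'
  simp only [Pair.coef, Pair.FO1, Pair.FO2, Pair.q, Pair.g, Pair.Y, Pair.bb, hc, one_mul, L3, L4]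
  simp only [Pair.G11, Pair.G12, Pair.G22, gam11, gam12] at D D' ⊢
  set z1 := d1 p.Zm x
  set z2 := d2 p.Zm x
  linear_combination (p.I x) * D - (p.I x) * D' +
    (p.I x * (lap p.φ x - lap p.φ' x) / 2) * hY + (p.I x * (lap p.φ x - lap p.φ' x) / 2) * hY' -
    (d2 (d2 p.W) x + d1 p.φm x * d1 p.W x - d2 p.φm x * d2 p.W x) * hI

/-- The coefficient `a` is pocket part plus rest. -/
lemma a_eq (h : p.Ok C₀) {x : P2} (hx : rsq x < 31/20) (hI : p.I x * (1 + p.T11 x) = 1) :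
    p.coef.a x = p.κ * p.η * (1 - rsq x) * p.R0 x + p.E x := by
  obtain ⟨D, D', hY, hY'⟩ := darboux_pair h (show rsq x < 9/5 by linarith)
  obtain ⟨L1, L2, -, -⟩ := laps h (show rsq x < 2 by linarith)
  rw [← hY, L1] at D
  rw [← hY', L2] at D'
  simp only [Pair.coef, cutI_one hx.le, one_mul, Pair.R0, Pair.E, Pair.Y]
  linear_combination (-(p.I x) ^ 2 / 2) * D + (-(p.I x) ^ 2 / 2) * D' + (p.I x * p.T22 x) * hI

/-- The cancellation in `β + ∂₁ a`. -/
lemma β_eq (h : p.Ok C₀) {x : P2} (hx : rsq x < 31/20)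
    (hI : ∀ y, rsq y < 31/20 → p.I y * (1 + p.T11 y) = 1) :
    p.coef.β x + d1 p.coef.a x =
      (d2 p.R12 x + d1 p.R11 x) * p.I x +
        p.coef.b x * p.I x * (d1 p.R12 x - d2 p.R11 x) -
        p.coef.a x * p.I x * d1 p.T11 x + p.FO1 x := by
  obtain ⟨sN, -, -, -, -, sT11, sT12, sT22, sI, sR1, sR2⟩ := smooth h
  have hU : ∀ᶠ y in 𝓝 x, rsq y < 31/20 := (isOpen_lt continuous_rsq continuous_const).mem_nhds hx
  have eb : p.coef.b =ᶠ[𝓝 x] fun y => p.T12 y * p.I y := hU.mono fun y hy => by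
    simp [Pair.coef, Pair.bb, cutI_one hy.le]
  have ea : p.coef.a =ᶠ[𝓝 x] fun y => p.T12 y * p.I y * (p.T12 y * p.I y) - p.T22 y * p.I y :=
    hU.mono fun y hy => by simp [Pair.coef, cutI_one hy.le]
  have e1 : (fun y => p.I y * (1 + p.T11 y)) =ᶠ[𝓝 x] fun _ => (1 : ℝ) :=
    hU.mono fun y hy => hI y hy
  have dT1 : DifferentiableAt ℝ p.T11 x := sT11.differentiable (by norm_num) x
  have dT2 : DifferentiableAt ℝ p.T12 x := sT12.differentiable (by norm_num) x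
  have dT3 : DifferentiableAt ℝ p.T22 x := sT22.differentiable (by norm_num) x
  have dI : DifferentiableAt ℝ p.I x := sI.differentiable (by norm_num) x
  have i1 : d1 p.I x * (1 + p.T11 x) + p.I x * d1 p.T11 x = 0 := by
    have := (dd_congr e1).1
    rw [d1_mul dI (dT1.const_add 1), d1_const,
      d1_add (differentiableAt_const _) dT1, d1_const, zero_add] at this
    exact this
  have i2 : d2 p.I x * (1 + p.T11 x) + p.I x * d2 p.T11 x = 0 := by
    have := (dd_congr e1).2.1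
    rw [d2_mul dI (dT1.const_add 1), d2_const,
      d2_add (differentiableAt_const _) dT1, d2_const, zero_add] at this
    exact this
  have hA : DifferentiableAt ℝ (fun y => p.T12 y * p.I y) x := dT2.fun_mul dI
  have da := (dd_congr ea).1
  rw [d1_sub (hA.fun_mul hA) (dT3.fun_mul dI), d1_mul hA hA, d1_mul dT2 dI, d1_mul dT3 dI] at da
  have db1 : d1 p.bb x = d1 p.T12 x * p.I x + p.T12 x * d1 p.I x := by
    rw [show p.bb = p.coef.b from rfl, (dd_congr eb).1, d1_mul dT2 dI]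
  have db2 : d2 p.bb x = d2 p.T12 x * p.I x + p.T12 x * d2 p.I x := by
    rw [show p.bb = p.coef.b from rfl, (dd_congr eb).2.1, d2_mul dT2 dI]
  have bx : p.bb x = p.T12 x * p.I x := eb.self_of_nhds
  have N2 : ContDiff ℝ 3 p.Nm := sN.of_le (by norm_num)
  have M1 : ContDiff ℝ 2 (d1 p.Nm) := contDiff_d1 (n := 2) N2
  have M2 : ContDiff ℝ 2 (d2 p.Nm) := contDiff_d2 (n := 2) N2
  have sym : d1 (d2 p.Nm) = d2 (d1 p.Nm) := funext fun y => d1_d2 (N2.of_le (by norm_num))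
  have P11 : DifferentiableAt ℝ (d1 (d1 p.Nm)) x :=
    (contDiff_d1 (n := 1) M1).differentiable one_ne_zero x
  have P12 : DifferentiableAt ℝ (d1 (d2 p.Nm)) x :=
    (contDiff_d1 (n := 1) M2).differentiable one_ne_zero x
  have P22 : DifferentiableAt ℝ (d2 (d2 p.Nm)) x :=
    (contDiff_d2 (n := 1) M2).differentiable one_ne_zero x
  have dR1 : DifferentiableAt ℝ p.R11 x := sR1.differentiable (by norm_num) x
  have dR2 : DifferentiableAt ℝ p.R12 x := sR2.differentiable (by norm_num) x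
  have t1 : d1 p.T12 x = d1 (d1 (d2 p.Nm)) x + d1 p.R12 x := by
    rw [show p.T12 = fun y => d1 (d2 p.Nm) y + p.R12 y from rfl, d1_add P12 dR2]
  have t2 : d2 p.T12 x = d2 (d1 (d2 p.Nm)) x + d2 p.R12 x := by
    rw [show p.T12 = fun y => d1 (d2 p.Nm) y + p.R12 y from rfl, d2_add P12 dR2]
  have t3 : d2 p.T11 x = d1 (d1 (d2 p.Nm)) x + d2 p.R11 x := by
    rw [show p.T11 = fun y => d1 (d1 p.Nm) y + p.R11 y from rfl, d2_add P11 dR1, sym,
      d1_d2 M1]
  have t4 : d1 p.T22 x = d2 (d1 (d2 p.Nm)) x - d1 p.R11 x := by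
    rw [show p.T22 = fun y => d2 (d2 p.Nm) y - p.R11 y from rfl, d1_sub P22 dR1, d1_d2 M2]
  rw [da]
  simp only [Pair.coef, cutI_one hx.le, one_mul, db1, db2, bx]
  linear_combination (p.I x) * t2 - (p.I x) * t4 + (p.T12 x * p.I x ^ 2) * t1 -
    (p.T12 x * p.I x ^ 2) * t3 + (p.T12 x * p.I x) * i2 +
    (p.T12 x ^ 2 * p.I x ^ 2 - p.T22 x * p.I x) * i1 -
    (p.T12 x * d2 p.I x + p.T12 x ^ 2 * p.I x * d1 p.I x - p.T22 x * d1 p.I x) *
      (hI x hx)

end Pair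

end Vale.Agent.P229.Island
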