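import Vale.Agent.P229.Calc

/-!
# P229 seat E: fixed cut-offs, the pocket profile and a global reciprocal
-/

namespace Vale.Agent.P229.Island

open scoped ContDiff
open Real (smoothTransition)

lemma contDiff_rsq {n : ℕ∞} : ContDiff ℝ n rsq := by
  unfold rsq
  exact (contDiff_fst.pow 2).add (contDiff_snd.pow 2)

lemma continuous_rsq : Continuous rsq := (contDiff_rsq (n := 0)).continuous

lemma isCompact_rsq_le (r : ℝ) : IsCompact {x : P2 | rsq x ≤ r} := by
  refine Metric.isCompact_of_isClosed_isBounded (isClosed_le continuous_rsq continuous_const) ?_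
  refine (Metric.isBounded_closedBall (x := (0 : P2)) (r := |r| + 1)).subset fun x hx => ?_
  have h : x.1 ^ 2 + x.2 ^ 2 ≤ r := hx
  have h0 : r ≤ |r| := le_abs_self r
  have h1 : |x.1| ≤ |r| + 1 := by nlinarith [sq_abs x.1, abs_nonneg x.1, sq_nonneg x.2]
  have h2 : |x.2| ≤ |r| + 1 := by nlinarith [sq_abs x.2, abs_nonneg x.2, sq_nonneg x.1]
  simpa [Metric.mem_closedBall, dist_zero_right, Prod.norm_def] using And.intro h1 h2

lemma exists_bound_of_compactSupport {E : Type} [NormedAddCommGroup E] [NormedSpace ℝ E]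
    {f : E → ℝ} (hf : ∀ n : ℕ, ContDiff ℝ n f) (hs : HasCompactSupport f) (n : ℕ) :
    ∃ B : ℝ, 0 ≤ B ∧ ∀ x, ∀ k ≤ n, ‖iteratedFDeriv ℝ k f x‖ ≤ B := by
  have b : ∀ k : ℕ, ∃ C, ∀ x, ‖iteratedFDeriv ℝ k f x‖ ≤ C := fun k =>
    ((hf k).continuous_iteratedFDeriv le_rfl).bounded_above_of_compact_support
      (hs.iteratedFDeriv k)
  choose C hC using b
  refine ⟨∑ k ∈ Finset.range (n + 1), |C k|, Finset.sum_nonneg fun _ _ => abs_nonneg _,
    fun x k hk => (hC k x).trans ((le_abs_self _).trans ?_)⟩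
  exact Finset.single_le_sum (fun l _ => abs_nonneg (C l)) (Finset.mem_range.2 (by omega))

/-- Radial cut-off: one for `rsq ≤ a`, zero for `rsq ≥ b`. -/
noncomputable def radCut (a b : ℝ) (x : P2) : ℝ := smoothTransition ((b - rsq x) / (b - a))

lemma contDiff_radCut (a b : ℝ) (n : ℕ) : ContDiff ℝ n (radCut a b) := by
  unfold radCut
  exact Real.smoothTransition.contDiff.comp
    ((contDiff_const.sub contDiff_rsq).div_const _)

lemma radCut_mem (a b : ℝ) (x : P2) : 0 ≤ radCut a b x ∧ radCut a b x ≤ 1 :=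
  ⟨Real.smoothTransition.nonneg _, Real.smoothTransition.le_one _⟩

lemma radCut_one {a b : ℝ} (hab : a < b) {x : P2} (h : rsq x ≤ a) : radCut a b x = 1 :=
  Real.smoothTransition.one_of_one_le ((one_le_div (by linarith)).2 (by linarith))

lemma radCut_zero {a b : ℝ} (hab : a < b) {x : P2} (h : b ≤ rsq x) : radCut a b x = 0 :=
  Real.smoothTransition.zero_of_nonpos (div_nonpos_of_nonpos_of_nonneg (by linarith) (by linarith))

lemma tsupport_radCut {a b : ℝ} (hab : a < b) : tsupport (radCut a b) ⊆ {x | rsq x ≤ b} :=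
  closure_minimal (fun x hx => not_lt.1 fun h : b < rsq x => hx (radCut_zero hab h.le))
    (isClosed_le continuous_rsq continuous_const)

lemma hasCompactSupport_radCut {a b : ℝ} (hab : a < b) : HasCompactSupport (radCut a b) :=
  HasCompactSupport.intro (isCompact_rsq_le b) fun _ hx => radCut_zero hab (le_of_not_ge hx)

lemma exists_radCut_bound {a b : ℝ} (hab : a < b) (n : ℕ) :
    ∃ B : ℝ, 0 ≤ B ∧ ∀ x, ∀ k ≤ n, ‖iteratedFDeriv ℝ k (radCut a b) x‖ ≤ B :=
  exists_bound_of_compactSupport (contDiff_radCut a b) (hasCompactSupport_radCut hab) n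

/-- Inner cut-off: one on `rsq ≤ 31/20`, zero outside `rsq ≤ 17/10`. -/
noncomputable def cutI : P2 → ℝ := radCut (31/20) (17/10)

/-- Outer cut-off: one on `rsq ≤ 9/5`, zero outside `rsq ≤ 39/20`. -/
noncomputable def cutO : P2 → ℝ := radCut (9/5) (39/20)

/-- The pocket profile: Laplacian `1 - rsq` for `rsq < 2`, compact support. -/
noncomputable def pocket (x : P2) : ℝ := (rsq x / 4 - rsq x ^ 2 / 16) * radCut 2 (5/2) x

lemma contDiff_pocket (n : ℕ) : ContDiff ℝ n pocket := by
  unfold pocket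
  exact ((contDiff_rsq.div_const 4).sub ((contDiff_rsq.pow 2).div_const 16)).mul
    (contDiff_radCut _ _ n)

lemma contDiff_pocket_top : ContDiff ℝ (⊤ : ℕ∞) pocket := contDiff_infty.2 contDiff_pocket

lemma pocket_zero {x : P2} (h : 5/2 ≤ rsq x) : pocket x = 0 := by
  simp [pocket, radCut_zero (by norm_num : (2:ℝ) < 5/2) h]

lemma hasCompactSupport_pocket : HasCompactSupport pocket :=
  HasCompactSupport.intro (isCompact_rsq_le (5/2)) fun _ hx => pocket_zero (le_of_not_ge hx)

lemma exists_pocket_bound (n : ℕ) :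
    ∃ B : ℝ, 0 ≤ B ∧ ∀ x, ∀ k ≤ n, ‖iteratedFDeriv ℝ k pocket x‖ ≤ B :=
  exists_bound_of_compactSupport contDiff_pocket hasCompactSupport_pocket n

lemma pocket_eventuallyEq {x : P2} (hx : rsq x < 2) :
    pocket =ᶠ[nhds x] fun y => rsq y / 4 - rsq y ^ 2 / 16 := by
  filter_upwards [(isOpen_lt continuous_rsq continuous_const).mem_nhds hx] with y hy
  rw [pocket, radCut_one (by norm_num) (le_of_lt hy), mul_one]

lemma d_rsq (x : P2) : d1 rsq x = 2 * x.1 ∧ d2 rsq x = 2 * x.2 := by
  have e : rsq = fun y : P2 => y.1 * y.1 + y.2 * y.2 := by funext y; simp only [rsq]; ring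
  have a : DifferentiableAt ℝ (fun y : P2 => y.1) x := differentiableAt_fst
  have b : DifferentiableAt ℝ (fun y : P2 => y.2) x := differentiableAt_snd
  rw [e]
  constructor
  · rw [d1_add (a.fun_mul a) (b.fun_mul b), d1_mul a a, d1_mul b b, d1_fst, d1_snd]; ring
  · rw [d2_add (a.fun_mul a) (b.fun_mul b), d2_mul a a, d2_mul b b, d2_fst, d2_snd]; ring

lemma lap_pocket {x : P2} (hx : rsq x < 2) : lap pocket x = 1 - rsq x := by
  let u : ℝ → ℝ := fun t => t / 4 - t ^ 2 / 16
  let q : P2 → ℝ := fun y => u (rsq y)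
  have e0 : pocket =ᶠ[nhds x] q := pocket_eventuallyEq hx
  have hr : ∀ y, DifferentiableAt ℝ rsq y := fun y =>
    (contDiff_rsq (n := 1)).differentiable (by norm_num) y
  have hu : ∀ t, HasDerivAt u (1/4 - t / 8) t := fun t => by
    refine (((hasDerivAt_id t).div_const 4).fun_sub (((hasDerivAt_id t).fun_pow 2).div_const 16)
      ).congr_deriv ?_
    simp; ring
  have q1 : d1 q = fun y => (1/4 - rsq y / 8) * (2 * y.1) := by
    funext y
    show d1 (fun z => u (rsq z)) y = _
    rw [d1_comp (hu _).differentiableAt (hr y), (hu _).deriv, (d_rsq y).1]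
  have q2 : d2 q = fun y => (1/4 - rsq y / 8) * (2 * y.2) := by
    funext y
    show d2 (fun z => u (rsq z)) y = _
    rw [d2_comp (hu _).differentiableAt (hr y), (hu _).deriv, (d_rsq y).2]
  have p1 : d1 pocket =ᶠ[nhds x] d1 q := by
    filter_upwards [e0.fderiv (𝕜 := ℝ)] with y hy
    simp [d1, hy]
  have p2 : d2 pocket =ᶠ[nhds x] d2 q := by
    filter_upwards [e0.fderiv (𝕜 := ℝ)] with y hy
    simp [d2, hy]
  show d1 (d1 pocket) x + d2 (d2 pocket) x = _
  rw [d1, p1.fderiv_eq, d2, p2.fderiv_eq]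
  show d1 (d1 q) x + d2 (d2 q) x = _
  have hl : ∀ t : ℝ, HasDerivAt (fun t => 1/4 - t / 8) (-1/8) t := fun t =>
    (((hasDerivAt_id t).div_const 8).const_sub (1/4)).congr_deriv (by ring)
  have ha : DifferentiableAt ℝ (fun y : P2 => 1/4 - rsq y / 8) x :=
    ((hl (rsq x)).differentiableAt).comp x (hr x)
  have b1 : DifferentiableAt ℝ (fun y : P2 => 2 * y.1) x := differentiableAt_fst.const_mul 2
  have b2 : DifferentiableAt ℝ (fun y : P2 => 2 * y.2) x := differentiableAt_snd.const_mul 2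
  rw [q1, q2, d1_mul ha b1, d2_mul ha b2, d1_comp (hl _).differentiableAt (hr x),
    d2_comp (hl _).differentiableAt (hr x), (hl _).deriv, (d_rsq x).1, (d_rsq x).2,
    d1_const_mul 2 differentiableAt_fst, d2_const_mul 2 differentiableAt_snd, d1_fst, d2_snd]
  simp only [rsq]
  ring

/-- A smooth function equal to `t⁻¹` for `|t - 1| ≤ 1/2`. -/
noncomputable def invOne (t : ℝ) : ℝ :=
  ((t - 1) * smoothTransition ((9/16 - (t - 1) ^ 2) * 4) + 1)⁻¹

lemma invOne_den_pos (t : ℝ) : 0 < (t - 1) * smoothTransition ((9/16 - (t - 1) ^ 2) * 4) + 1 := by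
  rcases le_or_gt (9/16) ((t - 1) ^ 2) with h | h
  · rw [Real.smoothTransition.zero_of_nonpos (by linarith)]; norm_num
  · have a0 := Real.smoothTransition.nonneg ((9/16 - (t - 1) ^ 2) * 4)
    have a1 := Real.smoothTransition.le_one ((9/16 - (t - 1) ^ 2) * 4)
    have : -(3/4) < t - 1 := by nlinarith
    rcases le_or_gt 0 (t - 1) with h' | h'
    · positivity
    · nlinarith

lemma invOne_eq {t : ℝ} (h : |t - 1| ≤ 1/2) : invOne t = t⁻¹ := by
  have : (t - 1) ^ 2 ≤ 1/4 := by nlinarith [sq_abs (t - 1), abs_nonneg (t - 1)]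
  rw [invOne, Real.smoothTransition.one_of_one_le (by linarith)]
  norm_num

lemma contDiff_invOne (n : ℕ) : ContDiff ℝ n invOne := by
  unfold invOne
  refine ContDiff.inv ?_ fun t => (invOne_den_pos t).ne'
  exact ((contDiff_id.sub contDiff_const).mul (Real.smoothTransition.contDiff.comp
    ((contDiff_const.sub ((contDiff_id.sub contDiff_const).pow 2)).mul contDiff_const))).add
      contDiff_const

lemma exists_invOne_bound (n : ℕ) :
    ∃ B : ℝ, ∀ u, ∀ k ≤ n, ‖iteratedFDeriv ℝ k invOne u‖ ≤ B := by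
  have hs : HasCompactSupport fun t => invOne t - 1 :=
    HasCompactSupport.intro (isCompact_Icc (a := (0:ℝ)) (b := 2)) fun t ht => by
      have : 9/16 ≤ (t - 1) ^ 2 := by
        simp only [Set.mem_Icc, not_and_or, not_le] at ht
        rcases ht with ht | ht <;> nlinarith
      simp [invOne, Real.smoothTransition.zero_of_nonpos (show (9/16 - (t - 1) ^ 2) * 4 ≤ 0 by
        linarith)]
  obtain ⟨B, hB0, hB⟩ := exists_bound_of_compactSupport
    (fun k => (contDiff_invOne k).sub contDiff_const) hs n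
  refine ⟨B + 1, fun u k hk => ?_⟩
  have h1 : ContDiffAt ℝ (k : ℕ∞ω) (fun t => invOne t - 1) u :=
    ((contDiff_invOne k).sub contDiff_const).contDiffAt
  have e : invOne = fun t => (invOne t - 1) + 1 := by funext t; ring
  rw [e, fun_iteratedFDeriv_add_apply h1 contDiffAt_const]
  refine (norm_add_le _ _).trans (add_le_add (hB u k hk) ?_)
  rcases Nat.eq_zero_or_pos k with rfl | hk'
  · simp
  · rw [iteratedFDeriv_const_of_ne hk'.ne']; simp

end Vale.Agent.P229.Island
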