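import Vale.Agent.P229.Island.Tools
import Vale.Agent.P229.Island.Buckets
import Vale.Agent.P229.Interfaces

/-!
# P229 seat E: the island lemma from sea regularity and the linear obstruction
-/

namespace Vale.Agent.P229.Island

open Filter MeasureTheory
open scoped ContDiff Topology

lemma contDiff_combB_top {n : ℕ} (μ Λ : ℝ) (p : Fin n → P2) (d : Fin n → ℝ) :
    ContDiff ℝ (⊤ : ℕ∞) (combB μ Λ p d) :=
  contDiff_infty.2 (contDiff_combB μ Λ p d)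

/-- In the rotated frame a bucket member is a height function of one fixed potential in the sea. -/
lemma sea_member {C₁ w η σ P₀ : ℝ} {n : ℕ} {μ Λ α β : ℝ} {q : Fin n → P2} {d : Fin n → ℝ}
    {Z B : P2 → ℝ} (hw : 0 < w) (hrot : α ^ 2 + β ^ 2 = 1) (hZ : IsZ C₁ w Z)
    (hB : ContDiff ℝ 2 B) (hBq : ∀ x, B (rotL α β x) = combB μ Λ q d x)
    (hq : ∀ i, rsq (q i) ≤ 1/16) (hΛ : 2 ≤ Λ) (hη : 0 ≤ η) (hσ : 0 ≤ σ) (hσ1 : σ ≤ 1/10)
    (hP : ∀ x, |pocket x| ≤ P₀) (hηP : η * P₀ ≤ 1/2)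
    (hwC : w ^ 2 * (3 + 24 * C₁ ^ 2) ≤ 1)
    (hD : ∀ x ∈ Metric.closedBall (0 : P2) 2,
      Darboux (w ^ 2)⁻¹ (fun y => η * pocket y + B y) Z x) :
    ContDiffOn ℝ (⊤ : ℕ∞) (normed 1 α β Z) {x | rsq x < 2} ∧
    (∀ x ∈ Ann (1 + σ/6) (1 + 2*σ), ∀ i : ℕ, i ≤ 8 →
      ‖iteratedFDeriv ℝ i (normed 1 α β Z) x‖ ≤ 256 * C₁) ∧
    (∀ x ∈ Ann (1 + σ/6) (1 + 2*σ),
      Darboux (w ^ 2)⁻¹ (fun y => η * pocket y) (normed 1 α β Z) x) ∧
    (∀ x ∈ Ann (1 + σ/6) (1 + 2*σ), η * (σ/6) ≤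
      H11 (fun y => η * pocket y) (normed 1 α β Z) x * H22 (fun y => η * pocket y) (normed 1 α β Z) x -
        H12 (fun y => η * pocket y) (normed 1 α β Z) x ^ 2) := by
  have hC₁ : 0 ≤ C₁ := (norm_nonneg _).trans (hZ.bnd 0 (Metric.mem_closedBall_self (by norm_num))
    0 (Nat.zero_le _))
  have hmem : ∀ x : P2, rsq x < 2 → rotL α β x ∈ Metric.ball (0 : P2) 3 := fun x hx =>
    rot_mem hrot (rot_mem_two hrot hx).2
  have hsm : ∀ y ∈ Metric.ball (0 : P2) 3, ContDiffAt ℝ (⊤ : ℕ∞) Z y := fun y hy =>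
    hZ.smooth y (Metric.ball_subset_closedBall hy)
  have hin : ∀ x ∈ Ann (1 + σ/6) (1 + 2*σ), rsq x < 2 ∧ 1 ≤ rsq x := fun x hx =>
    ⟨by linarith [hx.2], by linarith [hx.1]⟩
  have hbd : ∀ x : P2, rsq x < 2 → ∀ i : ℕ, i ≤ 8 →
      ‖iteratedFDeriv ℝ i (normed 1 α β Z) x‖ ≤ 2 ^ i * C₁ := fun x hx i hi => by
    have := norm_iterated_normed_le (ν := 1) hrot hsm (hmem x hx)
      (hZ.bnd _ (Metric.ball_subset_closedBall (hmem x hx)) i hi)
    simpa using this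
  refine ⟨fun x hx => (contDiffAt_normed (hsm _ (hmem x hx))).contDiffWithinAt,
    fun x hx i hi => (hbd x (hin x hx).1 i hi).trans (mul_le_mul_of_nonneg_right
      ((pow_le_pow_right₀ one_le_two hi).trans_eq (by norm_num)) hC₁), ?_⟩
  have key : ∀ x ∈ Ann (1 + σ/6) (1 + 2*σ),
      Darboux (w ^ 2)⁻¹ (fun y => η * pocket y) (normed 1 α β Z) x := by
    intro x hx
    have h := normed_darboux (ν := 1) hw one_ne_zero hrot hZ
      ((contDiff_const.mul (contDiff_pocket 2)).add hB) hD (hin x hx).1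
    rw [one_pow, div_one] at h
    have e : (fun y => η * pocket (rotL α β y) + B (rotL α β y)) =ᶠ[𝓝 x]
        fun y => η * pocket y := by
      have h0 : combB μ Λ q d =ᶠ[𝓝 x] fun _ => 0 :=
        combB_eventually_zero fun i => Or.inr (far_from_row hΛ (hq i) (hin x hx).2)
      filter_upwards [h0] with y hy
      rw [hBq, hy, pocket_rot hrot, add_zero]
    obtain ⟨e1, e2, e11, -, e22⟩ := dd_congr e
    simp only [Darboux, H11, H12, H22, lap, e1, e2, e11, e22, e.self_of_nhds] at h ⊢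
    exact h
  refine ⟨key, fun x hx => ?_⟩
  have hl : lap (fun y => η * pocket y) x = η * (1 - rsq x) := by
    obtain ⟨-, -, e11, -, e22⟩ := dd_affine ((contDiff_pocket 2).contDiffAt (x := x)) η 0
    simp only [sub_zero] at e11 e22
    rw [← lap_pocket (hin x hx).1, lap, lap, e11, e22]
    ring
  refine sea_det (D := 8 * C₁ ^ 2) (key x hx) hη hσ hx.1 hl ?_ ?_
  · have hp : -1/2 ≤ η * pocket x := by
      have h1 : η * -P₀ ≤ η * pocket x :=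
        mul_le_mul_of_nonneg_left (abs_le.1 (hP x)).1 hη
      linarith
    have he : (1 : ℝ)/3 ≤ Real.exp (2 * (η * pocket x)) := by
      refine le_trans ?_ (Real.exp_le_exp.2 (show (-1 : ℝ) ≤ 2 * (η * pocket x) by linarith))
      rw [Real.exp_neg, ← one_div]
      exact one_div_le_one_div_of_le (Real.exp_pos 1) (by linarith [Real.exp_one_lt_d9])
    have hw2 : 3 + 24 * C₁ ^ 2 ≤ (w ^ 2)⁻¹ := by
      rw [← one_div, le_div_iff₀ (by positivity)]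
      linarith
    have := mul_le_mul hw2 he (by norm_num) (by positivity)
    linarith
  · obtain ⟨a1, a2⟩ := abs_pd_le (normed 1 α β Z) x
    have hb := hbd x (hin x hx).1 1 (by norm_num)
    have p1 := pow_le_pow_left₀ (abs_nonneg _) (a1.trans hb) 2
    have p2 := pow_le_pow_left₀ (abs_nonneg _) (a2.trans hb) 2
    rw [sq_abs] at p1 p2
    simp only [gradSq]
    linarith

/-- Each small perturbation of the pocket has a scaled height function. -/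
lemma exists_height {z₀ : P2} {R c M ε C₁ w η Bp : ℝ} {j : ℕ} {u : Bool} {B : P2 → ℝ}
    (hscaled : ∀ (z₀ : P2) (R w : ℝ) (ζ : P2 → ℝ), 0 < w → w ≤ 1 → 4 * w ≤ R →
      ContDiffOn ℝ (⊤ : ℕ∞) ζ (Metric.ball z₀ R) →
      (∀ z ∈ Metric.ball z₀ R, ∀ i ≤ 8, ‖iteratedFDeriv ℝ i ζ z‖ ≤ max M 0) → fderiv ℝ ζ z₀ = 0 →
      IsZ C₁ w (scaled ζ z₀ w) ∧
        d1 (d1 (scaled ζ z₀ w)) 0 = d1 (d1 ζ) z₀ ∧ d1 (d2 (scaled ζ z₀ w)) 0 = d1 (d2 ζ) z₀ ∧
        d2 (d2 (scaled ζ z₀ w)) 0 = d2 (d2 ζ) z₀ ∧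
        ∀ φ : P2 → ℝ, ContDiff ℝ 2 φ →
          (∀ z ∈ Metric.ball z₀ R, Darboux 1 (fun z => φ (w⁻¹ • (z - z₀))) ζ z) →
          ∀ x ∈ Metric.closedBall (0 : P2) 3, Darboux (w ^ 2)⁻¹ φ (scaled ζ z₀ w) x)
    (hno : ∀ ψ : P2 → ℝ, ContDiff ℝ (⊤ : ℕ∞) ψ → tsupport ψ ⊆ Metric.ball z₀ R →
      (∀ x, ∀ i : ℕ, i ≤ j → ‖iteratedFDeriv ℝ i ψ x‖ ≤ ε) →
      ∃ ζ : P2 → ℝ, ContDiffOn ℝ (⊤ : ℕ∞) ζ (Metric.ball z₀ R) ∧
        (∀ x ∈ Metric.ball z₀ R, ∀ i : ℕ, i ≤ 8 → ‖iteratedFDeriv ℝ i ζ x‖ ≤ M) ∧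
        fderiv ℝ ζ z₀ = 0 ∧
        (c ≤ if u then |d2 (d2 ζ) z₀| else |d1 (d1 ζ) z₀|) ∧
        ∀ x ∈ Metric.ball z₀ R, Darboux 1 ψ ζ x)
    (hw0 : 0 < w) (hw1 : w ≤ 1) (hR : 4 * w ≤ R) (hη : 0 < η)
    (hpb : ∀ x, ∀ k ≤ j, ‖iteratedFDeriv ℝ k pocket x‖ ≤ Bp)
    (hε : (2 / w) ^ j * (η * (Bp + 1)) ≤ ε) (hB : ContDiff ℝ (⊤ : ℕ∞) B)
    (hBk : ∀ x, ∀ k ≤ j, ‖iteratedFDeriv ℝ k B x‖ ≤ η) (hBfar : ∀ x, 2 < ‖x‖ → B x = 0) :
    ∃ Z : P2 → ℝ, IsZ C₁ w Z ∧ (c ≤ if u then |d2 (d2 Z) 0| else |d1 (d1 Z) 0|) ∧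
      ∀ x ∈ Metric.closedBall (0 : P2) 3,
        Darboux (w ^ 2)⁻¹ (fun y => η * pocket y + B y) Z x := by
  have hφ : ContDiff ℝ (⊤ : ℕ∞) fun y => η * pocket y + B y :=
    (contDiff_const.mul contDiff_pocket_top).add hB
  have hsupp : ∀ x : P2, 2 < ‖x‖ → η * pocket x + B x = 0 := fun x hx => by
    rw [hBfar x hx, pocket_zero (by linarith [rsq_of_norm hx])]; ring
  have hb : ∀ x : P2, ∀ k ≤ j, ‖iteratedFDeriv ℝ k (fun y => η * pocket y + B y) x‖ ≤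
      η * (Bp + 1) := fun x k hk => by
    have h1 : ContDiffAt ℝ (k : ℕ∞ω) pocket x := (contDiff_pocket k).contDiffAt
    rw [fun_iteratedFDeriv_add_apply (contDiffAt_const.mul h1)
      (hB.of_le (by exact_mod_cast le_top)).contDiffAt]
    refine (norm_add_le _ _).trans ?_
    rw [show (fun y => η * pocket y) = η • pocket from rfl, iteratedFDeriv_const_smul_apply h1,
      norm_smul, Real.norm_eq_abs, abs_of_pos hη, mul_add, mul_one]
    exact add_le_add (mul_le_mul_of_nonneg_left (hpb x k hk) hη.le) (hBk x k hk)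
  obtain ⟨p1, p2, p3⟩ := shrink_spec (z₀ := z₀) (R := R) hφ hsupp hw0 hw1 (by linarith) hb
  obtain ⟨ζ, h1, h2, h3, h4, h5⟩ := hno _ p1 p2 fun x k hk => (p3 x k hk).trans hε
  obtain ⟨s1, e11, -, e22, s5⟩ := hscaled z₀ R w ζ hw0 hw1 hR h1
    (fun z hz k hk => (h2 z hz k hk).trans (le_max_left _ _)) h3
  exact ⟨_, s1, by rwa [e11, e22],
    s5 _ ((contDiff_const.mul (contDiff_pocket 2)).add (hB.of_le (by norm_cast))) h5⟩

/-- The body of `Core` once its constants are chosen. -/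
def CoreAt (T τ elo ehi K σ h Λ₀ C : ℝ) : Prop :=
  ∀ (e : ℝ) (P : Coef), e ∈ Set.Icc elo ehi → P.Good e τ K σ →
  ∀ (n : ℕ) (Λ μ δ slope : ℝ) (t d : Fin n → ℝ) (q g w : P2 → ℝ),
    Λ₀ ≤ Λ → 0 ≤ μ → 0 ≤ δ → |slope| ≤ T →
    (∀ i, |t i| ≤ Real.sqrt elo / (50 * (1 + T))) →
    (∀ i k, i ≠ k → 16 * (1 + T) / Λ ≤ |t i - t k|) →
    (∀ i, d i = -1 ∨ d i = 0 ∨ d i = 1) →
    ContDiff ℝ 1 q →
    (∀ x ∈ Dsk (3/2), 1 / K ≤ q x ∧ q x ≤ K ∧ |d1 q x| ≤ K ∧ |d2 q x| ≤ K) →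
    Continuous g → (∀ x, |g x| ≤ K * μ * Λ) →
    (∀ x, (∀ i, d i = 0 ∨ 1 < rsq (Λ * (x.1 - t i), Λ * (x.2 - slope * t i))) → g x = 0) →
    ContDiff ℝ 3 w →
    (∀ x ∈ Dsk (3/2),
      P.op w x = q x * lap (combB μ Λ (fun i => (t i, slope * t i)) d) x + g x) →
    DataSmall σ h δ w →
    μ * active d ≤ C * δ * Λ ^ 4

/-- A pair with close data forces a lower bound on the closeness. -/
lemma pair_bound {C₀ CC w₂ T τ elo ehi σ h Λ₀ C Bb Λ μ ε₀ k sl : ℝ} {n m : ℕ} {t : Fin n → ℝ}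
    {di dk : Fin n → Bool} {p : Pair} {G G' : P2 → ℝ} (hC₀ : 1 ≤ C₀)
    (hcoef : ∀ p : Pair, p.Ok C₀ → p.w ≤ w₂ → ∀ σ, 0 ≤ σ → σ ≤ 1/10 → p.s ≤ σ * p.η * p.w →
      ∃ (P : Coef) (q g W : P2 → ℝ), P.Good (p.κ * p.η) (CC * p.w) CC σ ∧ ContDiff ℝ 1 q ∧
        (∀ x ∈ Dsk (3/2), p.κ / 4 ≤ q x ∧ q x ≤ 4 * p.κ ∧ |d1 q x| ≤ CC * p.κ ∧
          |d2 q x| ≤ CC * p.κ) ∧
        Continuous g ∧
        (∀ x, |g x| ≤ CC * p.κ * (|p.B' x - p.B x| + |d1 (fun y => p.B' y - p.B y) x| +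
          |d2 (fun y => p.B' y - p.B y) x|)) ∧
        (∀ x, (fun y => p.B' y - p.B y) =ᶠ[𝓝 x] (fun _ => 0) → g x = 0) ∧
        ContDiff ℝ 3 W ∧ (∀ x, rsq x < 9/5 → W x = p.Z x - p.Z' x) ∧
        ∀ x ∈ Dsk (3/2), P.op W x = q x * lap (fun y => p.B' y - p.B y) x + g x)
    (hcore : CoreAt T τ elo ehi (1 + CC + 4 * (C₀ * p.w ^ 2) +
      (4 + CC + 3 * CC * Bb) * (C₀ / p.w ^ 2)) σ h Λ₀ C)
    (hok : p.Ok C₀) (hw₂ : p.w ≤ w₂) (hτ : CC * p.w ≤ τ) (hσ0 : 0 ≤ σ) (hσ1 : σ ≤ 1/10)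
    (hs : p.s ≤ σ * p.η * p.w) (hΛ₀ : Λ₀ ≤ Λ) (hΛ1 : 1 ≤ Λ) (hμ : 0 ≤ μ) (hslope : |sl| ≤ T)
    (ht : ∀ l, |t l| ≤ Real.sqrt elo / (50 * (1 + T)))
    (hsep : ∀ l l', l ≠ l' → 16 * (1 + T) / Λ ≤ |t l - t l'|)
    (hqsep : ∀ l l', l ≠ l' → 4 / Λ ≤ ‖((t l, sl * t l) : P2) - (t l', sl * t l')‖)
    (hne : di ≠ dk)
    (hBi : p.B = combB μ Λ (fun l => (t l, sl * t l)) fun l => if di l then 1 else 0)
    (hBk : p.B' = combB μ Λ (fun l => (t l, sl * t l)) fun l => if dk l then 1 else 0)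
    (hBb : ∀ (n : ℕ) (μ Λ : ℝ) (q : Fin n → P2) (d : Fin n → ℝ), 0 ≤ μ → 0 < Λ →
      (∀ i k, i ≠ k → 4 / Λ ≤ ‖q i - q k‖) → (∀ i, |d i| ≤ 1) →
      ∀ x, ∀ l ≤ m + 7, ‖iteratedFDeriv ℝ l (combB μ Λ q d) x‖ ≤ Bb * μ * Λ ^ l)
    (helo : elo = p.η / (C₀ * p.w ^ 2)) (hehi : ehi = C₀ * p.η / p.w ^ 2)
    (hWG : ∀ x, rsq x < 2 → p.Z x - p.Z' x = k * (G x - G' x)) (hk : |k| ≤ C₀)
    (hG : ContDiffOn ℝ (⊤ : ℕ∞) G {x | rsq x < 2}) (hG' : ContDiffOn ℝ (⊤ : ℕ∞) G' {x | rsq x < 2})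
    (hann : ∀ x ∈ Ann (1 + σ/2) (1 + σ), |G x - G' x| ≤ ε₀ ∧ |d1 G x - d1 G' x| ≤ ε₀ ∧
      |d2 G x - d2 G' x| ≤ ε₀)
    (hcell : ∀ q : ℤ × ℤ, cell h q ⊆ Dsk (3/2) → |∫ x in cell h q, (G x - G' x)| ≤ ε₀) :
    μ ≤ C * (C₀ * ε₀) * Λ ^ 4 ∨ ε₀ < 0 := by
  rcases lt_or_ge ε₀ 0 with hε₀ | hε₀
  · exact Or.inr hε₀
  left
  obtain ⟨P, qc, g, W, hgood, hqs, hqb, hgc, hgb, hgz, hWs, hWeq, heq⟩ :=
    hcoef p hok hw₂ σ hσ0 hσ1 hs
  have hw0 := hok.w_pos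
  have hκ0 : 0 < p.κ := hok.κ_pos
  have hη0 := hok.η_pos
  have hΛ0 : 0 < Λ := by linarith
  set q : Fin n → P2 := fun l => (t l, sl * t l) with hq
  set d : Fin n → ℝ := fun l => (if dk l then 1 else 0) - (if di l then 1 else 0) with hd
  have hdv : ∀ l, d l = -1 ∨ d l = 0 ∨ d l = 1 := fun l => by
    simp only [hd]
    cases di l <;> cases dk l <;> norm_num
  have hd1 : ∀ l, |d l| ≤ 1 := fun l => by rcases hdv l with h | h | h <;> simp [h]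
  have hBd : (fun y => p.B' y - p.B y) = combB μ Λ q d := by
    funext y; rw [hBi, hBk]; exact combB_sub _ y
  have hκb : p.κ ≤ C₀ / p.w ^ 2 := hok.κ_hi
  set κb : ℝ := C₀ / p.w ^ 2
  have hκb0 : 0 ≤ κb := hκ0.le.trans hκb
  set K : ℝ := 1 + CC + 4 * (C₀ * p.w ^ 2) + (4 + CC + 3 * CC * Bb) * κb with hK
  have hCC0 : 0 ≤ CC := by
    have h := (hgood.kb 0 0 (Nat.zero_le _))
    exact (norm_nonneg _).trans h
  have hBb0 : 0 ≤ Bb := by
    have h := hBb 0 1 1 Fin.elim0 Fin.elim0 zero_le_one one_pos (fun i => i.elim0)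
      (fun i => i.elim0) 0 0 (Nat.zero_le _)
    simpa using (norm_nonneg _).trans h
  have hK0 : 0 ≤ 4 * (C₀ * p.w ^ 2) ∧ 0 ≤ CC * κb ∧ 0 ≤ 3 * CC * Bb * κb :=
    ⟨by positivity, by positivity, by positivity⟩
  have hKe : K = 1 + CC + 4 * (C₀ * p.w ^ 2) + 4 * κb + CC * κb + 3 * CC * Bb * κb := by
    rw [hK]; ring
  have he : p.κ * p.η ∈ Set.Icc elo ehi := by
    constructor
    · calc elo = 1 / (C₀ * p.w ^ 2) * p.η := by rw [helo]; ring
        _ ≤ p.κ * p.η := mul_le_mul_of_nonneg_right hok.κ_lo hη0.le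
    · calc p.κ * p.η ≤ C₀ / p.w ^ 2 * p.η := mul_le_mul_of_nonneg_right hok.κ_hi hη0.le
        _ = ehi := by rw [hehi]; ring
  have hsmall : ∀ {v : ℝ}, |v| ≤ ε₀ → |k * v| ≤ C₀ * ε₀ := fun hv => abs_mul_le' hk hv
  have hW' : ∀ x, rsq x < 9/5 → W x = k * (G x - G' x) := fun x hx =>
    (hWeq x hx).trans (hWG x (by linarith))
  have hdata : DataSmall σ h (C₀ * ε₀) W := by
    refine ⟨fun x hx => ?_, fun qq hqq => ?_⟩
    · have hx2 : rsq x < 9/5 := by linarith [hx.2]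
      have hev : W =ᶠ[𝓝 x] fun y => k * (G y - G' y) :=
        eventually_of_mem ((isOpen_lt continuous_rsq continuous_const).mem_nhds hx2) hW'
      obtain ⟨e1, e2, -⟩ := dd_congr hev
      obtain ⟨g0, g1, g2⟩ := hann x hx
      have hmem : {y : P2 | rsq y < 2} ∈ 𝓝 x :=
        (isOpen_lt continuous_rsq continuous_const).mem_nhds (show rsq x < 2 by linarith)
      have di1 := (hG.contDiffAt hmem).differentiableAt (by simp)
      have dk1 := (hG'.contDiffAt hmem).differentiableAt (by simp)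
      refine ⟨by rw [hW' x hx2]; exact hsmall g0, ?_, ?_⟩
      · rw [e1, d1_const_mul _ (di1.fun_sub dk1), d1_sub di1 dk1]; exact hsmall g1
      · rw [e2, d2_const_mul _ (di1.fun_sub dk1), d2_sub di1 dk1]; exact hsmall g2
    · have hm : MeasurableSet (cell h qq) := measurableSet_Icc.prod measurableSet_Icc
      have e : ∫ x in cell h qq, W x = ∫ x in cell h qq, k * (G x - G' x) :=
        setIntegral_congr_fun hm fun x hx => hW' x (by
          have : rsq x ≤ 3/2 := hqq hx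
          linarith)
      rw [e, integral_const_mul]
      exact hsmall (hcell qq hqq)
  have main := hcore (p.κ * p.η) P he (good_mono hgood (by positivity) hτ (by linarith)) n Λ μ
    (C₀ * ε₀) sl t d qc g W hΛ₀ hμ (by positivity) hslope ht hsep hdv hqs
    (fun x hx => by
      obtain ⟨q1, q2, q3, q4⟩ := hqb x hx
      have hmul := mul_le_mul_of_nonneg_left hκb hCC0
      refine ⟨le_trans ?_ q1, q2.trans ?_, q3.trans ?_, q4.trans ?_⟩
      · refine le_trans ?_ (div_le_div_of_nonneg_right hok.κ_lo (by norm_num))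
        rw [div_div]
        exact one_div_le_one_div_of_le (by positivity) (by linarith)
      all_goals linarith)
    hgc
    (fun x => by
      refine (hgb x).trans ?_
      rw [show p.B' x - p.B x = combB μ Λ q d x from congrFun hBd x, hBd]
      obtain ⟨a1, a2⟩ := abs_pd_le (combB μ Λ q d) x
      have b0 := hBb n μ Λ q d hμ hΛ0 hqsep hd1 x 0 (Nat.zero_le _)
      have b1 := hBb n μ Λ q d hμ hΛ0 hqsep hd1 x 1 (by omega)
      rw [norm_iteratedFDeriv_zero, Real.norm_eq_abs, pow_zero, mul_one] at b0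
      rw [pow_one] at b1
      have b0' : |combB μ Λ q d x| ≤ Bb * μ * Λ :=
        b0.trans (le_mul_of_one_le_right (by positivity) hΛ1)
      calc CC * p.κ * (|combB μ Λ q d x| + |d1 (combB μ Λ q d) x| + |d2 (combB μ Λ q d) x|)
          ≤ CC * κb * (3 * (Bb * μ * Λ)) := by
            refine mul_le_mul (mul_le_mul_of_nonneg_left hκb hCC0) ?_ (by positivity)
              (by positivity)
            linarith [a1.trans b1, a2.trans b1]
        _ = 3 * CC * Bb * κb * (μ * Λ) := by ring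
        _ ≤ K * (μ * Λ) := by
            refine mul_le_mul_of_nonneg_right ?_ (by positivity)
            linarith
        _ = K * μ * Λ := (mul_assoc _ _ _).symm)
    (fun x hx => hgz x (by rw [hBd]; exact combB_eventually_zero hx))
    hWs (fun x hx => by rw [heq x hx, hBd]) hdata
  obtain ⟨l, hl⟩ := Function.ne_iff.1 hne
  have hact : 1 ≤ active d := by
    refine le_trans (le_of_eq ?_)
      (Finset.single_le_sum (fun m _ => sq_nonneg (d m)) (Finset.mem_univ l))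
    simp only [hd]
    revert hl
    cases di l <;> cases dk l <;> simp
  exact (le_mul_of_one_le_right hμ hact).trans main

lemma exists_scale {w₁ w₂ R τ CC C₁ : ℝ} (hw₁ : 0 < w₁) (hw₂ : 0 < w₂) (hR : 0 < R) (hτ : 0 < τ)
    (hCC : 0 < CC) :
    ∃ w : ℝ, 0 < w ∧ w ≤ 1 ∧ w ≤ w₁ ∧ w ≤ w₂ ∧ w ≤ R / 8 ∧ CC * w ≤ τ ∧
      w ^ 2 * (3 + 24 * C₁ ^ 2) ≤ 1 := by
  obtain ⟨w, hw0, hw1, h1, h2, hwR, hwτ, hwC⟩ : ∃ w : ℝ, 0 < w ∧ w ≤ 1 ∧ w ≤ w₁ ∧ w ≤ w₂ ∧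
      w ≤ R / 8 ∧ w ≤ τ / CC ∧ w ≤ 1 / (3 + 24 * C₁ ^ 2) :=
    ⟨min 1 (min w₁ (min w₂ (min (R/8) (min (τ/CC) (1/(3 + 24 * C₁ ^ 2)))))), by positivity,
      by simp, by simp, by simp, by simp, by simp, by simp⟩
  rw [le_div_iff₀ (by positivity)] at hwC
  rw [le_div_iff₀ hCC, mul_comm] at hwτ
  have : w ^ 2 ≤ w := by simpa using pow_le_of_le_one hw0.le hw1 two_ne_zero
  exact ⟨w, hw0, hw1, h1, h2, hwR, hwτ,
    (mul_le_mul_of_nonneg_right this (by positivity)).trans hwC⟩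

lemma exists_size {w ε Bp e₀ C₀ : ℝ} (hw : 0 < w) (hε : 0 < ε) (hBp : 0 ≤ Bp) (he₀ : 0 < e₀)
    (hC₀ : 1 ≤ C₀) (j : ℕ) :
    ∃ η : ℝ, 0 < η ∧ η ≤ w ^ 3 ∧ η ≤ ε / ((2 / w) ^ j * (Bp + 1)) ∧ η ≤ 1 / (2 * (Bp + 1)) ∧
      0 < η / (C₀ * w ^ 2) ∧ η / (C₀ * w ^ 2) ≤ C₀ * η / w ^ 2 ∧
      C₀ * η / w ^ 2 ≤ min e₀ 1 := by
  obtain ⟨η, hη, h1, h2, h3, h4⟩ : ∃ η : ℝ, 0 < η ∧ η ≤ w ^ 3 ∧
      η ≤ ε / ((2 / w) ^ j * (Bp + 1)) ∧ η ≤ 1 / (2 * (Bp + 1)) ∧ η ≤ w ^ 2 * min e₀ 1 / C₀ :=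
    ⟨min (w ^ 3) (min (ε / ((2 / w) ^ j * (Bp + 1))) (min (1 / (2 * (Bp + 1)))
      (w ^ 2 * min e₀ 1 / C₀))), by positivity, by simp, by simp, by simp, by simp⟩
  refine ⟨η, hη, h1, h2, h3, by positivity, ?_, ?_⟩
  · rw [div_le_div_iff₀ (by positivity) (by positivity)]
    calc η * w ^ 2 = 1 * (η * w ^ 2) := (one_mul _).symm
      _ ≤ (C₀ * C₀) * (η * w ^ 2) :=
          mul_le_mul_of_nonneg_right (one_le_mul_of_one_le_of_one_le hC₀ hC₀) (by positivity)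
      _ = C₀ * η * (C₀ * w ^ 2) := by ring
  · rw [div_le_iff₀ (by positivity)]
    rw [le_div_iff₀ (by linarith)] at h4
    linarith

/-- Evenly spaced centres in a short segment. -/
lemma exists_centres {L D Λ : ℝ} (hL : 0 < L) (hD : 0 < D) (hΛ : 0 < Λ) :
    ∃ (n : ℕ) (t : Fin n → ℝ), L / D * Λ ≤ n ∧ (∀ i, |t i| ≤ L) ∧
      ∀ i k, i ≠ k → D / Λ ≤ |t i - t k| := by
  refine ⟨⌊L * Λ / D⌋₊ + 1, fun i => (i : ℕ) * D / Λ, ?_, fun i => ?_, fun i k hik => ?_⟩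
  · have := (Nat.lt_floor_add_one (L * Λ / D)).le
    push_cast
    rw [div_mul_eq_mul_div]
    exact this
  · rw [abs_of_nonneg (by positivity)]
    have h1 : ((i : ℕ) : ℝ) ≤ L * Λ / D :=
      le_trans (by exact_mod_cast (by omega : (i : ℕ) ≤ ⌊L * Λ / D⌋₊))
        (Nat.floor_le (by positivity))
    rw [le_div_iff₀ hD] at h1
    rwa [div_le_iff₀ hΛ]
  · have h1 : (1 : ℝ) ≤ |((i : ℕ) : ℝ) - ((k : ℕ) : ℝ)| := by
      rcases Nat.lt_or_gt_of_ne (fun h => hik (Fin.ext h)) with h | h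
      · have : ((i : ℕ) : ℝ) + 1 ≤ (k : ℕ) := by exact_mod_cast h
        rw [abs_sub_comm, abs_of_nonneg (by linarith)]; linarith
      · have : ((k : ℕ) : ℝ) + 1 ≤ (i : ℕ) := by exact_mod_cast h
        rw [abs_of_nonneg (by linarith)]; linarith
    rw [← sub_div, ← sub_mul, abs_div, abs_mul, abs_of_pos hD, abs_of_pos hΛ]
    exact div_le_div_of_nonneg_right (le_mul_of_one_le_left hD.le h1) hΛ.le

lemma spacing_bounds {T : ℝ} (hT : 0 ≤ T) :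
    4 ≤ 16 * (1 + T) ^ 2 ∧ 16 * (1 + T) * T ≤ 16 * (1 + T) ^ 2 :=
  ⟨by nlinarith, by nlinarith⟩

/-- The scale of the normalised curvature. -/
lemma kappa_bounds {w C₀ ν : ℝ} (hw : 0 < w) (hC₀ : 1 ≤ C₀) (h1 : ν ^ 2 ≤ C₀)
    (h2 : 1 / C₀ ≤ ν ^ 2) :
    1 / (C₀ * w ^ 2) ≤ (w ^ 2)⁻¹ / ν ^ 2 ∧ (w ^ 2)⁻¹ / ν ^ 2 ≤ C₀ / w ^ 2 := by
  have hν : 0 < ν ^ 2 := lt_of_lt_of_le (by positivity) h2
  rw [inv_eq_one_div, div_div, mul_comm C₀ (w ^ 2)]
  refine ⟨one_div_le_one_div_of_le (by positivity) (mul_le_mul_of_nonneg_left h1 (by positivity)),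
    ?_⟩
  rw [div_le_iff₀ (by linarith)] at h2
  rw [div_le_div_iff₀ (by positivity) (by positivity)]
  calc 1 * w ^ 2 ≤ (ν ^ 2 * C₀) * w ^ 2 := mul_le_mul_of_nonneg_right h2 (by positivity)
    _ = C₀ * (w ^ 2 * ν ^ 2) := by ring

/-- The island lemma. -/
theorem islandLemma_of (hSea : SeaRegularity) (hCore : Core) : IslandLemma := by
  intro z₀ R c M ε j u hR hc hε
  by_contra hno
  push Not at hno
  -- constants of the normal form
  obtain ⟨C₁, hC₁, hscaled⟩ := exists_scaled_bound (max M 0) (le_max_right _ _)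
  obtain ⟨CN, T, w₁, hCN, hT, hw₁, hframe⟩ := exists_normal_frame c C₁ hc
  set C₀ : ℝ := max (max CN (CN ^ 2)) 1 with hC₀d
  have hC₀ : 1 ≤ C₀ := le_max_right _ _
  have hCN0 : CN ≤ C₀ := (le_max_left _ _).trans (le_max_left _ _)
  have hCN2 : CN ^ 2 ≤ C₀ := (le_max_right _ _).trans (le_max_left _ _)
  obtain ⟨CC, w₂, hCC, hw₂, hcoef⟩ := exists_coef C₀
  obtain ⟨τ, e₀, hτ, he₀, hcore⟩ := hCore T (by linarith)
  -- the scale
  obtain ⟨w, hw0, hw1, hww₁, hww₂, hwR, hCCw, hwC2⟩ :=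
    exists_scale hw₁ hw₂ hR hτ (C₁ := C₁) (lt_of_lt_of_le one_pos hCC)
  -- the pocket size
  obtain ⟨Bp, hBp, hpb⟩ := exists_pocket_bound j
  obtain ⟨η, hη0, hη3, hηε, hηP, helo, hlohi, hehi⟩ := exists_size hw0 hε hBp he₀ hC₀ j
  set elo : ℝ := η / (C₀ * w ^ 2) with helod
  set ehi : ℝ := C₀ * η / w ^ 2 with hehid
  -- the bumps
  obtain ⟨Bb, hBb0, hBb⟩ := combB_bound (j + 7)
  set κb : ℝ := C₀ / w ^ 2 with hκb
  have hκb0 : 0 ≤ κb := by positivity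
  set K : ℝ := 1 + CC + 4 * (C₀ * w ^ 2) + (4 + CC + 3 * CC * Bb) * κb with hKd
  have hK1 : 1 ≤ K := by
    have : 0 ≤ 4 * (C₀ * w ^ 2) + (4 + CC + 3 * CC * Bb) * κb := by positivity
    linarith
  obtain ⟨σ, h, Λc, Cc, hσ0, hσ1, hh, hΛc, hCc, hcore⟩ :=
    hcore elo ehi K helo hlohi (hehi.trans (min_le_left _ _)) hK1
  set s : ℝ := σ * η * w with hsd
  have hs0 : 0 < s := by positivity
  have hsηw : s ≤ η * w := by
    rw [hsd, mul_assoc]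
    exact mul_le_of_le_one_left (by positivity) (by linarith)
  have hsη : s ≤ η := hsηw.trans (mul_le_of_le_one_right hη0.le hw1)
  -- the sea
  set a : ℕ := j + 13 with had
  obtain ⟨Cs, hCs⟩ := hSea (fun y => η * pocket y) (w ^ 2)⁻¹ (1 + σ/6) (1 + 2*σ) (1 + σ/4)
    (1 + 3*σ/2) (256 * C₁) (η * (σ/6)) (8 * a) (contDiff_const.mul contDiff_pocket_top)
    (by positivity) (by linarith) (by linarith) (by linarith) (by linarith) (by linarith)
  set L : ℝ := √elo / (50 * (1 + T)) with hLd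
  have hL : 0 < L := by positivity
  have hL4 : L ≤ 1/4 := by
    have h1 : √elo ≤ 1 := Real.sqrt_le_one.2 (hlohi.trans (hehi.trans (min_le_right _ _)))
    rw [hLd, div_le_iff₀ (by positivity)]
    linarith
  set D : ℝ := 16 * (1 + T) ^ 2 with hDd
  have hD0 : 0 < D := by positivity
  obtain ⟨Λb, hΛb, hbuck⟩ := buckets (1 + σ/4) (1 + σ/2) (1 + σ) (1 + 3*σ/2) h C₁
    (max Cs C₁) s (L / D) (8 * a) a (by linarith) (by linarith) (by linarith) (by linarith) hh hs0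
    (by positivity) (by omega) le_rfl (by omega)
  -- the frequency
  obtain ⟨Λ, hΛ2, hΛb', hΛc', hΛs, hΛC⟩ : ∃ Λ : ℝ, 2 ≤ Λ ∧ Λb ≤ Λ ∧ Λc ≤ Λ ∧ Bb / s ≤ Λ ∧
      Cc * C₀ < Λ :=
    ⟨2 + |Λb| + |Λc| + |Bb / s| + |Cc * C₀|, by
      have := abs_nonneg Λb; have := abs_nonneg Λc; have := abs_nonneg (Bb / s)
      have := abs_nonneg (Cc * C₀)
      refine ⟨?_, ?_, ?_, ?_, ?_⟩ <;>
        linarith [le_abs_self Λb, le_abs_self Λc, le_abs_self (Bb / s), le_abs_self (Cc * C₀)]⟩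
  have hΛ0 : 0 < Λ := by linarith
  have hΛ1 : 1 ≤ Λ := by linarith
  set μ : ℝ := (Λ ^ (j + 8))⁻¹ with hμd
  have hμ : 0 < μ := by positivity
  obtain ⟨n, t, hn, ht, hsep⟩ := exists_centres hL hD0 hΛ0
  have hD4 : 4 ≤ D ∧ 16 * (1 + T) * T ≤ D := spacing_bounds (by linarith)
  let B : (Fin n → Bool) → P2 → ℝ := fun i =>
    combB μ Λ (fun l => row u (t l)) fun l => if i l then 1 else 0
  have hd01 : ∀ (i : Fin n → Bool) (l : Fin n), |(if i l then 1 else 0 : ℝ)| ≤ 1 := fun i l => by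
    split_ifs <;> simp
  have hμk : ∀ k ≤ j + 7, Bb * μ * Λ ^ k ≤ s := fun k hk => by
    rw [div_le_iff₀ hs0] at hΛs
    calc Bb * μ * Λ ^ k ≤ Bb * μ * Λ ^ (j + 7) := by gcongr
      _ = Bb / Λ := by rw [hμd, pow_succ Λ (j + 7)]; field_simp
      _ ≤ s := by rw [div_le_iff₀ hΛ0]; linarith
  have hrowsep : ∀ l m, l ≠ m → 4 / Λ ≤ ‖row u (t l) - row u (t m)‖ := fun l m hlm => by
    refine ((div_le_div_of_nonneg_right hD4.1 hΛ0.le).trans (hsep l m hlm)).trans_eq ?_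
    cases u <;> simp [row, Prod.norm_def]
  have hBk : ∀ i x, ∀ k ≤ j + 7, ‖iteratedFDeriv ℝ k (B i) x‖ ≤ s := fun i x k hk =>
    (hBb n μ Λ _ _ hμ.le hΛ0 hrowsep (hd01 i) x k hk).trans (hμk k hk)
  have hrowrsq : ∀ l, rsq (row u (t l)) ≤ 1/16 := fun l => by
    have := pow_le_pow_left₀ (abs_nonneg _) ((ht l).trans hL4) 2
    rw [sq_abs] at this
    cases u <;> simp [row, rsq] <;> linarith
  have hBfar : ∀ i x, 2 < ‖x‖ → B i x = 0 := fun i x hx =>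
    (combB_eventually_zero fun l => Or.inr (far_from_row hΛ2 (hrowrsq l)
      (by linarith [rsq_of_norm hx]))).self_of_nhds
  -- the height functions
  have hZ : ∀ i, ∃ Z : P2 → ℝ, IsZ C₁ w Z ∧
      (c ≤ if u then |d2 (d2 Z) 0| else |d1 (d1 Z) 0|) ∧
      ∀ x ∈ Metric.closedBall (0 : P2) 3,
        Darboux (w ^ 2)⁻¹ (fun y => η * pocket y + B i y) Z x := fun i =>
    exists_height hscaled hno hw0 hw1 (by linarith) hη0 hpb
      (by rw [le_div_iff₀ (by positivity)] at hηε; linarith) (contDiff_combB_top _ _ _ _)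
      (fun x k hk => (hBk i x k (by omega)).trans hsη) (hBfar i)
  choose Z hZs hZu hZD using hZ
  have hφ2 : ∀ i, ContDiff ℝ 2 fun y => η * pocket y + B i y := fun i =>
    (contDiff_const.mul (contDiff_pocket 2)).add (contDiff_combB μ Λ _ _ 2)
  obtain ⟨S, hSne, hclose, hpair⟩ := hbuck Λ hΛb' n hn (Fin n → Bool) (by simp) Z
    (fun i => (hZs i).smooth) (fun i x hx l hl => (hZs i).bnd x hx l (by omega))
  obtain ⟨i₀, hi₀⟩ := hSne
  obtain ⟨α, β, ν, hrot, hα, hβ, hνlo, hνhi, hZn⟩ := hframe w η s hw0 hww₁ hη0 hη3 hs0.le hsη u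
    (B i₀) (Z i₀) (contDiff_combB μ Λ _ _ 2) (fun x k hk => hBk i₀ x k (by omega)) (hZs i₀)
    (hZD i₀ 0 (Metric.mem_closedBall_self (by norm_num))) (hZu i₀)
  -- the row in the rotated frame
  obtain ⟨hslope, hq⟩ := row_frame (u := u) hrot (by linarith) hα hβ
  set sl : ℝ := rowSlope u α β with hsl
  let t' : Fin n → ℝ := fun l => abscissa u α β (t l)
  let q : Fin n → P2 := fun l => (t' l, sl * t' l)
  have hBq : ∀ i x, B i (rotL α β x) = combB μ Λ q (fun l => if i l then 1 else 0) x := fun i x => by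
    rw [← combB_rot hrot q x]
    show combB μ Λ (fun l => row u (t l)) _ _ = _
    congr 1
    funext l
    exact ((hq (t l) (t l)).1).symm
  have hqrsq : ∀ l, rsq (q l) ≤ 1/16 := fun l => by
    have := pow_le_pow_left₀ (abs_nonneg _) ((ht l).trans hL4) 2
    rw [sq_abs] at this
    show rsq (abscissa u α β (t l), sl * abscissa u α β (t l)) ≤ _
    rw [(hq (t l) (t l)).2.1]
    linarith
  have hsep' : ∀ l m, l ≠ m → 16 * (1 + T) / Λ ≤ |t' l - t' m| := fun l m hlm => by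
    have h1 := (hsep l m hlm).trans (hq (t l) (t m)).2.2.2
    have h2 := (div_le_div_of_nonneg_right hD4.2 hΛ0.le).trans h1
    rw [mul_div_right_comm, mul_comm _ T] at h2
    exact le_of_mul_le_mul_left h2 (by linarith)
  have hqsep : ∀ l m, l ≠ m → 4 / Λ ≤ ‖q l - q m‖ := fun l m hlm =>
    ((div_le_div_of_nonneg_right (by linarith) hΛ0.le).trans (hsep' l m hlm)).trans
      (le_max_left _ _)
  have hsea : ∀ i ∈ S, _ := fun i hi => sea_member (B := B i) (σ := σ) (P₀ := Bp) hw0 hrot (hZs i)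
    (contDiff_combB μ Λ _ _ 2) (hBq i) hqrsq hΛ2 hη0.le hσ0.le hσ1
    (fun x => by simpa using hpb x 0 (Nat.zero_le _))
    (by
      rw [le_div_iff₀ (by positivity)] at hηP
      linarith)
    hwC2 (fun x hx => hZD i x (Metric.closedBall_subset_closedBall (by norm_num) hx))
  have hint : interior (Ann (1 + σ/4) (1 + 3*σ/2)) ⊆ Ann (1 + σ/4) (1 + 3*σ/2) := interior_subset
  have hsub2 : ∀ x ∈ Dsk (3/2), rsq x < 2 := fun x hx => by
    have : rsq x ≤ 3/2 := hx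
    linarith
  -- the pigeonhole
  obtain ⟨i, hiS, k, hkS, hik, hann, hcell⟩ := hpair (fun i => normed 1 α β (Z i))
    (fun i hi => (hsea i hi).1.mono fun x hx => by
      show rsq x < 2
      linarith [(hint hx).2])
    (fun i hi x hx l hl => (hCs _ (hsea i hi).1 (hsea i hi).2.1 (hsea i hi).2.2.1
      (hsea i hi).2.2.2 x (hint hx) l hl).trans (le_max_left _ _))
    (fun i hi => ((hsea i hi).1.continuousOn).mono fun x hx => hsub2 x hx)
    (fun i hi x hx => by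
      have hm := Metric.ball_subset_closedBall
        (rot_mem hrot (rot_mem_two hrot (hsub2 x hx)).2)
      have := ((hZs i).bnd _ hm 0 (Nat.zero_le _)).trans (le_max_right Cs C₁)
      rw [norm_iteratedFDeriv_zero, Real.norm_eq_abs] at this
      simpa [normed] using this)
  -- the pair and its coefficients
  obtain ⟨si, bi, di, Di⟩ := hZn (Z i) (hZs i) (hclose i hiS i₀ hi₀)
  obtain ⟨sk, bk, -, Dk⟩ := hZn (Z k) (hZs k) (hclose k hkS i₀ hi₀)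
  have hν0 : 0 < |ν| := lt_of_lt_of_le (by positivity) hνlo
  have hνinv : |ν|⁻¹ ≤ C₀ := by
    refine le_trans ?_ hCN0
    rw [inv_le_comm₀ hν0 hCN, ← one_div]
    exact hνlo
  have hν2 : ν ^ 2 ≤ C₀ ∧ 1 / C₀ ≤ ν ^ 2 := by
    have h1 := pow_le_pow_left₀ (abs_nonneg ν) hνhi 2
    have h2 := pow_le_pow_left₀ (by positivity) hνlo 2
    rw [sq_abs] at h1 h2
    refine ⟨h1.trans hCN2, le_trans ?_ h2⟩
    rw [div_pow, one_pow]
    exact one_div_le_one_div_of_le (by positivity) hCN2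
  let p : Pair := ⟨w, η, s, (w ^ 2)⁻¹ / ν ^ 2, combB μ Λ q (fun l => if i l then 1 else 0),
    combB μ Λ q (fun l => if k l then 1 else 0), normed ν α β (Z i), normed ν α β (Z k)⟩
  have hν2pos : 0 < ν ^ 2 := lt_of_lt_of_le (by positivity) hν2.2
  have hpκ : 1 / (C₀ * w ^ 2) ≤ p.κ ∧ p.κ ≤ C₀ / w ^ 2 := kappa_bounds hw0 hC₀ hν2.1 hν2.2
  have hnear : ∀ (i : Fin n → Bool) (x : P2), ∀ m ≤ j + 7,
      ‖iteratedFDeriv ℝ m (combB μ Λ q fun l => if i l then 1 else 0) x‖ ≤ s := fun i x m hm =>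
    (hBb n μ Λ _ _ hμ.le hΛ0 hqsep (hd01 i) x m hm).trans (hμk m hm)
  have hrotφ : ∀ i : Fin n → Bool, (fun y => η * pocket (rotL α β y) + B i (rotL α β y)) =
      fun y => η * pocket y + combB μ Λ q (fun l => if i l then 1 else 0) y := fun i => by
    funext y; rw [pocket_rot hrot, hBq]
  have hok : p.Ok C₀ :=
    { one_le := hC₀
      w_pos := hw0
      w_le := hw1
      η_pos := hη0
      η_le := hη3
      s_nonneg := hs0.le
      s_le := hsηw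
      κ_lo := hpκ.1
      κ_hi := hpκ.2
      hB := contDiff_combB μ Λ _ _ 7
      hB' := contDiff_combB μ Λ _ _ 7
      hBb := fun x m hm => hnear i x m (by omega)
      hBb' := fun x m hm => hnear k x m (by omega)
      hZ := si.of_le (by norm_cast)
      hZ' := sk.of_le (by norm_cast)
      hZb := fun x hx m hm => (bi x hx m hm).trans (mul_le_mul_of_nonneg_right hCN0 hw0.le)
      hZb' := fun x hx m hm => (bk x hx m hm).trans (mul_le_mul_of_nonneg_right hCN0 hw0.le)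
      hW := fun x hx m hm => (di (Z k) (hZs k) (hclose k hkS i₀ hi₀) x hx m hm).trans
        (mul_le_mul_of_nonneg_right hCN0 hs0.le)
      hD := fun x hx => by
        have := Di _ (hφ2 i)
          (fun y hy => hZD i y (Metric.closedBall_subset_closedBall (by norm_num) hy)) x hx
        rwa [hrotφ i] at this
      hD' := fun x hx => by
        have := Dk _ (hφ2 k)
          (fun y hy => hZD k y (Metric.closedBall_subset_closedBall (by norm_num) hy)) x hx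
        rwa [hrotφ k] at this }
  have hd : ∀ x, rsq x < 2 → p.Z x - p.Z' x =
      ν⁻¹ * (normed 1 α β (Z i) x - normed 1 α β (Z k) x) := fun x _ => by
    simp only [p, normed]
    ring
  have h1 := pair_bound (p := p) (T := T) (τ := τ) (elo := elo) (ehi := ehi) (σ := σ) (h := h)
    (Λ₀ := Λc) (C := Cc) (Bb := Bb) hC₀ hcoef hcore hok hww₂ hCCw hσ0.le hσ1 le_rfl hΛc' hΛ1 hμ.le hslope
    (fun l => ((hq (t l) (t l)).2.2.1).trans (ht l)) hsep' hqsep hik rfl rfl hBb rfl rfl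
    hd (by rw [abs_inv]; exact hνinv) (hsea i hiS).1 (hsea k hkS).1 hann hcell
  replace h1 := h1.resolve_right (not_lt.2 (by positivity))
  rw [hμd, show Cc * (C₀ * (Λ ^ a)⁻¹) * Λ ^ 4 = Cc * C₀ * Λ⁻¹ * (Λ ^ (j + 8))⁻¹ by
    rw [had, show j + 13 = (j + 8) + 4 + 1 by omega, pow_add, pow_add, pow_one]; field_simp] at h1
  have h2 : 1 ≤ Cc * C₀ * Λ⁻¹ :=
    (le_mul_iff_one_le_left (by positivity)).1 h1
  rw [← div_eq_mul_inv, le_div_iff₀ hΛ0] at h2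
  linarith

end Vale.Agent.P229.Island
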