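import Vale.Agent.P229.Island.Affine
import Vale.Agent.P229.Island.Cutoffs
import Vale.Agent.P229.Keys.Close

/-!
# P229 seat E: scaled and normalised height functions

`scaled ζ z₀ w` is the zoom of `ζ` at a critical point; `normed ν α β Z` puts the Hessian of a
scaled height function into the form `diag (1, small)`.
-/

namespace Vale.Agent.P229.Island

open Filter
open scoped ContDiff Topology

/-- The zoom of `ζ` at `z₀` by the factor `w`, divided by `w ^ 2`. -/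
noncomputable def scaled (ζ : P2 → ℝ) (z₀ : P2) (w : ℝ) (x : P2) : ℝ :=
  (w ^ 2)⁻¹ * (ζ (sim z₀ w 1 0 x) - ζ z₀)

/-- The normalised function in the rotated frame. -/
noncomputable def normed (ν α β : ℝ) (Z : P2 → ℝ) (x : P2) : ℝ := ν⁻¹ * Z (rotL α β x)

/-- Bounds of a scaled height function. -/
structure IsZ (C w : ℝ) (Z : P2 → ℝ) : Prop where
  smooth : ∀ x ∈ Metric.closedBall (0 : P2) 3, ContDiffAt ℝ (⊤ : ℕ∞) Z x
  bnd : ∀ x ∈ Metric.closedBall (0 : P2) 3, ∀ k ≤ 8, ‖iteratedFDeriv ℝ k Z x‖ ≤ C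
  small : ∀ x ∈ Metric.closedBall (0 : P2) 3, ∀ k, 3 ≤ k → k ≤ 8 →
    ‖iteratedFDeriv ℝ k Z x‖ ≤ C * w
  zero : Z 0 = 0
  dzero : fderiv ℝ Z 0 = 0

lemma rotL_eq_sim (α β : ℝ) (x : P2) : rotL α β x = sim 0 1 α β x := by simp [sim]

/-- Second partials of an affine change of the values. -/
lemma dd_affine {G : P2 → ℝ} {x : P2} (hG : ContDiffAt ℝ 2 G x) (k c : ℝ) :
    d1 (fun y => k * (G y - c)) x = k * d1 G x ∧ d2 (fun y => k * (G y - c)) x = k * d2 G x ∧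
    d1 (d1 fun y => k * (G y - c)) x = k * d1 (d1 G) x ∧
    d1 (d2 fun y => k * (G y - c)) x = k * d1 (d2 G) x ∧
    d2 (d2 fun y => k * (G y - c)) x = k * d2 (d2 G) x := by
  obtain ⟨g1, g2⟩ := differentiableAt_d1 hG
  have e : ∀ᶠ y in 𝓝 x, d1 (fun y => k * (G y - c)) y = k * d1 G y ∧
      d2 (fun y => k * (G y - c)) y = k * d2 G y := by
    filter_upwards [hG.eventually (by simp)] with y hy
    have hd := hy.differentiableAt (by simp)
    simp [d1, d2, fderiv_const_mul (hd.sub_const c), fderiv_sub_const]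
  have ev1 : d1 (fun y => k * (G y - c)) =ᶠ[𝓝 x] fun y => k * d1 G y := e.mono fun y hy => hy.1
  have ev2 : d2 (fun y => k * (G y - c)) =ᶠ[𝓝 x] fun y => k * d2 G y := e.mono fun y hy => hy.2
  exact ⟨e.self_of_nhds.1, e.self_of_nhds.2,
    by rw [d1, ev1.fderiv_eq, ← d1.eq_def, d1_const_mul _ g1],
    by rw [d1, ev2.fderiv_eq, ← d1.eq_def, d1_const_mul _ g2],
    by rw [d2, ev2.fderiv_eq, ← d2.eq_def, d2_const_mul _ g2]⟩

/-- Darboux under a change of the scale of the values. -/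
lemma darboux_mul {φ Z : P2 → ℝ} {κ k : ℝ} {x : P2} (hZ : ContDiffAt ℝ 2 Z x)
    (h : Darboux κ φ Z x) : Darboux (k ^ 2 * κ) φ (fun y => k * Z y) x := by
  obtain ⟨e1, e2, e11, e12, e22⟩ := dd_affine hZ k 0
  simp only [sub_zero] at e1 e2 e11 e12 e22
  simp only [Darboux, H11, H12, H22, gradSq, e1, e2, e11, e12, e22] at h ⊢
  linear_combination k ^ 2 * h

/-- Descending by the mean value inequality. -/
lemma norm_iterated_le {g : P2 → ℝ} {r b b' : ℝ} {k : ℕ} {x : P2} (hb : 0 ≤ b)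
    (hg : ∀ y ∈ Metric.closedBall (0 : P2) r, ContDiffAt ℝ (⊤ : ℕ∞) g y)
    (h1 : ∀ y ∈ Metric.closedBall (0 : P2) r, ‖iteratedFDeriv ℝ (k + 1) g y‖ ≤ b)
    (h0 : ‖iteratedFDeriv ℝ k g 0‖ ≤ b') (hx : x ∈ Metric.closedBall (0 : P2) r) :
    ‖iteratedFDeriv ℝ k g x‖ ≤ b' + b * r := by
  have hr : ‖x‖ ≤ r := by rwa [Metric.mem_closedBall, dist_zero_right] at hx
  have h := (convex_closedBall (0 : P2) r).norm_image_sub_le_of_norm_fderiv_le
    (fun y hy => (hg y hy).differentiableAt_iteratedFDeriv (by exact_mod_cast WithTop.coe_lt_top k))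
    (fun y hy => (norm_fderiv_iteratedFDeriv (𝕜 := ℝ)).trans_le (h1 y hy))
    (Metric.mem_closedBall_self ((norm_nonneg x).trans hr)) hx
  rw [sub_zero] at h
  have := norm_le_norm_add_norm_sub' (iteratedFDeriv ℝ k g x) (iteratedFDeriv ℝ k g 0)
  have := h.trans (mul_le_mul_of_nonneg_left hr hb)
  linarith

/-- Scaled height functions are bounded, with small higher derivatives. -/
theorem exists_scaled_bound (M : ℝ) (hM : 0 ≤ M) :
    ∃ C : ℝ, 0 ≤ C ∧ ∀ (z₀ : P2) (R w : ℝ) (ζ : P2 → ℝ), 0 < w → w ≤ 1 → 4 * w ≤ R →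
      ContDiffOn ℝ (⊤ : ℕ∞) ζ (Metric.ball z₀ R) →
      (∀ z ∈ Metric.ball z₀ R, ∀ i ≤ 8, ‖iteratedFDeriv ℝ i ζ z‖ ≤ M) → fderiv ℝ ζ z₀ = 0 →
      IsZ C w (scaled ζ z₀ w) ∧
        d1 (d1 (scaled ζ z₀ w)) 0 = d1 (d1 ζ) z₀ ∧ d1 (d2 (scaled ζ z₀ w)) 0 = d1 (d2 ζ) z₀ ∧
        d2 (d2 (scaled ζ z₀ w)) 0 = d2 (d2 ζ) z₀ ∧
        ∀ φ : P2 → ℝ, ContDiff ℝ 2 φ →
          (∀ z ∈ Metric.ball z₀ R, Darboux 1 (fun z => φ (w⁻¹ • (z - z₀))) ζ z) →
          ∀ x ∈ Metric.closedBall (0 : P2) 3, Darboux (w ^ 2)⁻¹ φ (scaled ζ z₀ w) x := by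
  refine ⟨256 * M, by positivity, fun z₀ R w ζ hw hw1 hR hζ hb hd0 => ?_⟩
  have h10 : (1 : ℝ) ^ 2 + 0 ^ 2 = 1 := by norm_num
  have hS : ∀ x : P2, sim z₀ w 1 0 x = z₀ + w • x := fun x => by
    ext <;> simp [sim, rotL_apply]
  have hmem : ∀ x ∈ Metric.closedBall (0 : P2) 3, sim z₀ w 1 0 x ∈ Metric.ball z₀ R := by
    intro x hx
    rw [Metric.mem_closedBall, dist_zero_right] at hx
    rw [hS, Metric.mem_ball, dist_eq_norm, add_sub_cancel_left, norm_smul, Real.norm_eq_abs,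
      abs_of_pos hw]
    calc w * ‖x‖ ≤ w * 3 := mul_le_mul_of_nonneg_left hx hw.le
      _ < R := by linarith
  have hat : ∀ z ∈ Metric.ball z₀ R, ContDiffAt ℝ (⊤ : ℕ∞) ζ z := fun z hz =>
    hζ.contDiffAt (Metric.isOpen_ball.mem_nhds hz)
  have hsub : Metric.closedBall z₀ (3 * w) ⊆ Metric.ball z₀ R :=
    Metric.closedBall_subset_ball (by linarith)
  have hfd : ∀ z ∈ Metric.closedBall z₀ (3 * w), ‖fderiv ℝ ζ z‖ ≤ 3 * M * w := by
    intro z hz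
    have hzd : ‖z - z₀‖ ≤ 3 * w := by rwa [Metric.mem_closedBall, dist_eq_norm] at hz
    have h := (convex_closedBall z₀ (3 * w)).norm_image_sub_le_of_norm_fderiv_le (C := M)
      (fun y hy => (hat y (hsub hy)).fderiv_right (m := 1) (by norm_cast) |>.differentiableAt one_ne_zero)
      (fun y hy => by
        rw [← norm_iteratedFDeriv_one, norm_iteratedFDeriv_fderiv]
        exact hb y (hsub hy) 2 (by norm_num))
      (Metric.mem_closedBall_self (by positivity)) hz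
    rw [hd0, sub_zero] at h
    calc ‖fderiv ℝ ζ z‖ ≤ M * ‖z - z₀‖ := h
      _ ≤ M * (3 * w) := mul_le_mul_of_nonneg_left hzd hM
      _ = 3 * M * w := by ring
  have hmem' : ∀ x ∈ Metric.closedBall (0 : P2) 3,
      sim z₀ w 1 0 x ∈ Metric.closedBall z₀ (3 * w) := by
    intro x hx
    rw [Metric.mem_closedBall, dist_zero_right] at hx
    rw [hS, Metric.mem_closedBall, dist_eq_norm, add_sub_cancel_left, norm_smul, Real.norm_eq_abs,
      abs_of_pos hw, mul_comm 3 w]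
    exact mul_le_mul_of_nonneg_left hx hw.le
  have hval : ∀ x ∈ Metric.closedBall (0 : P2) 3, |scaled ζ z₀ w x| ≤ 9 * M := by
    intro x hx
    have hz := hmem' x hx
    have h := (convex_closedBall z₀ (3 * w)).norm_image_sub_le_of_norm_fderiv_le
      (fun y hy => (hat y (hsub hy)).differentiableAt (by simp)) hfd
      (Metric.mem_closedBall_self (by positivity)) hz
    rw [Real.norm_eq_abs] at h
    rw [scaled, abs_mul, abs_of_pos (show (0:ℝ) < (w ^ 2)⁻¹ by positivity)]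
    rw [Metric.mem_closedBall, dist_eq_norm] at hz
    calc (w ^ 2)⁻¹ * |ζ (sim z₀ w 1 0 x) - ζ z₀| ≤ (w ^ 2)⁻¹ * (3 * M * w * (3 * w)) := by
          refine mul_le_mul_of_nonneg_left (h.trans ?_) (by positivity)
          exact mul_le_mul_of_nonneg_left hz (by positivity)
      _ = 9 * M := by field_simp; ring
  have hcomp : ∀ x ∈ Metric.closedBall (0 : P2) 3,
      ContDiffAt ℝ (⊤ : ℕ∞) (fun y => ζ (sim z₀ w 1 0 y)) x := fun x hx =>
    (hat _ (hmem x hx)).comp x (contDiff_sim z₀ w 1 0).contDiffAt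
  have hsm : ∀ x ∈ Metric.closedBall (0 : P2) 3, ContDiffAt ℝ (⊤ : ℕ∞) (scaled ζ z₀ w) x :=
    fun x hx => contDiffAt_const.mul ((hcomp x hx).sub contDiffAt_const)
  have hder : ∀ x ∈ Metric.closedBall (0 : P2) 3, ∀ k, 1 ≤ k → k ≤ 8 → ∀ b : ℝ,
      ‖iteratedFDeriv ℝ k ζ (sim z₀ w 1 0 x)‖ ≤ b →
      ‖iteratedFDeriv ℝ k (scaled ζ z₀ w) x‖ ≤ (w ^ 2)⁻¹ * ((2 * w) ^ k * b) := by
    intro x hx k hk1 hk8 b hbk
    have hG : ContDiffAt ℝ (k : ℕ∞ω) (fun y => ζ (sim z₀ w 1 0 y)) x :=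
      (hcomp x hx).of_le (by exact_mod_cast le_top)
    have e : scaled ζ z₀ w = (w ^ 2)⁻¹ • fun y => ζ (sim z₀ w 1 0 y) + -ζ z₀ := by
      funext y; simp [scaled, sub_eq_add_neg]
    rw [e, iteratedFDeriv_const_smul_apply (hG.add contDiffAt_const),
      fun_iteratedFDeriv_add_apply hG contDiffAt_const, iteratedFDeriv_const_of_ne (by omega),
      Pi.zero_apply, add_zero, norm_smul, Real.norm_eq_abs,
      abs_of_pos (show (0:ℝ) < (w ^ 2)⁻¹ by positivity)]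
    refine mul_le_mul_of_nonneg_left ?_ (by positivity)
    exact (norm_iteratedFDeriv_sim_le Metric.isOpen_ball
      (hζ.of_le (by exact_mod_cast le_top)) (le_refl k) h10 hw.le (hmem x hx)).trans
      (mul_le_mul_of_nonneg_left hbk (by positivity))
  have hhigh : ∀ x ∈ Metric.closedBall (0 : P2) 3, ∀ k, 2 ≤ k → k ≤ 8 →
      ‖iteratedFDeriv ℝ k (scaled ζ z₀ w) x‖ ≤ 256 * M * w ^ (k - 2) := by
    intro x hx k hk hk8
    refine (hder x hx k (by omega) hk8 M (hb _ (hmem x hx) k hk8)).trans ?_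
    obtain ⟨l, rfl⟩ : ∃ l, k = l + 2 := ⟨k - 2, by omega⟩
    simp only [Nat.add_sub_cancel]
    have e : (w ^ 2)⁻¹ * ((2 * w) ^ (l + 2) * M) = 2 ^ (l + 2) * M * w ^ l := by
      rw [mul_pow, pow_add w]; field_simp
    rw [e]
    have h2 : (2 : ℝ) ^ (l + 2) ≤ 2 ^ 8 := pow_le_pow_right₀ one_le_two hk8
    have h3 : (2 : ℝ) ^ (l + 2) * M ≤ 256 * M :=
      mul_le_mul_of_nonneg_right (h2.trans_eq (by norm_num)) hM
    exact mul_le_mul_of_nonneg_right h3 (by positivity)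
  have h00 : (0 : P2) ∈ Metric.closedBall (0 : P2) 3 := Metric.mem_closedBall_self (by norm_num)
  have hsim0 : sim z₀ w 1 0 0 = z₀ := sim_zero _ _ _ _
  have hG2 : ContDiffAt ℝ 2 (fun y => ζ (sim z₀ w 1 0 y)) 0 :=
    (hcomp 0 h00).of_le (by norm_cast)
  have hZ2 : ContDiffAt ℝ 2 ζ (sim z₀ w 1 0 0) :=
    (hat _ (hmem 0 h00)).of_le (by norm_cast)
  obtain ⟨-, -, e11, e12, e22⟩ := dd_affine hG2 (w ^ 2)⁻¹ (ζ z₀)
  obtain ⟨g11, g12, g22⟩ := dd_sim hZ2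
  refine ⟨⟨hsm, fun x hx k hk => ?_, fun x hx k hk3 hk => ?_, ?_, ?_⟩, ?_, ?_, ?_,
    fun φ hφ hD x hx => ?_⟩
  · rcases (by omega : k = 0 ∨ k = 1 ∨ 2 ≤ k) with rfl | rfl | h2
    · rw [norm_iteratedFDeriv_zero, Real.norm_eq_abs]
      linarith [hval x hx]
    · refine (hder x hx 1 le_rfl (by norm_num) (3 * M * w) ?_).trans ?_
      · rw [norm_iteratedFDeriv_one]; exact hfd _ (hmem' x hx)
      · rw [show (w ^ 2)⁻¹ * ((2 * w) ^ 1 * (3 * M * w)) = 6 * M by field_simp; ring]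
        linarith
    · exact (hhigh x hx k h2 hk).trans
        (mul_le_of_le_one_right (by positivity) (pow_le_one₀ hw.le hw1))
  · exact (hhigh x hx k (by omega) hk).trans (mul_le_mul_of_nonneg_left
      (pow_le_of_le_one hw.le hw1 (by omega)) (by positivity))
  · simp [scaled, sim_zero]
  · rw [← norm_eq_zero]
    refine le_antisymm ?_ (norm_nonneg _)
    rw [← norm_iteratedFDeriv_one]
    refine (hder 0 h00 1 le_rfl (by norm_num) 0 ?_).trans (by simp)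
    rw [norm_iteratedFDeriv_one, hsim0, hd0, norm_zero]
  · show d1 (d1 fun y => (w ^ 2)⁻¹ * (ζ (sim z₀ w 1 0 y) - ζ z₀)) 0 = _
    rw [e11, g11, hsim0]; field_simp; ring
  · show d1 (d2 fun y => (w ^ 2)⁻¹ * (ζ (sim z₀ w 1 0 y) - ζ z₀)) 0 = _
    rw [e12, g12, hsim0]; field_simp; ring
  · show d2 (d2 fun y => (w ^ 2)⁻¹ * (ζ (sim z₀ w 1 0 y) - ζ z₀)) 0 = _
    rw [e22, g22, hsim0]; field_simp; ring
  · have hψ : ContDiff ℝ 2 fun z => φ (w⁻¹ • (z - z₀)) :=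
      hφ.comp ((contDiff_id.sub contDiff_const).const_smul w⁻¹)
    have h := darboux_sim (k := (w ^ 2)⁻¹) (c := ζ z₀) h10 hψ.contDiffAt
      ((hat _ (hmem x hx)).of_le (by norm_cast)) (hD _ (hmem x hx))
    have e1 : ((w ^ 2)⁻¹) ^ 2 * w ^ 2 = (w ^ 2)⁻¹ := by field_simp
    have e2 : (fun y => φ (w⁻¹ • (sim z₀ w 1 0 y - z₀))) = φ := by
      funext y
      rw [hS, add_sub_cancel_left, smul_smul, inv_mul_cancel₀ hw.ne', one_smul]
    rw [e1, e2] at h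
    exact h

/-- The frame of a nearly degenerate symmetric matrix with a definite corner. -/
lemma frame_alg {A B C K c D : ℝ} (hc : 0 < c) (hA : c ≤ |A|) (hAK : |A| ≤ K) (hBK : |B| ≤ K)
    (hΔ : |A * C - B ^ 2| ≤ D) (hD : D ≤ c ^ 2 / 2) :
    ∃ α β ν : ℝ, α ^ 2 + β ^ 2 = 1 ∧ c / (2 * K) ≤ |α| ∧
      ν = α ^ 2 * A + 2 * α * β * B + β ^ 2 * C ∧
      c ^ 2 / (2 * K) ≤ |ν| ∧ |ν| ≤ (2 * K ^ 2 + c ^ 2) / c ∧
      |-(α * β) * A + (α ^ 2 - β ^ 2) * B + α * β * C| ≤ K * D / c ^ 2 ∧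
      |β ^ 2 * A - 2 * α * β * B + α ^ 2 * C| ≤ K * D / c ^ 2 := by
  have hK : 0 < K := hc.trans_le (hA.trans hAK)
  have hc2 : c ^ 2 ≤ A ^ 2 := by rw [← sq_abs A]; exact pow_le_pow_left₀ hc.le hA 2
  set n : ℝ := √(A ^ 2 + B ^ 2) with hn
  have hnpos : 0 < A ^ 2 + B ^ 2 := by nlinarith
  have hn0 : 0 < n := Real.sqrt_pos.2 hnpos
  have hn2 : n ^ 2 = A ^ 2 + B ^ 2 := Real.sq_sqrt hnpos.le
  have hnK : n ≤ 2 * K := by
    rw [hn, Real.sqrt_le_left (by positivity)]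
    nlinarith [pow_le_pow_left₀ (abs_nonneg A) hAK 2, pow_le_pow_left₀ (abs_nonneg B) hBK 2,
      sq_abs A, sq_abs B]
  set Δ : ℝ := A * C - B ^ 2 with hΔd
  refine ⟨A / n, B / n, _, ?_, ?_, rfl, ?_⟩
  · rw [div_pow, div_pow, ← add_div, hn2, div_self hnpos.ne']
  · rw [abs_div, abs_of_pos hn0]
    exact div_le_div₀ (abs_nonneg A) hA hn0 hnK
  set ν : ℝ := (A / n) ^ 2 * A + 2 * (A / n) * (B / n) * B + (B / n) ^ 2 * C
  have eν : ν * A = (A ^ 2 + B ^ 2) + B ^ 2 * Δ / (A ^ 2 + B ^ 2) := by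
    simp only [ν, hΔd]
    field_simp
    rw [hn2]
    ring
  have hB2 : |B ^ 2 * Δ / (A ^ 2 + B ^ 2)| ≤ D := by
    rw [abs_div, abs_mul, abs_of_pos hnpos, abs_of_nonneg (sq_nonneg B), div_le_iff₀ hnpos]
    calc B ^ 2 * |Δ| ≤ (A ^ 2 + B ^ 2) * D :=
          mul_le_mul (by linarith [sq_nonneg A]) hΔ (abs_nonneg _) hnpos.le
      _ = D * (A ^ 2 + B ^ 2) := mul_comm _ _
  obtain ⟨hB3, hB4⟩ := abs_le.1 hB2
  have hνA : c ^ 2 / 2 ≤ ν * A ∧ ν * A ≤ 2 * K ^ 2 + c ^ 2 / 2 := by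
    rw [eν]
    constructor
    · nlinarith [sq_nonneg B]
    · nlinarith [pow_le_pow_left₀ (abs_nonneg A) hAK 2, pow_le_pow_left₀ (abs_nonneg B) hBK 2,
        sq_abs A, sq_abs B]
  have hpos : 0 < ν * A := lt_of_lt_of_le (by positivity) hνA.1
  have habs : |ν| * |A| = ν * A := by rw [← abs_mul, abs_of_pos hpos]
  have small : ∀ p : ℝ, |p| ≤ K → |p * Δ / (A ^ 2 + B ^ 2)| ≤ K * D / c ^ 2 := by
    intro p hp
    rw [abs_div, abs_mul, abs_of_pos hnpos]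
    exact div_le_div₀ (mul_nonneg hK.le ((abs_nonneg _).trans hΔ))
      (mul_le_mul hp hΔ (abs_nonneg _) hK.le) (by positivity) (by nlinarith)
  refine ⟨?_, ?_, ?_, ?_⟩
  · rw [div_le_iff₀ (by positivity)]
    nlinarith [mul_le_mul_of_nonneg_left hAK (abs_nonneg ν)]
  · rw [le_div_iff₀ hc]
    nlinarith [mul_le_mul_of_nonneg_left hA (abs_nonneg ν)]
  · convert small B hBK using 2
    simp only [hΔd]
    field_simp
    rw [hn2]
    ring
  · convert small A hAK using 2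
    simp only [hΔd]
    field_simp
    rw [hn2]
    ring

lemma rot_mem {α β : ℝ} (h : α ^ 2 + β ^ 2 = 1) {x : P2}
    (hx : x ∈ Metric.closedBall (0 : P2) (3 / 2)) : rotL α β x ∈ Metric.ball (0 : P2) 3 := by
  rw [Metric.mem_closedBall, dist_zero_right, Prod.norm_def, max_le_iff, Real.norm_eq_abs,
    Real.norm_eq_abs] at hx
  rw [Metric.mem_ball, dist_zero_right]
  refine (norm_le_of_rsq (r := 11 / 5) (by norm_num) ?_).trans_lt (by norm_num)
  rw [rsq_rotL h]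
  unfold rsq
  nlinarith [sq_abs x.1, sq_abs x.2, pow_le_pow_left₀ (abs_nonneg x.1) hx.1 2,
    pow_le_pow_left₀ (abs_nonneg x.2) hx.2 2]

lemma rot_mem_two {α β : ℝ} (h : α ^ 2 + β ^ 2 = 1) {x : P2} (hx : rsq x < 2) :
    rotL α β x ∈ Metric.closedBall (0 : P2) 2 ∧ x ∈ Metric.closedBall (0 : P2) (3 / 2) := by
  simp only [Metric.mem_closedBall, dist_zero_right]
  exact ⟨norm_le_of_rsq zero_le_two (by rw [rsq_rotL h]; linarith),
    norm_le_of_rsq (by norm_num) (by linarith)⟩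

/-- Derivative bound for a normalised function. -/
lemma norm_iterated_normed_le {Z : P2 → ℝ} {ν α β b : ℝ} {k : ℕ} {x : P2}
    (h : α ^ 2 + β ^ 2 = 1) (hZ : ∀ y ∈ Metric.ball (0 : P2) 3, ContDiffAt ℝ (⊤ : ℕ∞) Z y)
    (hx : rotL α β x ∈ Metric.ball (0 : P2) 3)
    (hb : ‖iteratedFDeriv ℝ k Z (rotL α β x)‖ ≤ b) :
    ‖iteratedFDeriv ℝ k (normed ν α β Z) x‖ ≤ |ν|⁻¹ * (2 ^ k * b) := by
  have hG : ContDiffAt ℝ (k : ℕ∞ω) (fun y => Z (rotL α β y)) x :=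
    ((hZ _ hx).comp x (rotL α β).contDiff.contDiffAt).of_le (by exact_mod_cast le_top)
  have e : normed ν α β Z = ν⁻¹ • fun y => Z (rotL α β y) := by funext y; simp [normed]
  rw [e, iteratedFDeriv_const_smul_apply hG, norm_smul, Real.norm_eq_abs, abs_inv]
  refine mul_le_mul_of_nonneg_left ?_ (by positivity)
  simp only [rotL_eq_sim] at hx hb ⊢
  refine (norm_iteratedFDeriv_sim_le Metric.isOpen_ball
    (fun y hy => ((hZ y hy).of_le (by exact_mod_cast le_top)).contDiffWithinAt) (le_refl k) h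
    zero_le_one hx).trans ?_
  rw [mul_one]
  exact mul_le_mul_of_nonneg_left hb (by positivity)

lemma contDiffAt_normed {Z : P2 → ℝ} {ν α β : ℝ} {x : P2} {n : ℕ∞ω}
    (hZ : ContDiffAt ℝ n Z (rotL α β x)) : ContDiffAt ℝ n (normed ν α β Z) x :=
  contDiffAt_const.mul (hZ.comp x (rotL α β).contDiff.contDiffAt)

lemma norm_iterated_two_le {f : P2 → ℝ} {e : ℝ} {x : P2} (hf : ContDiffAt ℝ 2 f x) (he : 0 ≤ e)
    (h11 : |d1 (d1 f) x| ≤ e) (h12 : |d1 (d2 f) x| ≤ e) (h22 : |d2 (d2 f) x| ≤ e) :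
    ‖iteratedFDeriv ℝ 2 f x‖ ≤ 4 * e := by
  have hd : DifferentiableAt ℝ (fderiv ℝ f) x :=
    (hf.fderiv_right (m := 1) (by norm_num)).differentiableAt one_ne_zero
  have ev : ∀ p q : P2, fderiv ℝ (fun y => fderiv ℝ f y q) x p =
      fderiv ℝ (fderiv ℝ f) x p q := fun p q => by
    rw [fderiv_clm_apply hd (differentiableAt_const _)]; simp
  refine (Keys.norm_le_coord _ he fun b => ?_).trans_eq (by norm_num)
  rw [iteratedFDeriv_two_apply, ← ev]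
  have hs := d1_d2_at hf
  cases hb0 : b 0 <;> cases hb1 : b 1 <;> simp only [Keys.vec]
  · exact h22
  · show |d2 (d1 f) x| ≤ e
    rwa [← hs]
  · exact h12
  · exact h11

/-- Partials of half the square of the first coordinate. -/
lemma dd_sub_sq {F : P2 → ℝ} {x : P2} (hF : ContDiffAt ℝ 2 F x) :
    let E := fun y : P2 => F y - y.1 ^ 2 / 2
    d1 E x = d1 F x - x.1 ∧ d2 E x = d2 F x ∧ d1 (d1 E) x = d1 (d1 F) x - 1 ∧
      d1 (d2 E) x = d1 (d2 F) x ∧ d2 (d2 E) x = d2 (d2 F) x := by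
  intro E
  obtain ⟨g1, g2⟩ := differentiableAt_d1 hF
  have e : ∀ᶠ y in 𝓝 x, d1 E y = d1 F y - y.1 ∧ d2 E y = d2 F y := by
    filter_upwards [hF.eventually (by simp)] with y hy
    have hd := hy.differentiableAt (by simp)
    have hq : HasFDerivAt (fun z : P2 => z.1 ^ 2 / 2) (y.1 • ContinuousLinearMap.fst ℝ ℝ ℝ) y := by
      have := ((hasFDerivAt_fst (𝕜 := ℝ) (p := y)).pow 2).mul_const ((2 : ℝ)⁻¹)
      simp only [← div_eq_mul_inv] at this
      exact this.congr_fderiv (ContinuousLinearMap.ext fun v => by simp; ring)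
    have := (hd.hasFDerivAt.fun_sub hq).fderiv
    simp [d1, d2, E, this]
  have ev1 : d1 E =ᶠ[𝓝 x] fun y => d1 F y - y.1 := e.mono fun y hy => hy.1
  have ev2 : d2 E =ᶠ[𝓝 x] d2 F := e.mono fun y hy => hy.2
  exact ⟨e.self_of_nhds.1, e.self_of_nhds.2,
    by rw [d1, ev1.fderiv_eq, ← d1.eq_def, d1_sub g1 differentiableAt_fst, d1_fst],
    by rw [d1, ev2.fderiv_eq]; rfl, by rw [d2, ev2.fderiv_eq]; rfl⟩

/-- Half the square of the first coordinate has no derivatives of order three or more. -/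
lemma iterated_sq_eq_zero {k : ℕ} (hk : 3 ≤ k) (x : P2) :
    iteratedFDeriv ℝ k (fun y : P2 => y.1 ^ 2 / 2) x = 0 := by
  obtain ⟨l, rfl⟩ : ∃ l, k = l + 1 + 1 := ⟨k - 2, by omega⟩
  set L : P2 →L[ℝ] ℝ := ContinuousLinearMap.fst ℝ ℝ ℝ
  have h1 : fderiv ℝ (fun y : P2 => y.1 ^ 2 / 2) = fun y => L.smulRight L y := by
    funext y
    have := ((hasFDerivAt_fst (𝕜 := ℝ) (p := y)).pow 2).mul_const ((2 : ℝ)⁻¹)
    simp only [← div_eq_mul_inv] at this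
    rw [this.fderiv]
    refine ContinuousLinearMap.ext fun v => ?_
    simp [L]; ring
  have h2 : fderiv ℝ (fderiv ℝ fun y : P2 => y.1 ^ 2 / 2) = fun _ => L.smulRight L := by
    rw [h1]; funext y; exact (L.smulRight L).fderiv
  rw [← norm_eq_zero, ← norm_iteratedFDeriv_fderiv, ← norm_iteratedFDeriv_fderiv, h2,
    iteratedFDeriv_const_of_ne (by omega)]
  simp

/-- Second partials near those of the representative give small entries in its frame. -/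
lemma entry_le {p q r A B C A' B' C' s : ℝ} (hp : |p| ≤ 1) (hq : |q| ≤ 2) (hr : |r| ≤ 1)
    (hA : |A' - A| ≤ s) (hB : |B' - B| ≤ s) (hC : |C' - C| ≤ s) :
    |(p * A' + q * B' + r * C') - (p * A + q * B + r * C)| ≤ 4 * s := by
  have hs : 0 ≤ s := (abs_nonneg _).trans hA
  rw [show (p * A' + q * B' + r * C') - (p * A + q * B + r * C) =
    p * (A' - A) + q * (B' - B) + r * (C' - C) by ring]
  refine (abs_add_three _ _ _).trans ?_
  simp only [abs_mul]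
  have := mul_le_mul hp hA (abs_nonneg _) zero_le_one
  have := mul_le_mul hq hB (abs_nonneg _) zero_le_two
  have := mul_le_mul hr hC (abs_nonneg _) zero_le_one
  linarith

lemma abs_dd_le {Z Z' : P2 → ℝ} {x : P2} {s : ℝ} (hZ : ContDiffAt ℝ 2 Z x)
    (hZ' : ContDiffAt ℝ 2 Z' x)
    (h : ‖iteratedFDeriv ℝ 2 Z x - iteratedFDeriv ℝ 2 Z' x‖ ≤ s) :
    |d1 (d1 Z) x - d1 (d1 Z') x| ≤ s ∧ |d1 (d2 Z) x - d1 (d2 Z') x| ≤ s ∧
      |d2 (d2 Z) x - d2 (d2 Z') x| ≤ s := by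
  have ev : ∀ (F : P2 → ℝ), ContDiffAt ℝ 2 F x → ∀ p q : P2,
      fderiv ℝ (fun y => fderiv ℝ F y q) x p = iteratedFDeriv ℝ 2 F x ![p, q] := by
    intro F hF p q
    rw [iteratedFDeriv_two_apply, fderiv_clm_apply
      ((hF.fderiv_right (m := 1) (by norm_num)).differentiableAt one_ne_zero)
      (differentiableAt_const _)]
    simp
  have key : ∀ p q : P2, ‖p‖ = 1 → ‖q‖ = 1 → |fderiv ℝ (fun y => fderiv ℝ Z y q) x p -
      fderiv ℝ (fun y => fderiv ℝ Z' y q) x p| ≤ s := by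
    intro p q hp hq
    rw [ev Z hZ, ev Z' hZ']
    have := (iteratedFDeriv ℝ 2 Z x - iteratedFDeriv ℝ 2 Z' x).le_opNorm ![p, q]
    simp only [sub_apply, Real.norm_eq_abs, Fin.prod_univ_two, Matrix.cons_val_zero,
      Matrix.cons_val_one, hp, hq, mul_one] at this
    exact this.trans h
  have n1 : ‖((1, 0) : P2)‖ = 1 := by simp [Prod.norm_def]
  have n2 : ‖((0, 1) : P2)‖ = 1 := by simp [Prod.norm_def]
  exact ⟨key _ _ n1 n1, key _ _ n1 n2, key _ _ n2 n2⟩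

lemma abs_dd_le_zero {Z : P2 → ℝ} {x : P2} {s : ℝ} (hZ : ContDiffAt ℝ 2 Z x)
    (h : ‖iteratedFDeriv ℝ 2 Z x‖ ≤ s) :
    |d1 (d1 Z) x| ≤ s ∧ |d1 (d2 Z) x| ≤ s ∧ |d2 (d2 Z) x| ≤ s := by
  have z1 : d1 (fun _ : P2 => (0 : ℝ)) = fun _ => 0 := funext fun _ => d1_const 0
  have z2 : d2 (fun _ : P2 => (0 : ℝ)) = fun _ => 0 := funext fun _ => d2_const 0
  have h' := abs_dd_le (Z' := fun _ : P2 => (0 : ℝ)) hZ contDiffAt_const (s := s) (by
    rw [iteratedFDeriv_const_of_ne (by norm_num)]; simpa using h)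
  simpa [z1, z2, d1_const, d2_const] using h'

/-- The estimates of a normalised function in a given frame. -/
lemma normed_bound {Z : P2 → ℝ} {C w ν α β L e : ℝ} (hC : 0 ≤ C) (hw : 0 ≤ w) (he : 0 ≤ e)
    (hrot : α ^ 2 + β ^ 2 = 1) (hL : |ν|⁻¹ ≤ L) (hZ : IsZ C w Z)
    (h11 : |α ^ 2 * d1 (d1 Z) 0 + 2 * α * β * d1 (d2 Z) 0 + β ^ 2 * d2 (d2 Z) 0 - ν| ≤ e)
    (h12 : |-(α * β) * d1 (d1 Z) 0 + (α ^ 2 - β ^ 2) * d1 (d2 Z) 0 + α * β * d2 (d2 Z) 0| ≤ e)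
    (h22 : |β ^ 2 * d1 (d1 Z) 0 - 2 * α * β * d1 (d2 Z) 0 + α ^ 2 * d2 (d2 Z) 0| ≤ e)
    (hν : ν ≠ 0) :
    ContDiffOn ℝ (⊤ : ℕ∞) (normed ν α β Z) {x | rsq x < 2} ∧
      ∀ x, rsq x < 2 → ∀ k ≤ 7,
        ‖iteratedFDeriv ℝ k (fun y => normed ν α β Z y - y.1 ^ 2 / 2) x‖ ≤
          16 * (L * e) + 1024 * (L * C * w) := by
  have hZs : ∀ y ∈ Metric.ball (0 : P2) 3, ContDiffAt ℝ (⊤ : ℕ∞) Z y := fun y hy =>
    hZ.smooth y (Metric.ball_subset_closedBall hy)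
  have hN : ∀ y ∈ Metric.closedBall (0 : P2) (3 / 2), ContDiffAt ℝ (⊤ : ℕ∞) (normed ν α β Z) y :=
    fun y hy => contDiffAt_normed (hZs _ (rot_mem hrot hy))
  set E : P2 → ℝ := fun y => normed ν α β Z y - y.1 ^ 2 / 2 with hEd
  have hq : ∀ y : P2, ContDiffAt ℝ (⊤ : ℕ∞) (fun z : P2 => z.1 ^ 2 / 2) y := fun y =>
    ((contDiff_fst.pow 2).div_const 2).contDiffAt
  have hE : ∀ y ∈ Metric.closedBall (0 : P2) (3 / 2), ContDiffAt ℝ (⊤ : ℕ∞) E y := fun y hy =>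
    (hN y hy).sub (hq y)
  refine ⟨fun x hx => (hN x (rot_mem_two hrot hx).2).contDiffWithinAt, fun x hx => ?_⟩
  have hL0 : 0 ≤ L := le_trans (by positivity) hL
  set b : ℝ := 128 * (L * C * w) with hbd
  have hb0 : 0 ≤ b := by positivity
  have high : ∀ y ∈ Metric.closedBall (0 : P2) (3 / 2), ∀ k, 3 ≤ k → k ≤ 7 →
      ‖iteratedFDeriv ℝ k E y‖ ≤ b := by
    intro y hy k h3 h7
    rw [hEd, fun_iteratedFDeriv_sub_apply ((hN y hy).of_le (by exact_mod_cast le_top))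
      ((hq y).of_le (by exact_mod_cast le_top)), iterated_sq_eq_zero h3, sub_zero]
    refine (norm_iterated_normed_le hrot hZs (rot_mem hrot hy)
      (hZ.small _ (Metric.ball_subset_closedBall (rot_mem hrot hy)) k h3 (by omega))).trans ?_
    have hCw : 0 ≤ C * w := mul_nonneg hC hw
    calc |ν|⁻¹ * (2 ^ k * (C * w)) ≤ L * (2 ^ 7 * (C * w)) := by
          gcongr
          norm_num
      _ = b := by rw [hbd]; ring
  have h00 : (0 : P2) ∈ Metric.closedBall (0 : P2) (3 / 2) :=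
    Metric.mem_closedBall_self (by norm_num)
  have hr0 : rotL α β 0 = 0 := map_zero _
  have hZ0 : ContDiffAt ℝ 2 Z (sim 0 1 α β 0) := by
    rw [sim_zero]
    exact (hZ.smooth 0 (Metric.mem_closedBall_self (by norm_num))).of_le (by norm_cast)
  have hG : ContDiffAt ℝ 2 (fun y => Z (sim 0 1 α β y)) 0 :=
    hZ0.comp 0 (contDiff_sim 0 1 α β).contDiffAt
  have eN : normed ν α β Z = fun y => ν⁻¹ * (Z (sim 0 1 α β y) - 0) := by
    funext y; simp [normed, rotL_eq_sim]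
  obtain ⟨a1, a2, a11, a12, a22⟩ := dd_affine hG ν⁻¹ 0
  obtain ⟨f1, f2, f11, f12, f22⟩ := dd_sub_sq ((hN 0 h00).of_le (by norm_cast))
  have hd := hZ0.differentiableAt (by simp)
  rw [← eN] at a1 a2 a11 a12 a22
  obtain ⟨b11, b12, b22⟩ := dd_sim hZ0
  rw [a1, d1_sim hd] at f1
  rw [a2, d2_sim hd] at f2
  rw [a11, b11] at f11
  rw [a12, b12] at f12
  rw [a22, b22] at f22
  have z1 : d1 Z 0 = 0 := by simp [d1, hZ.dzero]
  have z2 : d2 Z 0 = 0 := by simp [d2, hZ.dzero]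
  simp only [sim_zero, z1, z2, one_pow, one_mul, mul_zero, add_zero, Prod.fst_zero,
    sub_zero] at f1 f2 f11 f12 f22
  have scl : ∀ t : ℝ, |t| ≤ e → |ν⁻¹ * t| ≤ L * e := fun t ht => by
    rw [abs_mul, abs_inv]; exact mul_le_mul hL ht (abs_nonneg _) hL0
  have h2 : ‖iteratedFDeriv ℝ 2 E 0‖ ≤ 4 * (L * e) := by
    refine norm_iterated_two_le ((hE 0 h00).of_le (by norm_cast)) (by positivity)
      ?_ ?_ ?_
    · rw [hEd, f11]
      convert scl _ h11 using 2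
      field_simp
    · rw [hEd, f12]; exact scl _ h12
    · rw [hEd, f22]; exact scl _ h22
  have hv : ‖iteratedFDeriv ℝ 0 E 0‖ ≤ 0 := by simp [hEd, normed, hZ.zero]
  have hd1 : ‖iteratedFDeriv ℝ 1 E 0‖ ≤ 0 := by
    rw [norm_iteratedFDeriv_one]
    refine le_of_eq (norm_eq_zero.2 (ContinuousLinearMap.ext fun v => ?_))
    have : v = v.1 • ((1 : ℝ), (0 : ℝ)) + v.2 • ((0 : ℝ), (1 : ℝ)) := by
      obtain ⟨p, q⟩ := v; simp
    rw [this, map_add, map_smul, map_smul]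
    show v.1 • d1 E 0 + v.2 • d2 E 0 = 0
    rw [hEd, f1, f2]
    simp
  have L2 : ∀ y ∈ Metric.closedBall (0 : P2) (3 / 2),
      ‖iteratedFDeriv ℝ 2 E y‖ ≤ 4 * (L * e) + b * (3 / 2) := fun y hy =>
    norm_iterated_le hb0 hE (fun z hz => high z hz 3 le_rfl (by norm_num)) h2 hy
  have L1 : ∀ y ∈ Metric.closedBall (0 : P2) (3 / 2),
      ‖iteratedFDeriv ℝ 1 E y‖ ≤ 0 + (4 * (L * e) + b * (3 / 2)) * (3 / 2) := fun y hy =>
    norm_iterated_le (by positivity) hE L2 hd1 hy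
  have L0 : ∀ y ∈ Metric.closedBall (0 : P2) (3 / 2), ‖iteratedFDeriv ℝ 0 E y‖ ≤
      0 + (0 + (4 * (L * e) + b * (3 / 2)) * (3 / 2)) * (3 / 2) := fun y hy =>
    norm_iterated_le (by positivity) hE L1 hv hy
  intro k hk
  have hxm := (rot_mem_two hrot hx).2
  have hLe : 0 ≤ L * e := mul_nonneg hL0 he
  have hLCw : 0 ≤ L * C * w := by positivity
  rcases (by omega : k = 0 ∨ k = 1 ∨ k = 2 ∨ 3 ≤ k) with rfl | rfl | rfl | h3
  · exact (L0 x hxm).trans (by rw [hbd]; linarith)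
  · exact (L1 x hxm).trans (by rw [hbd]; linarith)
  · exact (L2 x hxm).trans (by rw [hbd]; linarith)
  · exact (high x hxm k h3 hk).trans (by rw [hbd]; linarith)

/-- The Hessian determinant of a representative is small at the origin. -/
lemma det_small {w η s : ℝ} {B₀ Z₀ : P2 → ℝ} (hw : 0 < w) (hη : 0 < η) (hη1 : η ≤ 1)
    (hηw2 : η / w ^ 2 ≤ w) (hsη : s ≤ η) (hB₀ : ContDiff ℝ 2 B₀)
    (hB₀b : ∀ x, ∀ k ≤ 2, ‖iteratedFDeriv ℝ k B₀ x‖ ≤ s) (hd : fderiv ℝ Z₀ 0 = 0)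
    (hD : Darboux (w ^ 2)⁻¹ (fun x => η * pocket x + B₀ x) Z₀ 0) :
    |d1 (d1 Z₀) 0 * d2 (d2 Z₀) 0 - d1 (d2 Z₀) 0 ^ 2| ≤ 27 * w := by
  have z1 : d1 Z₀ 0 = 0 := by simp [d1, hd]
  have z2 : d2 Z₀ 0 = 0 := by simp [d2, hd]
  simp only [Darboux, H11, H12, H22, gradSq, z1, z2, mul_zero, sub_zero, add_zero,
    zero_pow two_ne_zero] at hD
  rw [hD]
  have hp2 : ContDiff ℝ 2 pocket := contDiff_pocket 2
  have e0 : pocket 0 = 0 := by simp [pocket, rsq]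
  have hf : ContDiffAt ℝ 2 (fun x => η * pocket x) 0 := (contDiff_const.mul hp2).contDiffAt
  have hl : lap (fun x => η * pocket x + B₀ x) 0 = η + lap B₀ 0 := by
    have hlp : lap pocket 0 = 1 := by rw [lap_pocket (by simp [rsq])]; simp [rsq]
    obtain ⟨-, -, g11, -, g22⟩ := dd_affine (x := (0 : P2)) hp2.contDiffAt η 0
    simp only [sub_zero] at g11 g22
    have s1 : ∀ y, d1 (fun x => η * pocket x + B₀ x) y = d1 (fun x => η * pocket x) y + d1 B₀ y :=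
      fun y => d1_add ((hp2.differentiable (by simp) y).const_mul η) (hB₀.differentiable (by simp) y)
    have s2 : ∀ y, d2 (fun x => η * pocket x + B₀ x) y = d2 (fun x => η * pocket x) y + d2 B₀ y :=
      fun y => d2_add ((hp2.differentiable (by simp) y).const_mul η) (hB₀.differentiable (by simp) y)
    obtain ⟨p1, p2⟩ := differentiableAt_d1 hf
    obtain ⟨q1, q2⟩ := differentiableAt_d1 (hB₀.contDiffAt (x := (0 : P2)))
    simp only [lap, funext s1, funext s2, d1_add p1 q1, d2_add p2 q2, g11, g22] at hlp ⊢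
    linear_combination η * hlp
  have hBb := abs_dd_le_zero (hB₀.contDiffAt (x := (0 : P2))) (hB₀b 0 2 le_rfl)
  have hlB : |lap B₀ 0| ≤ 2 * η := by
    refine (abs_add_le _ _).trans ?_
    linarith [hBb.1, hBb.2.2]
  have hB0' : |B₀ 0| ≤ 1 := by
    have := hB₀b 0 0 (Nat.zero_le _)
    rw [norm_iteratedFDeriv_zero, Real.norm_eq_abs] at this
    linarith
  have hexp : Real.exp (2 * (η * pocket 0 + B₀ 0)) ≤ 9 := by
    rw [e0, mul_zero, zero_add]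
    have h1 : Real.exp (2 * B₀ 0) ≤ Real.exp 2 :=
      Real.exp_le_exp.2 (by linarith [(abs_le.1 hB0').2])
    have h2 : Real.exp 2 = Real.exp 1 * Real.exp 1 := by rw [← Real.exp_add]; norm_num
    nlinarith [Real.exp_one_lt_d9, Real.exp_pos 1]
  rw [hl, abs_mul, abs_neg, abs_mul, abs_of_pos (show (0:ℝ) < (w ^ 2)⁻¹ by positivity),
    abs_of_pos (Real.exp_pos _)]
  calc |η + lap B₀ 0| * ((w ^ 2)⁻¹ * Real.exp (2 * (η * pocket 0 + B₀ 0)))
      ≤ (3 * η) * ((w ^ 2)⁻¹ * 9) := by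
        refine mul_le_mul ((abs_add_le _ _).trans ?_) (by gcongr) (by positivity) (by positivity)
        rw [abs_of_pos hη]; linarith
    _ = 27 * (η / w ^ 2) := by rw [div_eq_mul_inv]; ring
    _ ≤ 27 * w := by linarith

/-- The choice of the frame, by the axis along which the curvature is bounded below. -/
lemma choose_frame {c K D A B C : ℝ} {u : Bool} (hc : 0 < c) (hA : |A| ≤ K) (hB : |B| ≤ K)
    (hC : |C| ≤ K) (hΔ : |A * C - B ^ 2| ≤ D) (hDc : D ≤ c ^ 2 / 2)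
    (hcu : c ≤ (if u then |C| else |A|)) :
    ∃ α β ν : ℝ, α ^ 2 + β ^ 2 = 1 ∧
      ((u = false → 1 / (2 * K / c) ≤ |α|) ∧ (u = true → 1 / (2 * K / c) ≤ |β|)) ∧
      ν = α ^ 2 * A + 2 * α * β * B + β ^ 2 * C ∧
      c ^ 2 / (2 * K) ≤ |ν| ∧ |ν| ≤ (2 * K ^ 2 + c ^ 2) / c ∧
      |-(α * β) * A + (α ^ 2 - β ^ 2) * B + α * β * C| ≤ K * D / c ^ 2 ∧
      |β ^ 2 * A - 2 * α * β * B + α ^ 2 * C| ≤ K * D / c ^ 2 := by
  cases u
  · simp only [Bool.false_eq_true, if_false] at hcu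
    obtain ⟨α, β, ν, r, hα, hν, a, b, d, e⟩ :=
      frame_alg hc hcu hA hB hΔ hDc
    exact ⟨α, β, ν, r, ⟨fun _ => by rwa [one_div_div], fun h => absurd h (by simp)⟩,
      hν, a, b, d, e⟩
  · simp only [if_true] at hcu
    obtain ⟨α, β, ν, r, hα, hν, a, b, d, e⟩ :=
      frame_alg (C := A) hc hcu hC hB
        (by rwa [mul_comm]) hDc
    refine ⟨β, α, ν, by linarith, ⟨fun h => absurd h (by simp), fun _ => by rwa [one_div_div]⟩,
      by rw [hν]; ring, a, b, ?_, ?_⟩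
    · rw [← abs_neg]; convert d using 2; ring
    · convert e using 2; ring

/-- Differences inside a bucket in the frame of the representative. -/
lemma normed_diff {C w ν α β L s : ℝ} {Z Z' Z₀ : P2 → ℝ} {x : P2} {k : ℕ}
    (hrot : α ^ 2 + β ^ 2 = 1) (hL : |ν|⁻¹ ≤ L) (hs : 0 ≤ s) (hZ : IsZ C w Z) (hZ' : IsZ C w Z')
    (hclose : ∀ x ∈ Metric.closedBall (0 : P2) 2, ∀ l ≤ 3,
      ‖iteratedFDeriv ℝ l Z x - iteratedFDeriv ℝ l Z₀ x‖ ≤ s)
    (hclose' : ∀ x ∈ Metric.closedBall (0 : P2) 2, ∀ l ≤ 3,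
      ‖iteratedFDeriv ℝ l Z' x - iteratedFDeriv ℝ l Z₀ x‖ ≤ s)
    (hx : rsq x < 2) (hk : k ≤ 3) :
    ‖iteratedFDeriv ℝ k (fun y => normed ν α β Z y - normed ν α β Z' y) x‖ ≤ 16 * L * s := by
  obtain ⟨hx2, hx32⟩ := rot_mem_two hrot hx
  have hb3 := rot_mem hrot hx32
  have hb3' := Metric.ball_subset_closedBall hb3
  have hs1 : ∀ y ∈ Metric.ball (0 : P2) 3, ContDiffAt ℝ (⊤ : ℕ∞) (fun z => Z z - Z' z) y :=
    fun y hy => (hZ.smooth y (Metric.ball_subset_closedBall hy)).sub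
      (hZ'.smooth y (Metric.ball_subset_closedBall hy))
  have e : (fun y => normed ν α β Z y - normed ν α β Z' y) =
      normed ν α β fun z => Z z - Z' z := by funext y; simp [normed]; ring
  rw [e]
  refine (norm_iterated_normed_le hrot hs1 hb3 (b := 2 * s) ?_).trans ?_
  · rw [fun_iteratedFDeriv_sub_apply ((hZ.smooth _ hb3').of_le (by exact_mod_cast le_top))
      ((hZ'.smooth _ hb3').of_le (by exact_mod_cast le_top))]
    refine (norm_sub_le_norm_sub_add_norm_sub _ (iteratedFDeriv ℝ k Z₀ (rotL α β x)) _).trans ?_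
    rw [two_mul]
    exact add_le_add (hclose _ hx2 k hk) ((norm_sub_rev _ _).trans_le (hclose' _ hx2 k hk))
  · have hL0 : 0 ≤ L := (inv_nonneg.2 (abs_nonneg ν)).trans hL
    calc |ν|⁻¹ * (2 ^ k * (2 * s)) ≤ L * (2 ^ 3 * (2 * s)) :=
          mul_le_mul hL (mul_le_mul_of_nonneg_right (pow_le_pow_right₀ one_le_two hk) (by positivity))
            (by positivity) hL0
      _ = 16 * L * s := by ring

/-- Darboux in the frame of the representative. -/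
lemma normed_darboux {C w ν α β : ℝ} {φ Z : P2 → ℝ} {x : P2} (hw : 0 < w) (hν0 : ν ≠ 0)
    (hrot : α ^ 2 + β ^ 2 = 1) (hZ : IsZ C w Z) (hφ : ContDiff ℝ 2 φ)
    (hDZ : ∀ x ∈ Metric.closedBall (0 : P2) 2, Darboux (w ^ 2)⁻¹ φ Z x) (hx : rsq x < 2) :
    Darboux ((w ^ 2)⁻¹ / ν ^ 2) (fun y => φ (rotL α β y)) (normed ν α β Z) x := by
  obtain ⟨hx2, hx32⟩ := rot_mem_two hrot hx
  rw [rotL_eq_sim] at hx2
  have hZx : ContDiffAt ℝ 2 Z (sim 0 1 α β x) :=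
    (hZ.smooth _ (Metric.closedBall_subset_closedBall (by norm_num) hx2)).of_le
      (by norm_cast)
  have h1 := darboux_mul (k := w) hZx (hDZ _ hx2)
  rw [mul_inv_cancel₀ (by positivity : w ^ 2 ≠ 0)] at h1
  have h2 := darboux_sim (k := (ν * w)⁻¹) (c := 0) hrot hφ.contDiffAt
    (contDiffAt_const.mul hZx) h1
  have ek : (ν * w)⁻¹ ^ 2 * 1 ^ 2 = (w ^ 2)⁻¹ / ν ^ 2 := by field_simp
  have eφ : (fun y => φ (sim 0 1 α β y)) = fun y => φ (rotL α β y) := by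
    funext y; rw [rotL_eq_sim]
  have eZ : (fun y => (ν * w)⁻¹ * (w * Z (sim 0 1 α β y) - 0)) = normed ν α β Z := by
    funext y; rw [normed, rotL_eq_sim, sub_zero]; field_simp
  rwa [ek, eφ, eZ] at h2

/-- The frame of a representative normalises its whole bucket. -/
theorem exists_normal_frame (c C₁ : ℝ) (hc : 0 < c) :
    ∃ C₀ T w₁ : ℝ, 0 < C₀ ∧ 1 ≤ T ∧ 0 < w₁ ∧ ∀ w η s : ℝ, 0 < w → w ≤ w₁ → 0 < η → η ≤ w ^ 3 →
      0 ≤ s → s ≤ η → ∀ (u : Bool) (B₀ Z₀ : P2 → ℝ), ContDiff ℝ 2 B₀ →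
        (∀ x, ∀ k ≤ 2, ‖iteratedFDeriv ℝ k B₀ x‖ ≤ s) → IsZ C₁ w Z₀ →
        Darboux (w ^ 2)⁻¹ (fun x => η * pocket x + B₀ x) Z₀ 0 →
        c ≤ (if u then |d2 (d2 Z₀) 0| else |d1 (d1 Z₀) 0|) →
        ∃ α β ν : ℝ, α ^ 2 + β ^ 2 = 1 ∧ (u = false → 1 / T ≤ |α|) ∧ (u = true → 1 / T ≤ |β|) ∧
          1 / C₀ ≤ |ν| ∧ |ν| ≤ C₀ ∧
          ∀ Z, IsZ C₁ w Z →
            (∀ x ∈ Metric.closedBall (0 : P2) 2, ∀ l ≤ 3,
              ‖iteratedFDeriv ℝ l Z x - iteratedFDeriv ℝ l Z₀ x‖ ≤ s) →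
            ContDiffOn ℝ (⊤ : ℕ∞) (normed ν α β Z) {x | rsq x < 2} ∧
            (∀ x, rsq x < 2 → ∀ k ≤ 7,
              ‖iteratedFDeriv ℝ k (fun y => normed ν α β Z y - y.1 ^ 2 / 2) x‖ ≤ C₀ * w) ∧
            (∀ Z', IsZ C₁ w Z' →
              (∀ x ∈ Metric.closedBall (0 : P2) 2, ∀ l ≤ 3,
                ‖iteratedFDeriv ℝ l Z' x - iteratedFDeriv ℝ l Z₀ x‖ ≤ s) →
              ∀ x, rsq x < 2 → ∀ k ≤ 3, ‖iteratedFDeriv ℝ k
                (fun y => normed ν α β Z y - normed ν α β Z' y) x‖ ≤ C₀ * s) ∧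
            ∀ φ : P2 → ℝ, ContDiff ℝ 2 φ →
              (∀ x ∈ Metric.closedBall (0 : P2) 2, Darboux (w ^ 2)⁻¹ φ Z x) →
              ∀ x, rsq x < 2 →
                Darboux ((w ^ 2)⁻¹ / ν ^ 2) (fun y => φ (rotL α β y)) (normed ν α β Z) x := by
  set K : ℝ := max C₁ c with hKd
  have hK : 0 < K := hc.trans_le (le_max_right _ _)
  set L : ℝ := 2 * K / c ^ 2 with hLd
  set e₀ : ℝ := 27 * K / c ^ 2 + 4 with he₀
  set U : ℝ := (2 * K ^ 2 + c ^ 2) / c with hUd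
  refine ⟨16 * (L * e₀) + 1024 * (L * K) + 16 * L + U + L + 1, 2 * K / c, min 1 (c ^ 2 / 54),
    by positivity, by rw [le_div_iff₀ hc]; linarith [le_max_right C₁ c],
    lt_min one_pos (by positivity), ?_⟩
  intro w η s hw hw1 hη hηw hs hsη u B₀ Z₀ hB₀ hB₀b hZ₀ hD hcu
  set C₀ : ℝ := 16 * (L * e₀) + 1024 * (L * K) + 16 * L + U + L + 1 with hC₀
  have hw_1 : w ≤ 1 := hw1.trans (min_le_left _ _)
  have hη1 : η ≤ 1 := hηw.trans (pow_le_one₀ hw.le hw_1)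
  have hηw2 : η / w ^ 2 ≤ w := by
    rw [div_le_iff₀ (by positivity)]; linarith [show w * w ^ 2 = w ^ 3 by ring]
  have h03 : (0 : P2) ∈ Metric.closedBall (0 : P2) 3 := Metric.mem_closedBall_self (by norm_num)
  have hZ₀2 : ContDiffAt ℝ 2 Z₀ 0 := (hZ₀.smooth 0 h03).of_le (by norm_cast)
  have hC₁ : 0 ≤ C₁ := (norm_nonneg _).trans (hZ₀.bnd 0 h03 0 (Nat.zero_le _))
  have hbnd := abs_dd_le_zero hZ₀2 ((hZ₀.bnd 0 h03 2 (by norm_num)).trans (le_max_left C₁ c))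
  have hΔ := det_small hw hη hη1 hηw2 hsη hB₀ hB₀b hZ₀.dzero hD
  have hDc : 27 * w ≤ c ^ 2 / 2 := by linarith [hw1.trans (min_le_right _ _)]
  obtain ⟨α, β, ν, hrot, hTu, hν, hν1, hν2, h12, h22⟩ :=
    choose_frame (u := u) hc hbnd.1 hbnd.2.1 hbnd.2.2 hΔ hDc hcu
  have hνpos : 0 < |ν| := lt_of_lt_of_le (by positivity) hν1
  have hν0 : ν ≠ 0 := abs_pos.1 hνpos
  have hL : |ν|⁻¹ ≤ L := by
    rw [hLd, ← inv_div]
    exact inv_anti₀ (by positivity) hν1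
  have hL0 : 0 ≤ L := (inv_nonneg.2 (abs_nonneg ν)).trans hL
  have he0 : 0 ≤ e₀ := by positivity
  have hU0 : 0 ≤ U := by positivity
  have hp : ∀ a b : ℝ, 0 ≤ a → 0 ≤ b → 0 ≤ L * a + b := fun a b ha hb => by positivity
  refine ⟨α, β, ν, hrot, hTu.1, hTu.2, ?_, ?_, fun Z hZ hclose => ?_⟩
  · rw [one_div]
    refine inv_le_of_inv_le₀ hνpos (hL.trans ?_)
    have := mul_nonneg hL0 he0
    have := mul_nonneg hL0 hK.le
    rw [hC₀]; linarith
  · have := mul_nonneg hL0 he0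
    have := mul_nonneg hL0 hK.le
    rw [hC₀]; linarith
  have hsw : s ≤ w := hsη.trans (hηw.trans (pow_le_of_le_one hw.le hw_1 three_ne_zero))
  obtain ⟨c11, c12, c22⟩ := abs_dd_le ((hZ.smooth 0 h03).of_le (by norm_cast)) hZ₀2
    (hclose 0 (Metric.mem_closedBall_self zero_le_two) 2 (by norm_num))
  have ha1 : α ^ 2 ≤ 1 := by linarith [sq_nonneg β]
  have hb1 : β ^ 2 ≤ 1 := by linarith [sq_nonneg α]
  have hab : |α * β| ≤ 1 := abs_le.2
    ⟨by nlinarith [sq_nonneg (α + β)], by nlinarith [sq_nonneg (α - β)]⟩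
  have h2ab : |2 * α * β| ≤ 2 := by rw [mul_assoc, abs_mul, abs_two]; linarith
  have hα2 : |α ^ 2| ≤ 1 := by rwa [abs_of_nonneg (sq_nonneg α)]
  have hβ2 : |β ^ 2| ≤ 1 := by rwa [abs_of_nonneg (sq_nonneg β)]
  have hew : K * (27 * w) / c ^ 2 + 4 * w = e₀ * w := by rw [he₀]; ring
  have hK27 : 0 ≤ K * (27 * w) / c ^ 2 := by positivity
  have t11 : |α ^ 2 * d1 (d1 Z) 0 + 2 * α * β * d1 (d2 Z) 0 + β ^ 2 * d2 (d2 Z) 0 - ν| ≤
      e₀ * w := by
    have := entry_le hα2 h2ab hβ2 c11 c12 c22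
    rw [hν]
    linarith
  have t12 : |-(α * β) * d1 (d1 Z) 0 + (α ^ 2 - β ^ 2) * d1 (d2 Z) 0 + α * β * d2 (d2 Z) 0| ≤
      e₀ * w := by
    have := entry_le (p := -(α * β)) (q := α ^ 2 - β ^ 2) (r := α * β) (by rwa [abs_neg])
      (abs_le.2 ⟨by linarith [sq_nonneg α], by linarith [sq_nonneg β]⟩) hab c11 c12 c22
    have := (abs_sub_abs_le_abs_sub _ _).trans this
    linarith
  have t22 : |β ^ 2 * d1 (d1 Z) 0 - 2 * α * β * d1 (d2 Z) 0 + α ^ 2 * d2 (d2 Z) 0| ≤ e₀ * w := by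
    have := entry_le (p := β ^ 2) (q := -(2 * α * β)) (r := α ^ 2) hβ2 (by rwa [abs_neg]) hα2
      c11 c12 c22
    simp only [neg_mul, ← sub_eq_add_neg] at this
    have := (abs_sub_abs_le_abs_sub _ _).trans this
    linarith
  obtain ⟨hsm, hbd⟩ := normed_bound hC₁ hw.le (mul_nonneg he0 hw.le) hrot hL hZ t11 t12 t22 hν0
  have hLK : L * C₁ ≤ L * K := mul_le_mul_of_nonneg_left (le_max_left _ _) hL0
  refine ⟨hsm, fun x hx k hk => (hbd x hx k hk).trans ?_, fun Z' hZ' hclose' x hx k hk => ?_,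
    fun φ hφ hDZ x hx => ?_⟩
  · have h1 : L * C₁ * w ≤ L * K * w := mul_le_mul_of_nonneg_right hLK hw.le
    have h2 : 0 ≤ (16 * L + U + L + 1) * w := by positivity
    rw [hC₀]
    linarith
  · exact (normed_diff hrot hL hs hZ hZ' hclose hclose' hx hk).trans
      (mul_le_mul_of_nonneg_right (by
        have := mul_nonneg hL0 he0
        have := mul_nonneg hL0 hK.le
        rw [hC₀]; linarith) hs)
  · exact normed_darboux hw hν0 hrot hZ hφ hDZ hx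

end Vale.Agent.P229.Island
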