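import Vale.Agent.P229.Island.Scaled
import Vale.Agent.P229.Island.Cutoffs
import Vale.Agent.P229.Island.Affine

/-!
# P229 seat E: the global objects attached to a pair of height functions, with uniform bounds

`p.φ = η • pocket + B` and `p.Z` is its height function in the scaled normal coordinates; the same
for the primed objects. All bounds are uniform over the family `Fam C₀`.
-/

namespace Vale.Agent.P229.Island

open Filter
open scoped ContDiff Topology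

/-- The model height function. -/
noncomputable def sq1 (x : P2) : ℝ := x.1 ^ 2 / 2

/-- The open disc of squared radius two. -/
def O2 : Set P2 := {x | rsq x < 2}

lemma isOpen_O2 : IsOpen O2 := isOpen_lt continuous_rsq continuous_const

/-- Two perturbations of the pocket with height functions. -/
structure Pair where
  w : ℝ
  η : ℝ
  s : ℝ
  κ : ℝ
  B : P2 → ℝ
  B' : P2 → ℝ
  Z : P2 → ℝ
  Z' : P2 → ℝ

namespace Pair

noncomputable def φ (p : Pair) (x : P2) : ℝ := p.η * pocket x + p.B x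

noncomputable def φ' (p : Pair) (x : P2) : ℝ := p.η * pocket x + p.B' x

/-- What a pair is asked to satisfy. -/
structure Ok (p : Pair) (C₀ : ℝ) : Prop where
  one_le : 1 ≤ C₀
  w_pos : 0 < p.w
  w_le : p.w ≤ 1
  η_pos : 0 < p.η
  η_le : p.η ≤ p.w ^ 3
  s_nonneg : 0 ≤ p.s
  s_le : p.s ≤ p.η * p.w
  κ_lo : 1 / (C₀ * p.w ^ 2) ≤ p.κ
  κ_hi : p.κ ≤ C₀ / p.w ^ 2
  hB : ContDiff ℝ 7 p.B
  hB' : ContDiff ℝ 7 p.B'
  hBb : ∀ x, ∀ k ≤ 7, ‖iteratedFDeriv ℝ k p.B x‖ ≤ p.s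
  hBb' : ∀ x, ∀ k ≤ 7, ‖iteratedFDeriv ℝ k p.B' x‖ ≤ p.s
  hZ : ContDiffOn ℝ 7 p.Z O2
  hZ' : ContDiffOn ℝ 7 p.Z' O2
  hZb : ∀ x ∈ O2, ∀ k ≤ 7, ‖iteratedFDeriv ℝ k (fun y => p.Z y - sq1 y) x‖ ≤ C₀ * p.w
  hZb' : ∀ x ∈ O2, ∀ k ≤ 7, ‖iteratedFDeriv ℝ k (fun y => p.Z' y - sq1 y) x‖ ≤ C₀ * p.w
  hW : ∀ x ∈ O2, ∀ k ≤ 3, ‖iteratedFDeriv ℝ k (fun y => p.Z y - p.Z' y) x‖ ≤ C₀ * p.s
  hD : ∀ x ∈ O2, Darboux p.κ p.φ p.Z x
  hD' : ∀ x ∈ O2, Darboux p.κ p.φ' p.Z' x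

variable {p : Pair} {C₀ : ℝ}

lemma Ok.κ_pos (h : p.Ok C₀) : 0 < p.κ := by
  have := h.one_le
  have := h.w_pos
  exact lt_of_lt_of_le (by positivity) h.κ_lo

lemma Ok.inv_κ (h : p.Ok C₀) : p.κ⁻¹ ≤ C₀ * p.w ^ 2 := by
  have := h.one_le
  have := h.w_pos
  rw [inv_le_comm₀ h.κ_pos (by positivity), ← one_div]
  exact h.κ_lo

lemma Ok.one_le_κ (h : p.Ok C₀) : 1 ≤ C₀ * p.κ := by
  have h1 := h.inv_κ
  have hk := h.κ_pos
  rw [inv_le_iff_one_le_mul₀ hk] at h1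
  have : p.w ^ 2 ≤ 1 := pow_le_one₀ h.w_pos.le h.w_le
  calc (1:ℝ) ≤ C₀ * p.w ^ 2 * p.κ := h1
    _ ≤ C₀ * 1 * p.κ := by have := h.one_le; gcongr
    _ = C₀ * p.κ := by ring

lemma Ok.η_le_w (h : p.Ok C₀) : p.η ≤ p.w :=
  h.η_le.trans (by simpa using pow_le_pow_of_le_one h.w_pos.le h.w_le (show 1 ≤ 3 by norm_num))

lemma Ok.η_le_one (h : p.Ok C₀) : p.η ≤ 1 := h.η_le_w.trans h.w_le

lemma Ok.s_le_η (h : p.Ok C₀) : p.s ≤ p.η :=
  h.s_le.trans (mul_le_of_le_one_right h.η_pos.le h.w_le)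

lemma Ok.s_le_w (h : p.Ok C₀) : p.s ≤ p.w := h.s_le_η.trans h.η_le_w

lemma Ok.s_le_one (h : p.Ok C₀) : p.s ≤ 1 := h.s_le_w.trans h.w_le

/-- `η ≤ C₀ e w` for the pocket size `e = κ η`. -/
lemma Ok.η_le_ew (h : p.Ok C₀) : p.η ≤ C₀ * (p.κ * p.η * p.w) := by
  have h1 := h.inv_κ
  rw [inv_le_iff_one_le_mul₀ h.κ_pos] at h1
  have h2 : 0 ≤ C₀ * p.κ * p.w := by
    have := h.one_le; have := h.κ_pos; have := h.w_pos; positivity
  calc p.η = 1 * p.η := (one_mul _).symm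
    _ ≤ (C₀ * p.w ^ 2 * p.κ) * p.η := mul_le_mul_of_nonneg_right h1 h.η_pos.le
    _ = C₀ * p.κ * p.w * p.η * p.w := by ring
    _ ≤ C₀ * p.κ * p.w * p.η * 1 :=
        mul_le_mul_of_nonneg_left h.w_le (mul_nonneg h2 h.η_pos.le)
    _ = C₀ * (p.κ * p.η * p.w) := by ring

end Pair

/-- All admissible pairs for one constant. -/
abbrev Fam (C₀ : ℝ) : Type := {p : Pair // p.Ok C₀}

/-! ### Quadratic first order terms -/

noncomputable def gam11 (φ Z : P2 → ℝ) (x : P2) : ℝ := -d1 φ x * d1 Z x + d2 φ x * d2 Z x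

noncomputable def gam12 (φ Z : P2 → ℝ) (x : P2) : ℝ := -d2 φ x * d1 Z x - d1 φ x * d2 Z x

section

variable {ι : Type} {f g : ι → P2 → ℝ} {s t : ι → ℝ} {n : ℕ}

lemma Sc.gam11 (h : Sc (n + 1) s f) (h' : Sc (n + 1) t g) :
    Sc n (fun i => s i * t i) fun i => gam11 (f i) (g i) :=
  (((h.d1'.mul h'.d1').neg).add (h.d2'.mul h'.d2')).congr fun i x => by
    simp only [Island.gam11]; ring

lemma Sc.gam12 (h : Sc (n + 1) s f) (h' : Sc (n + 1) t g) :
    Sc n (fun i => s i * t i) fun i => gam12 (f i) (g i) :=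
  (((h.d2'.mul h'.d1').neg).sub (h.d1'.mul h'.d2')).congr fun i x => by
    simp only [Island.gam12]; ring

/-- Scaling by a uniformly bounded constant. -/
lemma Sc.const_mul_le (c : ι → ℝ) (h : Sc n s f) {D : ℝ} (ht : ∀ i, 0 ≤ t i)
    (hc : ∀ i, |c i| * s i ≤ D * t i) : Sc n t fun i x => c i * f i x :=
  (h.const_mul c).mono_scale ht hc

lemma Sc.half (h : Sc n s f) : Sc n s fun i x => f i x / 2 :=
  (h.const_mul_le (fun _ => 1/2) (D := 1) h.2.1 fun i => by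
    have := h.2.1 i; norm_num; linarith).congr fun i x => by ring

lemma Sc.laplace (h : Sc (n + 2) s f) : Sc n s fun i => lap (f i) :=
  h.d1'.d1'.add h.d2'.d2'

end

namespace Pair

variable (p : Pair)

/-- Cut-off error of a height function. -/
noncomputable def Ne (Z : P2 → ℝ) (x : P2) : ℝ := cutO x * (Z x - sq1 x)

noncomputable def W (x : P2) : ℝ := Ne p.Z x - Ne p.Z' x

noncomputable def Nm (x : P2) : ℝ := (Ne p.Z x + Ne p.Z' x) / 2

noncomputable def Zm (x : P2) : ℝ := cutO x * sq1 x + p.Nm x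

noncomputable def φm (x : P2) : ℝ := p.η * pocket x + (p.B x + p.B' x) / 2

noncomputable def δ (x : P2) : ℝ := p.B x - p.B' x

noncomputable def R11 (x : P2) : ℝ := gam11 p.φm p.Zm x + gam11 p.δ p.W x / 4

noncomputable def R12 (x : P2) : ℝ := gam12 p.φm p.Zm x + gam12 p.δ p.W x / 4

noncomputable def T11 (x : P2) : ℝ := d1 (d1 p.Nm) x + p.R11 x

noncomputable def T12 (x : P2) : ℝ := d1 (d2 p.Nm) x + p.R12 x

noncomputable def T22 (x : P2) : ℝ := d2 (d2 p.Nm) x - p.R11 x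

/-- The reciprocal of the averaged `H11`. -/
noncomputable def I (x : P2) : ℝ := invOne (1 + p.T11 x)

noncomputable def Z₁ (x : P2) : ℝ := p.Zm x + p.W x / 2

noncomputable def Z₂ (x : P2) : ℝ := p.Zm x - p.W x / 2

noncomputable def Y1 (x : P2) : ℝ := Real.exp (2 * p.φ x) - p.κ⁻¹ * gradSq p.Z₁ x

noncomputable def Y2 (x : P2) : ℝ := Real.exp (2 * p.φ' x) - p.κ⁻¹ * gradSq p.Z₂ x

noncomputable def Y (x : P2) : ℝ := (p.Y1 x + p.Y2 x) / 2

noncomputable def G11 (x : P2) : ℝ := d1 (d1 p.W) x + gam11 p.φm p.W x + gam11 p.δ p.Zm x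

noncomputable def G12 (x : P2) : ℝ := d1 (d2 p.W) x + gam12 p.φm p.W x + gam12 p.δ p.Zm x

noncomputable def G22 (x : P2) : ℝ := d2 (d2 p.W) x - gam11 p.φm p.W x - gam11 p.δ p.Zm x

/-- The ratio of the pocket part of `a` to `e (1 - rsq)`. -/
noncomputable def R0 (x : P2) : ℝ := p.I x * p.I x * p.Y x

/-- The rest of `a`. -/
noncomputable def E (x : P2) : ℝ :=
  p.I x * p.I x * (p.κ * ((lap p.B x * p.Y1 x + lap p.B' x * p.Y2 x) / 2) +
    (p.G11 x * p.G22 x - p.G12 x * p.G12 x) / 4)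

end Pair

variable {C₀ : ℝ}

lemma sc_pocket : Sc 7 (fun _ : Fam C₀ => (1 : ℝ)) fun _ => pocket :=
  let ⟨_, _, hB⟩ := exists_pocket_bound 7
  Sc.fixed (contDiff_pocket 7) hB

lemma sc_B : Sc 7 (fun p : Fam C₀ => p.1.s) (fun p => p.1.B) ∧
    Sc 7 (fun p : Fam C₀ => p.1.s) (fun p => p.1.B') :=
  ⟨Sc.of_bound (fun p => p.2.hB) (fun p => p.2.s_nonneg) 1 fun p x k hk => by
      simpa using p.2.hBb x k hk,
    Sc.of_bound (fun p => p.2.hB') (fun p => p.2.s_nonneg) 1 fun p x k hk => by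
      simpa using p.2.hBb' x k hk⟩

lemma sc_eta_pocket : Sc 7 (fun p : Fam C₀ => p.1.η) fun p x => p.1.η * pocket x :=
  sc_pocket.const_mul_le (fun p => p.1.η) (D := 1) (fun p => p.2.η_pos.le) fun p => by
    simp [abs_of_pos p.2.η_pos]

lemma sc_phi : Sc 7 (fun p : Fam C₀ => p.1.η) (fun p => p.1.φ) ∧
    Sc 7 (fun p : Fam C₀ => p.1.η) (fun p => p.1.φ') ∧
    Sc 7 (fun p : Fam C₀ => p.1.η) (fun p => p.1.φm) ∧
    Sc 7 (fun p : Fam C₀ => p.1.s) (fun p => p.1.δ) := by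
  have up : ∀ p : Fam C₀, p.1.s ≤ 1 * p.1.η := fun p => by simpa using p.2.s_le_η
  obtain ⟨hB, hB'⟩ := sc_B (C₀ := C₀)
  refine ⟨?_, ?_, ?_, (hB.sub hB').congr fun p x => rfl⟩
  · exact (sc_eta_pocket.add (hB.mono_scale (fun p => p.2.η_pos.le) up)).congr fun p x => rfl
  · exact (sc_eta_pocket.add (hB'.mono_scale (fun p => p.2.η_pos.le) up)).congr fun p x => rfl
  · exact (sc_eta_pocket.add ((hB.add hB').half.mono_scale (fun p => p.2.η_pos.le) up)).congr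
      fun p x => rfl

lemma contDiff_sq1 (n : ℕ∞ω) : ContDiff ℝ n sq1 := by
  unfold sq1
  exact (contDiff_fst.pow 2).div_const 2

lemma tsupport_cutO : tsupport cutO ⊆ O2 := (tsupport_radCut (by norm_num)).trans fun x hx => by
  have : rsq x ≤ 39/20 := hx
  show rsq x < 2
  linarith

lemma cutO_one {x : P2} (h : rsq x ≤ 9/5) : cutO x = 1 := radCut_one (by norm_num) h

lemma cutI_one {x : P2} (h : rsq x ≤ 31/20) : cutI x = 1 := radCut_one (by norm_num) h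

lemma sc_Ne : Sc 7 (fun p : Fam C₀ => p.1.w) (fun p => Pair.Ne p.1.Z) ∧
    Sc 7 (fun p : Fam C₀ => p.1.w) (fun p => Pair.Ne p.1.Z') := by
  obtain ⟨B, -, hB⟩ := exists_radCut_bound (a := 9/5) (b := 39/20) (by norm_num) 7
  exact ⟨Sc.cutoff isOpen_O2 (contDiff_radCut _ _ 7) tsupport_cutO hB
      (fun p => p.2.hZ.sub (contDiff_sq1 7).contDiffOn) (fun p => p.2.w_pos.le) fun p => p.2.hZb,
    Sc.cutoff isOpen_O2 (contDiff_radCut _ _ 7) tsupport_cutO hB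
      (fun p => p.2.hZ'.sub (contDiff_sq1 7).contDiffOn) (fun p => p.2.w_pos.le) fun p => p.2.hZb'⟩

lemma sc_W : Sc 7 (fun p : Fam C₀ => p.1.w) (fun p => p.1.W) ∧
    Sc 3 (fun p : Fam C₀ => p.1.s) (fun p => p.1.W) := by
  obtain ⟨B, -, hB⟩ := exists_radCut_bound (a := 9/5) (b := 39/20) (by norm_num) 3
  refine ⟨(sc_Ne.1.sub sc_Ne.2).congr fun p x => rfl, ?_⟩
  refine Sc.congr (Sc.cutoff (f := fun (p : Fam C₀) x => p.1.Z x - p.1.Z' x) isOpen_O2
    (contDiff_radCut _ _ 3) tsupport_cutO hB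
    (fun p => (p.2.hZ.sub p.2.hZ').of_le (by norm_num)) (fun p => p.2.s_nonneg) fun p => p.2.hW) ?_
  intro p x
  simp only [Pair.W, Pair.Ne, cutO]
  ring

lemma sc_one_of_w {f : Fam C₀ → P2 → ℝ} {n : ℕ} (h : Sc n (fun p : Fam C₀ => p.1.w) f) :
    Sc n (fun _ : Fam C₀ => (1 : ℝ)) f :=
  h.mono_scale (D := 1) (fun _ => zero_le_one) fun p => by simpa using p.2.w_le

lemma sc_Zm : Sc 7 (fun p : Fam C₀ => p.1.w) (fun p => p.1.Nm) ∧
    Sc 7 (fun _ : Fam C₀ => (1 : ℝ)) (fun p => p.1.Zm) ∧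
    Sc 7 (fun _ : Fam C₀ => (1 : ℝ)) (fun p => p.1.Z₁) ∧
    Sc 7 (fun _ : Fam C₀ => (1 : ℝ)) (fun p => p.1.Z₂) := by
  have hN : Sc 7 (fun p : Fam C₀ => p.1.w) (fun p => p.1.Nm) :=
    (sc_Ne.1.add sc_Ne.2).half.congr fun p x => rfl
  obtain ⟨B, -, hB⟩ := exists_bound_of_compactSupport (f := fun y => cutO y * sq1 y)
    (fun n => (contDiff_radCut _ _ n).mul (contDiff_sq1 _))
    (hasCompactSupport_radCut (by norm_num)).mul_right 7
  have hZm : Sc 7 (fun _ : Fam C₀ => (1 : ℝ)) (fun p => p.1.Zm) :=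
    ((Sc.fixed ((contDiff_radCut _ _ 7).mul (contDiff_sq1 _)) hB).add (sc_one_of_w hN)).congr
      fun p x => rfl
  have hW := (sc_one_of_w (sc_W (C₀ := C₀)).1).half
  exact ⟨hN, hZm, (hZm.add hW).congr fun p x => rfl, (hZm.sub hW).congr fun p x => rfl⟩

lemma sc_R : Sc 5 (fun p : Fam C₀ => p.1.η) (fun p => p.1.R11) ∧
    Sc 5 (fun p : Fam C₀ => p.1.η) (fun p => p.1.R12) := by
  obtain ⟨-, -, hm, hd⟩ := sc_phi (C₀ := C₀)
  have hz := (sc_Zm (C₀ := C₀)).2.1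
  have hw := sc_one_of_w (sc_W (C₀ := C₀)).1
  have a1 := ((hm.gam11 hz).mono_order (m := 5) (by norm_num)).mono_scale (D := 1)
    (t := fun p : Fam C₀ => p.1.η) (fun p => p.2.η_pos.le) fun p => by simp
  have a2 := ((hm.gam12 hz).mono_order (m := 5) (by norm_num)).mono_scale (D := 1)
    (t := fun p : Fam C₀ => p.1.η) (fun p => p.2.η_pos.le) fun p => by simp
  have b1 := ((hd.gam11 hw).mono_order (m := 5) (by norm_num)).mono_scale (D := 1)
    (t := fun p : Fam C₀ => p.1.η) (fun p => p.2.η_pos.le) fun p => by simpa using p.2.s_le_η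
  have b2 := ((hd.gam12 hw).mono_order (m := 5) (by norm_num)).mono_scale (D := 1)
    (t := fun p : Fam C₀ => p.1.η) (fun p => p.2.η_pos.le) fun p => by simpa using p.2.s_le_η
  exact ⟨(a1.add b1.half.half).congr fun p x => by simp only [Pair.R11]; ring,
    (a2.add b2.half.half).congr fun p x => by simp only [Pair.R12]; ring⟩

lemma sc_T : Sc 5 (fun p : Fam C₀ => p.1.w) (fun p => p.1.T11) ∧
    Sc 5 (fun p : Fam C₀ => p.1.w) (fun p => p.1.T12) ∧
    Sc 5 (fun p : Fam C₀ => p.1.w) (fun p => p.1.T22) := by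
  have up : ∀ p : Fam C₀, p.1.η ≤ 1 * p.1.w := fun p => by simpa using p.2.η_le_w
  have h1 := (sc_R (C₀ := C₀)).1.mono_scale (fun p => p.2.w_pos.le) up
  have h2 := (sc_R (C₀ := C₀)).2.mono_scale (fun p => p.2.w_pos.le) up
  have hN := (sc_Zm (C₀ := C₀)).1
  exact ⟨(hN.d1'.d1'.add h1).congr fun p x => rfl, (hN.d2'.d1'.add h2).congr fun p x => rfl,
    (hN.d2'.d2'.sub h1).congr fun p x => rfl⟩

/-- `invOne (1 + t) - 1` is a multiple of `t`. -/
lemma invOne_one_add (t : ℝ) : invOne (1 + t) - 1 =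
    -(t * Real.smoothTransition ((9/16 - t ^ 2) * 4)) * invOne (1 + t) := by
  have h := invOne_den_pos (1 + t)
  simp only [invOne, add_sub_cancel_left] at h ⊢
  generalize t * Real.smoothTransition ((9/16 - t ^ 2) * 4) = D at h ⊢
  linear_combination inv_mul_cancel₀ h.ne'

lemma sc_I : Sc 5 (fun _ : Fam C₀ => (1 : ℝ)) (fun p => p.1.I) ∧
    Sc 5 (fun p : Fam C₀ => p.1.w) (fun p x => p.1.I x - 1) := by
  have hT := (sc_T (C₀ := C₀)).1
  have hw1 : ∀ p : Fam C₀, p.1.w ≤ 1 := fun p => p.2.w_le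
  obtain ⟨B, hB⟩ := exists_invOne_bound 5
  have hI : Sc 5 (fun _ : Fam C₀ => (1 : ℝ)) (fun p => p.1.I) :=
    (hT.comp (φ := fun t => invOne (1 + t)) hw1
      ((contDiff_invOne 5).comp (contDiff_const.add contDiff_id))
      (fun u k hk => by rw [iteratedFDeriv_comp_add_left]; exact hB _ k hk)).congr fun p x => rfl
  let χ : ℝ → ℝ := fun t => Real.smoothTransition ((9/16 - t ^ 2) * 4)
  have hχ : ∀ n : ℕ, ContDiff ℝ n χ := fun n =>
    Real.smoothTransition.contDiff.comp ((contDiff_const.sub (contDiff_id.pow 2)).mul contDiff_const)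
  have hχs : HasCompactSupport χ :=
    HasCompactSupport.intro (isCompact_Icc (a := (-1:ℝ)) (b := 1)) fun t ht => by
      refine Real.smoothTransition.zero_of_nonpos ?_
      simp only [Set.mem_Icc, not_and_or, not_le] at ht
      rcases ht with ht | ht <;> nlinarith
  obtain ⟨B', -, hB'⟩ := exists_bound_of_compactSupport hχ hχs 5
  have hm := ((hT.mul (hT.comp hw1 (hχ 5) hB')).neg).mul hI
  refine ⟨hI, (hm.mono_scale (D := 1) (fun p => p.2.w_pos.le) fun p => by simp).congr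
    fun p x => ?_⟩
  exact invOne_one_add _

lemma sc_gradSq {f : Fam C₀ → P2 → ℝ} {n : ℕ} (h : Sc (n + 1) (fun _ : Fam C₀ => (1 : ℝ)) f) :
    Sc n (fun _ : Fam C₀ => (1 : ℝ)) fun p => gradSq (f p) :=
  (((h.d1'.mul h.d1').add (h.d2'.mul h.d2')).mono_scale (D := 1) (fun _ => zero_le_one)
    fun _ => by simp).congr fun p x => by simp only [gradSq]; ring

lemma sc_Y : Sc 5 (fun p : Fam C₀ => p.1.w) (fun p x => p.1.Y1 x - 1) ∧
    Sc 5 (fun p : Fam C₀ => p.1.w) (fun p x => p.1.Y2 x - 1) ∧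
    Sc 5 (fun p : Fam C₀ => p.1.w) (fun p x => p.1.Y x - 1) := by
  have key : ∀ (f g : Fam C₀ → P2 → ℝ), Sc 7 (fun p : Fam C₀ => p.1.η) f →
      Sc 7 (fun _ : Fam C₀ => (1 : ℝ)) g →
      Sc 5 (fun p : Fam C₀ => p.1.w)
        (fun p x => Real.exp (2 * f p x) - p.1.κ⁻¹ * gradSq (g p) x - 1) := by
    intro f g hf hg
    have h2 : Sc 7 (fun p : Fam C₀ => p.1.η) fun p x => 2 * f p x :=
      hf.const_mul_le (fun _ => 2) (D := 2) (fun p => p.2.η_pos.le) fun p => by simp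
    have h3 := ((h2.expm1 (S := 1) fun p => p.2.η_le_one).mono_order (m := 5) (by norm_num)
      ).mono_scale (D := 1) (t := fun p : Fam C₀ => p.1.w) (fun p => p.2.w_pos.le)
      fun p => by simpa using p.2.η_le_w
    have h4 := ((sc_gradSq (n := 6) hg).mono_order (m := 5) (by norm_num)).const_mul_le
      (fun p => p.1.κ⁻¹) (D := C₀) (t := fun p : Fam C₀ => p.1.w) (fun p => p.2.w_pos.le)
      fun p => by
        rw [mul_one, abs_of_pos (inv_pos.2 p.2.κ_pos)]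
        refine p.2.inv_κ.trans (mul_le_mul_of_nonneg_left ?_ (by linarith [p.2.one_le]))
        simpa using pow_le_pow_of_le_one p.2.w_pos.le p.2.w_le (show 1 ≤ 2 by norm_num)
    exact (h3.sub h4).congr fun p x => by ring
  have k1 := key _ _ (sc_phi (C₀ := C₀)).1 (sc_Zm (C₀ := C₀)).2.2.1
  have k2 := key _ _ (sc_phi (C₀ := C₀)).2.1 (sc_Zm (C₀ := C₀)).2.2.2
  exact ⟨k1, k2, (k1.add k2).half.congr fun p x => by
    simp only [Pair.Y, Pair.Y1, Pair.Y2]; ring⟩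

lemma sc_one_add {f : Fam C₀ → P2 → ℝ} {n : ℕ}
    (h : Sc n (fun p : Fam C₀ => p.1.w) (fun p x => f p x - 1)) :
    Sc n (fun _ : Fam C₀ => (1 : ℝ)) f :=
  ((sc_one_of_w h).add ((Sc.const fun _ : Fam C₀ => (1 : ℝ)).mono_scale (D := 1)
    (fun _ => zero_le_one) fun _ => by simp)).congr fun p x => by ring

lemma sc_R0 : Sc 5 (fun p : Fam C₀ => p.1.w) (fun p x => p.1.R0 x - 1) := by
  obtain ⟨hI, hI1⟩ := sc_I (C₀ := C₀)
  obtain ⟨-, -, hY⟩ := sc_Y (C₀ := C₀)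
  have hI2 : Sc 5 (fun _ : Fam C₀ => (1 : ℝ)) fun p x => (p.1.I x + 1) * p.1.Y x :=
    ((hI.add ((Sc.const fun _ : Fam C₀ => (1 : ℝ)).mono_scale (D := 1)
      (fun _ => zero_le_one) fun _ => by simp)).mul (sc_one_add hY)).mono_scale (D := 1)
      (fun _ => zero_le_one) fun _ => by simp
  have h := ((hI1.mul hI2).mono_scale (D := 1) (t := fun p : Fam C₀ => p.1.w)
    (fun p => p.2.w_pos.le) fun p => by simp).add hY
  exact h.congr fun p x => by simp only [Pair.R0]; ring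

lemma sc_G : Sc 1 (fun p : Fam C₀ => p.1.s) (fun p => p.1.G11) ∧
    Sc 1 (fun p : Fam C₀ => p.1.s) (fun p => p.1.G12) ∧
    Sc 1 (fun p : Fam C₀ => p.1.s) (fun p => p.1.G22) := by
  have hW := (sc_W (C₀ := C₀)).2
  obtain ⟨-, -, hm, hd⟩ := sc_phi (C₀ := C₀)
  have hm' := hm.mono_order (m := 2) (by norm_num)
  have hW' := hW.mono_order (m := 2) (by norm_num)
  have hd' := hd.mono_order (m := 2) (by norm_num)
  have hz' := (sc_Zm (C₀ := C₀)).2.1.mono_order (m := 2) (by norm_num)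
  have a1 := (hm'.gam11 hW').mono_scale (D := 1) (t := fun p : Fam C₀ => p.1.s)
    (fun p => p.2.s_nonneg) fun p => by
      simpa using mul_le_of_le_one_left p.2.s_nonneg p.2.η_le_one
  have a2 := (hm'.gam12 hW').mono_scale (D := 1) (t := fun p : Fam C₀ => p.1.s)
    (fun p => p.2.s_nonneg) fun p => by
      simpa using mul_le_of_le_one_left p.2.s_nonneg p.2.η_le_one
  have b1 := (hd'.gam11 hz').mono_scale (D := 1) (t := fun p : Fam C₀ => p.1.s)
    (fun p => p.2.s_nonneg) fun p => by simp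
  have b2 := (hd'.gam12 hz').mono_scale (D := 1) (t := fun p : Fam C₀ => p.1.s)
    (fun p => p.2.s_nonneg) fun p => by simp
  exact ⟨((hW.d1'.d1'.add a1).add b1).congr fun p x => rfl,
    ((hW.d2'.d1'.add a2).add b2).congr fun p x => rfl,
    ((hW.d2'.d2'.sub a1).sub b1).congr fun p x => rfl⟩

lemma sc_E : Sc 1 (fun p : Fam C₀ => p.1.κ * p.1.s) (fun p => p.1.E) := by
  have nn : ∀ p : Fam C₀, 0 ≤ p.1.κ * p.1.s := fun p => mul_nonneg p.2.κ_pos.le p.2.s_nonneg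
  obtain ⟨hB, hB'⟩ := sc_B (C₀ := C₀)
  obtain ⟨hY1, hY2, -⟩ := sc_Y (C₀ := C₀)
  obtain ⟨g1, g2, g3⟩ := sc_G (C₀ := C₀)
  have u1 := (hB.laplace.mono_order (m := 1) (by norm_num)).mul
    ((sc_one_add hY1).mono_order (m := 1) (by norm_num))
  have u2 := (hB'.laplace.mono_order (m := 1) (by norm_num)).mul
    ((sc_one_add hY2).mono_order (m := 1) (by norm_num))
  have u := (u1.add u2).half.const_mul_le (fun p => p.1.κ) (D := 1)
    (t := fun p : Fam C₀ => p.1.κ * p.1.s) nn fun p => by simp [abs_of_pos p.2.κ_pos]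
  have v := (((g1.mul g3).sub (g2.mul g2)).half.half).mono_scale (D := C₀)
    (t := fun p : Fam C₀ => p.1.κ * p.1.s) nn fun p => by
      calc p.1.s * p.1.s ≤ 1 * p.1.s := mul_le_mul_of_nonneg_right p.2.s_le_one p.2.s_nonneg
        _ ≤ C₀ * p.1.κ * p.1.s := mul_le_mul_of_nonneg_right p.2.one_le_κ p.2.s_nonneg
        _ = C₀ * (p.1.κ * p.1.s) := mul_assoc _ _ _
  have hI := (sc_I (C₀ := C₀)).1.mono_order (m := 1) (by norm_num)
  exact (((hI.mul hI).mul (u.add v)).mono_scale (D := 1) nn fun p => by simp).congr fun p x => by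
    simp only [Pair.E]; ring

end Vale.Agent.P229.Island
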