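import Vale.Agent.P229.Calc

/-!
# P229 seat E: families with scaled bounds on all derivatives up to a given order

`Sc n s f`: each `f i` is `C^n` and its derivatives up to order `n` are bounded by `C * s i`,
with one `C` for the whole family.
-/

namespace Vale.Agent.P229.Island

open scoped ContDiff
open Set Filter

variable {ι : Type} {f g : ι → P2 → ℝ} {s t : ι → ℝ} {n m : ℕ}

/-- Uniform bounds `C * s i` on the derivatives of `f i` of order at most `n`. -/
def Sc (n : ℕ) (s : ι → ℝ) (f : ι → P2 → ℝ) : Prop :=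
  (∀ i, ContDiff ℝ n (f i)) ∧ (∀ i, 0 ≤ s i) ∧
    ∃ C : ℝ, 0 ≤ C ∧ ∀ i x, ∀ k ≤ n, ‖iteratedFDeriv ℝ k (f i) x‖ ≤ C * s i

lemma Sc.smooth (h : Sc n s f) (i : ι) : ContDiff ℝ n (f i) := h.1 i

lemma Sc.scale_nonneg (h : Sc n s f) (i : ι) : 0 ≤ s i := h.2.1 i

lemma Sc.of_bound (hf : ∀ i, ContDiff ℝ n (f i)) (hs : ∀ i, 0 ≤ s i) (C : ℝ)
    (h : ∀ i x, ∀ k ≤ n, ‖iteratedFDeriv ℝ k (f i) x‖ ≤ C * s i) : Sc n s f :=
  ⟨hf, hs, max C 0, le_max_right _ _, fun i x k hk =>
    (h i x k hk).trans (mul_le_mul_of_nonneg_right (le_max_left _ _) (hs i))⟩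

lemma Sc.congr (h : Sc n s f) (e : ∀ i x, g i x = f i x) : Sc n s g := by
  obtain rfl : g = f := funext fun i => funext (e i)
  exact h

lemma Sc.mono_order (h : Sc n s f) (hm : m ≤ n) : Sc m s f := by
  obtain ⟨hf, hs, C, hC, hb⟩ := h
  exact ⟨fun i => (hf i).of_le (by exact_mod_cast hm), hs, C, hC,
    fun i x k hk => hb i x k (hk.trans hm)⟩

lemma Sc.mono_scale (h : Sc n s f) {D : ℝ} (ht : ∀ i, 0 ≤ t i) (hst : ∀ i, s i ≤ D * t i) :
    Sc n t f := by
  obtain ⟨hf, hs, C, hC, hb⟩ := h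
  refine Sc.of_bound hf ht (C * D) fun i x k hk => (hb i x k hk).trans ?_
  rw [mul_assoc]
  exact mul_le_mul_of_nonneg_left (hst i) hC

lemma Sc.add (h : Sc n s f) (h' : Sc n s g) : Sc n s fun i x => f i x + g i x := by
  obtain ⟨hf, hs, C, hC, hb⟩ := h
  obtain ⟨hg, -, D, hD, hb'⟩ := h'
  refine ⟨fun i => (hf i).add (hg i), hs, C + D, add_nonneg hC hD, fun i x k hk => ?_⟩
  rw [fun_iteratedFDeriv_add_apply ((hf i).of_le (by exact_mod_cast hk)).contDiffAt
    ((hg i).of_le (by exact_mod_cast hk)).contDiffAt, add_mul]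
  exact (norm_add_le _ _).trans (add_le_add (hb i x k hk) (hb' i x k hk))

lemma Sc.mul (h : Sc n s f) (h' : Sc n t g) :
    Sc n (fun i => s i * t i) fun i x => f i x * g i x := by
  obtain ⟨hf, hs, C, hC, hb⟩ := h
  obtain ⟨hg, ht, D, hD, hb'⟩ := h'
  refine Sc.of_bound (fun i => (hf i).mul (hg i)) (fun i => mul_nonneg (hs i) (ht i))
    (2 ^ n * (C * D)) fun i x k hk => ?_
  refine (norm_iteratedFDeriv_mul_le (hf i) (hg i) x (n := k) (by exact_mod_cast hk)).trans ?_
  have hst : 0 ≤ C * D * (s i * t i) := by have := hs i; have := ht i; positivity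
  calc ∑ l ∈ Finset.range (k + 1), (k.choose l : ℝ) * ‖iteratedFDeriv ℝ l (f i) x‖ *
        ‖iteratedFDeriv ℝ (k - l) (g i) x‖
      ≤ ∑ l ∈ Finset.range (k + 1), (k.choose l : ℝ) * (C * D * (s i * t i)) := by
        refine Finset.sum_le_sum fun l hl => ?_
        have hl' := Finset.mem_range.1 hl
        rw [mul_assoc, show C * D * (s i * t i) = (C * s i) * (D * t i) by ring]
        exact mul_le_mul_of_nonneg_left (mul_le_mul (hb i x l (by omega)) (hb' i x (k - l) (by omega))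
          (norm_nonneg _) (mul_nonneg hC (hs i))) (Nat.cast_nonneg _)
    _ = 2 ^ k * (C * D * (s i * t i)) := by
        rw [← Finset.sum_mul, ← Nat.cast_sum, Nat.sum_range_choose, Nat.cast_pow, Nat.cast_ofNat]
    _ ≤ 2 ^ n * (C * D) * (s i * t i) := by
        rw [mul_assoc (2 ^ n : ℝ)]
        exact mul_le_mul_of_nonneg_right (pow_le_pow_right₀ one_le_two hk) hst

lemma Sc.const (c : ι → ℝ) : Sc n (fun i => |c i|) fun i (_ : P2) => c i := by
  refine Sc.of_bound (fun _ => contDiff_const) (fun i => abs_nonneg _) 1 fun i x k _ => ?_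
  rcases Nat.eq_zero_or_pos k with rfl | hk
  · simp
  · rw [iteratedFDeriv_const_of_ne hk.ne']; simp

lemma Sc.const_mul (c : ι → ℝ) (h : Sc n s f) :
    Sc n (fun i => |c i| * s i) fun i x => c i * f i x := (Sc.const c).mul h

lemma Sc.neg (h : Sc n s f) : Sc n s fun i x => -f i x :=
  (((Sc.const fun _ => (-1 : ℝ)).mul h).congr fun i x => (neg_one_mul _).symm).mono_scale (D := 1)
    h.2.1 fun i => by simp

lemma Sc.sub (h : Sc n s f) (h' : Sc n s g) : Sc n s fun i x => f i x - g i x :=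
  (h.add h'.neg).congr fun _ _ => sub_eq_add_neg _ _

lemma norm_dir : ‖((1, 0) : P2)‖ = 1 ∧ ‖((0, 1) : P2)‖ = 1 :=
  ⟨by simp [Prod.norm_def], by simp [Prod.norm_def]⟩

lemma Sc.pd (h : Sc (n + 1) s f) {u : P2} (hu : ‖u‖ = 1) :
    Sc n s fun i x => fderiv ℝ (f i) x u := by
  obtain ⟨hf, hs, C, hC, hb⟩ := h
  refine ⟨fun i => ((hf i).fderiv_right (m := (n : ℕ∞ω)) (by push_cast; rfl)).clm_apply
    contDiff_const, hs, C, hC, fun i x k hk => ?_⟩
  have hd : ContDiff ℝ n (fderiv ℝ (f i)) := (hf i).fderiv_right (by push_cast; rfl)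
  refine (norm_iteratedFDeriv_clm_apply_const hd.contDiffAt (by exact_mod_cast hk)).trans ?_
  rw [hu, one_mul, norm_iteratedFDeriv_fderiv]
  exact hb i x (k + 1) (by omega)

lemma Sc.d1' (h : Sc (n + 1) s f) : Sc n s fun i => d1 (f i) := h.pd norm_dir.1

lemma Sc.d2' (h : Sc (n + 1) s f) : Sc n s fun i => d2 (f i) := h.pd norm_dir.2

lemma Sc.comp {φ : ℝ → ℝ} (h : Sc n s f) {S B : ℝ} (hS : ∀ i, s i ≤ S) (hφ : ContDiff ℝ n φ)
    (hB : ∀ u, ∀ k ≤ n, ‖iteratedFDeriv ℝ k φ u‖ ≤ B) :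
    Sc n (fun _ => 1) fun i x => φ (f i x) := by
  obtain ⟨hf, hs, C, hC, hb⟩ := h
  refine Sc.of_bound (fun i => hφ.comp (hf i)) (fun _ => zero_le_one)
    (n.factorial * B * max 1 (C * S) ^ n) fun i x k hk => ?_
  have hB0 : 0 ≤ B := (norm_nonneg _).trans (hB 0 0 (Nat.zero_le _))
  rw [mul_one]
  refine (norm_iteratedFDeriv_comp_le (g := φ) (f := f i) (hφ.of_le le_rfl) (hf i)
    (n := k) (by exact_mod_cast hk) x (C := B) (D := max 1 (C * S))
    (fun l hl => hB _ l (hl.trans hk)) fun l hl1 hl => ?_).trans ?_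
  · calc ‖iteratedFDeriv ℝ l (f i) x‖ ≤ C * s i := hb i x l (hl.trans hk)
      _ ≤ max 1 (C * S) := (mul_le_mul_of_nonneg_left (hS i) hC).trans (le_max_right _ _)
      _ ≤ max 1 (C * S) ^ l := le_self_pow₀ (le_max_left _ _) (by omega)
  · gcongr
    exact le_max_left _ _

/-- A cut-off turns bounds on an open set into global bounds. -/
lemma Sc.cutoff {χ : P2 → ℝ} {U : Set P2} (hU : IsOpen U) (hχ : ContDiff ℝ n χ)
    (hsupp : tsupport χ ⊆ U) {B : ℝ} (hB : ∀ x, ∀ k ≤ n, ‖iteratedFDeriv ℝ k χ x‖ ≤ B)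
    (hf : ∀ i, ContDiffOn ℝ n (f i) U) (hs : ∀ i, 0 ≤ s i) {C : ℝ}
    (hb : ∀ i, ∀ x ∈ U, ∀ k ≤ n, ‖iteratedFDeriv ℝ k (f i) x‖ ≤ C * s i) :
    Sc n s fun i x => χ x * f i x := by
  have hzero : ∀ (i : ι) (x : P2), x ∉ tsupport χ →
      (fun y => χ y * f i y) =ᶠ[nhds x] fun _ => (0 : ℝ) := fun i x hx => by
    filter_upwards [notMem_tsupport_iff_eventuallyEq.1 hx] with y hy
    simp [hy]
  refine Sc.of_bound (fun i => contDiff_iff_contDiffAt.2 fun x => ?_) hs (2 ^ n * (B * max C 0))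
    fun i x k hk => ?_
  · by_cases hx : x ∈ U
    · exact hχ.contDiffAt.mul ((hf i).contDiffAt (hU.mem_nhds hx))
    · exact contDiffAt_const.congr_of_eventuallyEq (hzero i x fun h => hx (hsupp h))
  · have hB0 : 0 ≤ B := (norm_nonneg _).trans (hB x 0 (Nat.zero_le _))
    have hrhs : 0 ≤ B * (max C 0 * s i) := mul_nonneg hB0 (mul_nonneg (le_max_right _ _) (hs i))
    by_cases hx : x ∈ U
    · rw [← iteratedFDerivWithin_of_isOpen k hU hx]
      refine (norm_iteratedFDerivWithin_mul_le hχ.contDiffOn (hf i) hU.uniqueDiffOn hx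
        (n := k) (by exact_mod_cast hk)).trans ?_
      calc ∑ l ∈ Finset.range (k + 1), (k.choose l : ℝ) * ‖iteratedFDerivWithin ℝ l χ U x‖ *
            ‖iteratedFDerivWithin ℝ (k - l) (f i) U x‖
          ≤ ∑ l ∈ Finset.range (k + 1), (k.choose l : ℝ) * (B * (max C 0 * s i)) := by
            refine Finset.sum_le_sum fun l hl => ?_
            have hl' := Finset.mem_range.1 hl
            rw [iteratedFDerivWithin_of_isOpen l hU hx, iteratedFDerivWithin_of_isOpen (k - l) hU hx,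
              mul_assoc]
            refine mul_le_mul_of_nonneg_left (mul_le_mul (hB x l (by omega))
              ((hb i x hx (k - l) (by omega)).trans (mul_le_mul_of_nonneg_right (le_max_left _ _)
                (hs i))) (norm_nonneg _) hB0) (Nat.cast_nonneg _)
        _ = 2 ^ k * (B * (max C 0 * s i)) := by
            rw [← Finset.sum_mul, ← Nat.cast_sum, Nat.sum_range_choose, Nat.cast_pow,
              Nat.cast_ofNat]
        _ ≤ 2 ^ n * (B * max C 0) * s i := by
            rw [mul_assoc (2 ^ n : ℝ), mul_assoc B]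
            exact mul_le_mul_of_nonneg_right (pow_le_pow_right₀ one_le_two hk) hrhs
    · rw [((hzero i x fun h => hx (hsupp h)).iteratedFDeriv ℝ k).eq_of_nhds]
      rw [show iteratedFDeriv ℝ k (fun _ : P2 => (0 : ℝ)) x = 0 by
        rcases Nat.eq_zero_or_pos k with rfl | hk'
        · ext; simp
        · rw [iteratedFDeriv_const_of_ne hk'.ne']; rfl]
      rw [norm_zero, mul_assoc (2 ^ n : ℝ), mul_assoc B]
      exact mul_nonneg (by positivity) hrhs

lemma norm_iteratedFDeriv_exp (u : ℝ) (k : ℕ) :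
    ‖iteratedFDeriv ℝ k Real.exp u‖ = Real.exp u := by
  rw [norm_iteratedFDeriv_eq_norm_iteratedDeriv, iteratedDeriv_eq_iterate, Real.iter_deriv_exp,
    Real.norm_eq_abs, Real.abs_exp]

lemma Sc.exp (h : Sc n s f) {S : ℝ} (hS : ∀ i, s i ≤ S) :
    Sc n (fun _ => 1) fun i x => Real.exp (f i x) := by
  obtain ⟨hf, hs, C, hC, hb⟩ := h
  refine Sc.of_bound (fun i => (hf i).exp) (fun _ => zero_le_one)
    (n.factorial * Real.exp (C * S) * max 1 (C * S) ^ n) fun i x k hk => ?_
  have hv : f i x ≤ C * S := (le_abs_self _).trans (((by simpa using hb i x 0 (Nat.zero_le _)) :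
    |f i x| ≤ C * s i).trans (mul_le_mul_of_nonneg_left (hS i) hC))
  rw [mul_one]
  refine (norm_iteratedFDeriv_comp_le (g := Real.exp) (f := f i) Real.contDiff_exp (hf i)
    (n := k) (by exact_mod_cast hk) x (C := Real.exp (C * S)) (D := max 1 (C * S))
    (fun l _ => by rw [norm_iteratedFDeriv_exp]; exact Real.exp_le_exp.2 hv) fun l hl1 hl => ?_).trans ?_
  · calc ‖iteratedFDeriv ℝ l (f i) x‖ ≤ C * s i := hb i x l (hl.trans hk)
      _ ≤ max 1 (C * S) := (mul_le_mul_of_nonneg_left (hS i) hC).trans (le_max_right _ _)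
      _ ≤ max 1 (C * S) ^ l := le_self_pow₀ (le_max_left _ _) (by omega)
  · gcongr
    exact le_max_left _ _

/-- `exp f - 1` is as small as `f`. -/
lemma Sc.expm1 (h : Sc n s f) {S : ℝ} (hS : ∀ i, s i ≤ S) :
    Sc n s fun i x => Real.exp (f i x) - 1 := by
  obtain ⟨he, -, E, hE, hEb⟩ := h.exp hS
  obtain ⟨hf, hs, C, hC, hb⟩ := h
  refine Sc.of_bound (fun i => (he i).sub contDiff_const) hs
    (2 ^ n * E * C + Real.exp (C * S) * C) fun i x k hk => ?_
  have hsi := hs i
  rcases Nat.eq_zero_or_pos k with rfl | hk0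
  · rw [norm_iteratedFDeriv_zero, Real.norm_eq_abs]
    have hv : |f i x| ≤ C * s i := by simpa using hb i x 0 (Nat.zero_le _)
    have hm : |Real.exp (f i x) - 1| ≤ Real.exp |f i x| * |f i x| := by
      rcases le_or_gt 0 (f i x) with hp | hp
      · rw [abs_of_nonneg hp, abs_of_nonneg (by linarith [Real.one_le_exp hp])]
        have h1 := mul_le_mul_of_nonneg_left (Real.add_one_le_exp (-(f i x))) (Real.exp_pos (f i x)).le
        rw [← Real.exp_add, add_neg_cancel, Real.exp_zero] at h1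
        linarith
      · rw [abs_of_neg hp, abs_of_nonpos (by linarith [Real.exp_le_one_iff.2 hp.le])]
        have h1 := Real.add_one_le_exp (f i x)
        have h2 : -(f i x) ≤ Real.exp (-(f i x)) * -(f i x) :=
          le_mul_of_one_le_left (by linarith) (Real.one_le_exp (by linarith))
        linarith
    refine hm.trans ((mul_le_mul (Real.exp_le_exp.2 (hv.trans (mul_le_mul_of_nonneg_left (hS i) hC)))
      hv (abs_nonneg _) (Real.exp_pos _).le).trans ?_)
    rw [add_mul, mul_assoc (Real.exp (C * S))]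
    exact le_add_of_nonneg_left (by positivity)
  · obtain ⟨j, rfl⟩ : ∃ j, k = j + 1 := ⟨k - 1, by omega⟩
    have hfd : DifferentiableAt ℝ (f i) x := (hf i).differentiable (by norm_cast; omega) x
    rw [← norm_iteratedFDeriv_fderiv]
    have e : fderiv ℝ (fun y => Real.exp (f i y) - 1) =
        fun y => Real.exp (f i y) • fderiv ℝ (f i) y := by
      funext y
      have := ((hf i).differentiable (by norm_cast; omega) y).hasFDerivAt.exp.sub_const (1 : ℝ)
      exact this.fderiv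
    rw [e]
    have hj1 : ContDiff ℝ j (fun y => Real.exp (f i y)) :=
      (he i).of_le (by exact_mod_cast (by omega : j ≤ n))
    have hj2 : ContDiff ℝ j (fderiv ℝ (f i)) :=
      ((hf i).of_le (m := ((j + 1 : ℕ) : ℕ∞ω)) (by exact_mod_cast hk)).fderiv_right
        (by push_cast; rfl)
    refine (norm_iteratedFDeriv_smul_le hj1 hj2 x le_rfl).trans ?_
    calc ∑ l ∈ Finset.range (j + 1), (j.choose l : ℝ) *
          ‖iteratedFDeriv ℝ l (fun y => Real.exp (f i y)) x‖ *
          ‖iteratedFDeriv ℝ (j - l) (fderiv ℝ (f i)) x‖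
        ≤ ∑ l ∈ Finset.range (j + 1), (j.choose l : ℝ) * (E * (C * s i)) := by
          refine Finset.sum_le_sum fun l hl => ?_
          have hl' := Finset.mem_range.1 hl
          rw [mul_assoc, norm_iteratedFDeriv_fderiv]
          exact mul_le_mul_of_nonneg_left (mul_le_mul (by simpa using hEb i x l (by omega))
            (hb i x _ (by omega)) (norm_nonneg _) hE) (Nat.cast_nonneg _)
      _ = 2 ^ j * (E * (C * s i)) := by
          rw [← Finset.sum_mul, ← Nat.cast_sum, Nat.sum_range_choose, Nat.cast_pow, Nat.cast_ofNat]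
      _ ≤ 2 ^ n * (E * (C * s i)) := by
          refine mul_le_mul_of_nonneg_right (pow_le_pow_right₀ one_le_two (by omega)) ?_
          positivity
      _ ≤ (2 ^ n * E * C + Real.exp (C * S) * C) * s i := by
          rw [add_mul, show (2 : ℝ) ^ n * (E * (C * s i)) = 2 ^ n * E * C * s i by ring]
          exact le_add_of_nonneg_right (by positivity)

/-- A fixed function as a constant family. -/
lemma Sc.fixed {F : P2 → ℝ} (hF : ContDiff ℝ n F) {B : ℝ}
    (hB : ∀ x, ∀ k ≤ n, ‖iteratedFDeriv ℝ k F x‖ ≤ B) : Sc n (fun _ : ι => (1 : ℝ)) fun _ => F :=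
  Sc.of_bound (fun _ => hF) (fun _ => zero_le_one) B fun _ x k hk => by simpa using hB x k hk

/-- The bound on values. -/
lemma Sc.exists_abs (h : Sc n s f) : ∃ C : ℝ, 0 ≤ C ∧ ∀ i x, |f i x| ≤ C * s i := by
  obtain ⟨-, -, C, hC, hb⟩ := h
  exact ⟨C, hC, fun i x => by simpa using hb i x 0 (Nat.zero_le _)⟩

/-- Values and first partials. -/
lemma Sc.exists_abs_one (h : Sc (n + 1) s f) :
    ∃ C : ℝ, 0 ≤ C ∧ ∀ i x, |f i x| ≤ C * s i ∧ |d1 (f i) x| ≤ C * s i ∧
      |d2 (f i) x| ≤ C * s i := by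
  obtain ⟨A, hA, a⟩ := h.exists_abs
  obtain ⟨B, hB, b⟩ := h.d1'.exists_abs
  obtain ⟨D, hD, d⟩ := h.d2'.exists_abs
  refine ⟨A + B + D, by positivity, fun i x => ?_⟩
  have := h.scale_nonneg i
  exact ⟨(a i x).trans (by gcongr; linarith), (b i x).trans (by gcongr; linarith),
    (d i x).trans (by gcongr; linarith)⟩

end Vale.Agent.P229.Island
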