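import Vale.Agent.P229.Island.Coef
import Vale.Agent.P229.Island.Bumps
import Vale.Agent.P229.Island.Normal

/-!
# P229 seat E: elementary facts for the island lemma
-/

namespace Vale.Agent.P229.Island

open Filter
open scoped ContDiff Topology

lemma good_mono {P : Coef} {e τ τ' K K' σ : ℝ} (h : P.Good e τ K σ) (he : 0 ≤ e) (hτ : τ ≤ τ')
    (hK : K ≤ K') : P.Good e τ' K' σ where
  hb := h.hb
  ha := h.ha
  hβ := h.hβ
  hc := h.hc
  b0 x := (h.b0 x).trans hτ
  b1 x := (h.b1 x).trans hτ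
  b2 x := (h.b2 x).trans hτ
  b11 x := (h.b11 x).trans hτ
  a0 x hx := (h.a0 x hx).trans (mul_le_mul_of_nonneg_right hτ he)
  a1 x hx := (h.a1 x hx).trans (mul_le_mul_of_nonneg_right hτ he)
  a2 x hx := (h.a2 x hx).trans (mul_le_mul_of_nonneg_right hτ he)
  β0 x hx := (h.β0 x hx).trans (mul_le_mul_of_nonneg_right hτ he)
  c0 x hx := (h.c0 x hx).trans (mul_le_mul_of_nonneg_right hτ he)
  sea := h.sea
  kb x i hi := (h.kb x i hi).trans hK
  ka x i hi := (h.ka x i hi).trans hK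
  kβ x i hi := (h.kβ x i hi).trans hK
  kc x i hi := (h.kc x i hi).trans hK

lemma abs_pd_le (f : P2 → ℝ) (x : P2) :
    |d1 f x| ≤ ‖iteratedFDeriv ℝ 1 f x‖ ∧ |d2 f x| ≤ ‖iteratedFDeriv ℝ 1 f x‖ := by
  rw [norm_iteratedFDeriv_one]
  exact ⟨(fderiv ℝ f x).unit_le_opNorm ((1, 0) : P2) (norm_dir.1.le),
    (fderiv ℝ f x).unit_le_opNorm ((0, 1) : P2) (norm_dir.2.le)⟩

lemma pocket_rot {α β : ℝ} (h : α ^ 2 + β ^ 2 = 1) (x : P2) : pocket (rotL α β x) = pocket x := by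
  simp only [pocket, radCut, rsq_rotL h]

/-- A point outside the unit disc is outside the bumps centred near the origin. -/
lemma far_from_row {q x : P2} {Λ : ℝ} (hΛ : 2 ≤ Λ) (hq : rsq q ≤ 1/16) (hx : 1 ≤ rsq x) :
    1 < rsq (Λ * (x.1 - q.1), Λ * (x.2 - q.2)) := by
  simp only [rsq] at *
  have h4 : (4 : ℝ) ≤ Λ ^ 2 := by nlinarith
  have h : 7/16 ≤ (x.1 - q.1) ^ 2 + (x.2 - q.2) ^ 2 := by
    nlinarith [sq_nonneg (x.1 - 2 * q.1), sq_nonneg (x.2 - 2 * q.2)]
  calc (1 : ℝ) < 4 * (7/16) := by norm_num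
    _ ≤ Λ ^ 2 * ((x.1 - q.1) ^ 2 + (x.2 - q.2) ^ 2) := mul_le_mul h4 h (by norm_num) (by positivity)
    _ = _ := by ring

/-- Points of norm above two lie outside the pocket and the bumps. -/
lemma rsq_of_norm {x : P2} (hx : 2 < ‖x‖) : 4 ≤ rsq x := by
  unfold rsq
  rw [Prod.norm_def, lt_max_iff, Real.norm_eq_abs, Real.norm_eq_abs] at hx
  rcases hx with h | h
  · nlinarith [sq_abs x.1, sq_nonneg x.2]
  · nlinarith [sq_abs x.2, sq_nonneg x.1]

/-- Shrinking a perturbation around `z₀`. -/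
lemma shrink_spec {φ : P2 → ℝ} {z₀ : P2} {w R A : ℝ} {j : ℕ} (hφ : ContDiff ℝ (⊤ : ℕ∞) φ)
    (hsupp : ∀ x, 2 < ‖x‖ → φ x = 0) (hw : 0 < w) (hw1 : w ≤ 1) (hR : 2 * w < R)
    (hb : ∀ x, ∀ i ≤ j, ‖iteratedFDeriv ℝ i φ x‖ ≤ A) :
    ContDiff ℝ (⊤ : ℕ∞) (fun z => φ (w⁻¹ • (z - z₀))) ∧
      tsupport (fun z => φ (w⁻¹ • (z - z₀))) ⊆ Metric.ball z₀ R ∧
      ∀ x, ∀ i ≤ j, ‖iteratedFDeriv ℝ i (fun z => φ (w⁻¹ • (z - z₀))) x‖ ≤ (2 / w) ^ j * A := by
  have h10 : (1 : ℝ) ^ 2 + 0 ^ 2 = 1 := by norm_num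
  have e : (fun z => φ (w⁻¹ • (z - z₀))) = fun z => φ (sim (-(w⁻¹ • z₀)) w⁻¹ 1 0 z) := by
    funext z
    congr 1
    ext <;> simp [sim, rotL_apply] <;> ring
  refine ⟨hφ.comp ((contDiff_id.sub contDiff_const).const_smul w⁻¹), ?_, fun x i hi => ?_⟩
  · refine (closure_minimal (t := Metric.closedBall z₀ (2 * w)) (fun z hz => ?_)
      Metric.isClosed_closedBall).trans (Metric.closedBall_subset_ball hR)
    by_contra h
    refine hz (hsupp _ ?_)
    rw [Metric.mem_closedBall, dist_eq_norm, not_le] at h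
    rw [norm_smul, Real.norm_eq_abs, abs_of_pos (inv_pos.2 hw), lt_inv_mul_iff₀ hw]
    linarith
  · rw [e]
    refine (norm_iteratedFDeriv_sim_le isOpen_univ
      (hφ.of_le (by exact_mod_cast le_top)).contDiffOn (le_refl i) h10 (inv_nonneg.2 hw.le)
      (Set.mem_univ _)).trans ?_
    rw [← div_eq_mul_inv]
    refine mul_le_mul ?_ (hb _ i hi) (norm_nonneg _) (by positivity)
    refine pow_le_pow_right₀ ?_ hi
    rw [one_le_div hw]
    linarith

/-- The determinant of the covariant Hessian in the sea outside the pocket. -/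
lemma sea_det {φ Z : P2 → ℝ} {κ η σ D : ℝ} {x : P2} (hD : Darboux κ φ Z x) (hη : 0 ≤ η)
    (hσ : 0 ≤ σ) (hx : 1 + σ / 6 ≤ rsq x) (hlap : lap φ x = η * (1 - rsq x))
    (hX : 1 ≤ κ * Real.exp (2 * φ x) - D) (hG : gradSq Z x ≤ D) :
    η * (σ / 6) ≤ H11 φ Z x * H22 φ Z x - H12 φ Z x ^ 2 := by
  rw [hD, hlap, show -(η * (1 - rsq x)) = η * (rsq x - 1) by ring]
  calc η * (σ / 6) = η * (σ / 6) * 1 := (mul_one _).symm
    _ ≤ η * (rsq x - 1) * (κ * Real.exp (2 * φ x) - gradSq Z x) :=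
        mul_le_mul (mul_le_mul_of_nonneg_left (by linarith) hη) (by linarith) zero_le_one
          (mul_nonneg hη (by linarith))

/-- The centres of the row in the coordinates of the problem. -/
noncomputable def row (u : Bool) (t : ℝ) : P2 := if u then (0, t) else (t, 0)

/-- The first coordinate of a centre in the rotated frame. -/
noncomputable def abscissa (u : Bool) (α β t : ℝ) : ℝ := if u then β * t else α * t

/-- The slope of the row in the rotated frame. -/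
noncomputable def rowSlope (u : Bool) (α β : ℝ) : ℝ := if u then α / β else -β / α

lemma row_frame {u : Bool} {α β T : ℝ} (h : α ^ 2 + β ^ 2 = 1) (hT : 0 < T)
    (hα : u = false → 1 / T ≤ |α|) (hβ : u = true → 1 / T ≤ |β|) :
    |rowSlope u α β| ≤ T ∧ ∀ t t' : ℝ,
      rotL α β (abscissa u α β t, rowSlope u α β * abscissa u α β t) = row u t ∧
      rsq (abscissa u α β t, rowSlope u α β * abscissa u α β t) = t ^ 2 ∧
      |abscissa u α β t| ≤ |t| ∧ |t - t'| ≤ T * |abscissa u α β t - abscissa u α β t'| := by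
  have ha1 : |α| ≤ 1 := abs_le.2 ⟨by nlinarith, by nlinarith⟩
  have hb1 : |β| ≤ 1 := abs_le.2 ⟨by nlinarith, by nlinarith⟩
  have hrow : ∀ t, rsq (row u t) = t ^ 2 := fun t => by cases u <;> simp [row, rsq]
  have fin : ∀ γ γ' t t' : ℝ, |γ| ≤ 1 → 1 / T ≤ |γ| → |γ'| ≤ 1 →
      |γ' / γ| ≤ T ∧ |γ * t| ≤ |t| ∧ |t - t'| ≤ T * |γ * t - γ * t'| := fun γ γ' t t' h1 hγ h1' => by
    rw [div_le_iff₀ hT] at hγ
    have hγ0 : 0 < |γ| := by nlinarith [abs_nonneg γ]
    refine ⟨?_, ?_, ?_⟩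
    · rw [abs_div, div_le_iff₀ hγ0]
      linarith
    · rw [abs_mul]; exact mul_le_of_le_one_left (abs_nonneg t) h1
    · rw [← mul_sub, abs_mul, ← mul_assoc]
      exact le_mul_of_one_le_left (abs_nonneg _) (by linarith)
  have main : |rowSlope u α β| ≤ T ∧ ∀ t t' : ℝ,
      rotL α β (abscissa u α β t, rowSlope u α β * abscissa u α β t) = row u t ∧
      |abscissa u α β t| ≤ |t| ∧ |t - t'| ≤ T * |abscissa u α β t - abscissa u α β t'| := by
    cases u
    · have hb := hα rfl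
      have hα0 : α ≠ 0 := fun h0 => by simp [h0] at hb; linarith
      simp only [rowSlope, abscissa, row, Bool.false_eq_true, if_false]
      refine ⟨(fin α (-β) 0 0 ha1 hb (by rwa [abs_neg])).1, fun t t' => ⟨?_,
        (fin α (-β) t t' ha1 hb (by rwa [abs_neg])).2⟩⟩
      rw [rotL_apply, Prod.mk.injEq]
      constructor <;> field_simp <;> first | linear_combination t * h | ring
    · have hb := hβ rfl
      have hβ0 : β ≠ 0 := fun h0 => by simp [h0] at hb; linarith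
      simp only [rowSlope, abscissa, row, if_true]
      refine ⟨(fin β α 0 0 hb1 hb ha1).1, fun t t' => ⟨?_, (fin β α t t' hb1 hb ha1).2⟩⟩
      rw [rotL_apply, Prod.mk.injEq]
      constructor <;> field_simp <;> first | linear_combination t * h | ring
  refine ⟨main.1, fun t t' => ⟨(main.2 t t').1, ?_, (main.2 t t').2.1, (main.2 t t').2.2⟩⟩
  rw [← rsq_rotL h, (main.2 t t').1, hrow]

end Vale.Agent.P229.Island
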